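import Vale.Agent.P322.Fn

/-! Basic one-variable calculus (part 1). -/

namespace Vale.Agent.P322

open Real

/-- monotonicity from a nonnegative derivative -/
theorem a1_mono {f f' : ℝ → ℝ} {a b : ℝ} (hab : a ≤ b)
    (hd : ∀ x, a ≤ x → x ≤ b → HasDerivAt f (f' x) x) (hp : ∀ x, a < x → x < b → 0 ≤ f' x) :
    f a ≤ f b := by
  rcases hab.eq_or_lt with rfl | hlt
  · exact le_rfl
  obtain ⟨c, hc, e⟩ := exists_hasDerivAt_eq_slope f f' hlt
    (fun x hx => (hd x hx.1 hx.2).continuousAt.continuousWithinAt)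
    (fun x hx => hd x hx.1.le hx.2.le)
  have h1 := hp c hc.1 hc.2
  rw [e, le_div_iff₀ (sub_pos.2 hlt)] at h1
  linarith

/-- strict monotonicity from a positive derivative -/
theorem a1_smono {f f' : ℝ → ℝ} {a b : ℝ} (hab : a < b)
    (hd : ∀ x, a ≤ x → x ≤ b → HasDerivAt f (f' x) x) (hp : ∀ x, a < x → x < b → 0 < f' x) :
    f a < f b := by
  obtain ⟨c, hc, e⟩ := exists_hasDerivAt_eq_slope f f' hab
    (fun x hx => (hd x hx.1 hx.2).continuousAt.continuousWithinAt)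
    (fun x hx => hd x hx.1.le hx.2.le)
  have h1 := hp c hc.1 hc.2
  rw [e, lt_div_iff₀ (sub_pos.2 hab)] at h1
  linarith

/-- antitonicity from a nonpositive derivative -/
theorem a1_anti {f f' : ℝ → ℝ} {a b : ℝ} (hab : a ≤ b)
    (hd : ∀ x, a ≤ x → x ≤ b → HasDerivAt f (f' x) x) (hp : ∀ x, a < x → x < b → f' x ≤ 0) :
    f b ≤ f a := by
  have := a1_mono (f := fun x => -f x) (f' := fun x => -f' x) hab (fun x h1 h2 => (hd x h1 h2).neg)
    (fun x h1 h2 => neg_nonneg.2 (hp x h1 h2))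
  linarith

theorem one_sub_tanh_sq (y : ℝ) : 1 - tanh y ^ 2 = 1 / cosh y ^ 2 := by
  have h := cosh_pos y
  have h2 := cosh_sq y
  rw [tanh_eq_sinh_div_cosh]
  field_simp
  linarith
theorem tanh_sq_lt_one' (y : ℝ) : tanh y ^ 2 < 1 := by
  have h := cosh_pos y
  have h1 := one_sub_tanh_sq y
  have : 0 < 1 / cosh y ^ 2 := by positivity
  linarith
theorem tanh_nonneg' {y : ℝ} (h : 0 ≤ y) : 0 ≤ tanh y := by
  rw [tanh_eq_sinh_div_cosh]
  exact div_nonneg (sinh_nonneg_iff.2 h) (cosh_pos y).le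
theorem tanh_pos' {y : ℝ} (h : 0 < y) : 0 < tanh y := by
  rw [tanh_eq_sinh_div_cosh]
  exact div_pos (sinh_pos_iff.2 h) (cosh_pos y)
theorem hasDerivAt_tanh' (y : ℝ) : HasDerivAt tanh (1 - tanh y ^ 2) y := by
  have h := (hasDerivAt_sinh y).div (hasDerivAt_cosh y) (cosh_pos y).ne'
  have e : tanh = fun x => sinh x / cosh x := funext tanh_eq_sinh_div_cosh
  rw [one_sub_tanh_sq, e]
  refine h.congr_deriv ?_
  have := cosh_sq y
  congr 1
  linarith
theorem tanh_le_self' {y : ℝ} (h : 0 ≤ y) : tanh y ≤ y := by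
  have := a1_mono (f := fun x => x - tanh x) (f' := fun x => 1 - (1 - tanh x ^ 2)) h
    (fun x _ _ => (hasDerivAt_id x).sub (hasDerivAt_tanh' x)) (fun x _ _ => by
      have := sq_nonneg (tanh x); linarith)
  simp only [tanh_zero] at this
  linarith
theorem tanh_mono' {a b : ℝ} (h : a ≤ b) : tanh a ≤ tanh b :=
  a1_mono h (fun x _ _ => hasDerivAt_tanh' x) fun x _ _ => by linarith [tanh_sq_lt_one' x]
theorem tanh_eq_exp (y : ℝ) : tanh y = (1 - exp (-(2 * y))) / (1 + exp (-(2 * y))) := by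
  have e : exp (-(2 * y)) = exp (-y) * exp (-y) := by rw [← exp_add]; congr 1; ring
  have e2 : exp (-y) = (exp y)⁻¹ := exp_neg y
  have := exp_pos y
  rw [tanh_eq_sinh_div_cosh, sinh_eq, cosh_eq, e, e2]
  field_simp
theorem hasDerivAt_lc (y : ℝ) : HasDerivAt lc (tanh y) y := by
  have := cosh_pos y
  refine (((hasDerivAt_cosh y).const_mul 2).log (by positivity)).congr_deriv ?_
  rw [tanh_eq_sinh_div_cosh]
  field_simp
theorem hasDerivAt_Hy (y : ℝ) : HasDerivAt Hy (-(y * (1 - tanh y ^ 2))) y := by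
  refine ((hasDerivAt_lc y).sub ((hasDerivAt_id y).mul (hasDerivAt_tanh' y))).congr_deriv ?_
  simp only [id]
  ring
theorem hasDerivAt_ph (y : ℝ) : HasDerivAt ph (y * (1 - tanh y ^ 2)) y :=
  ((hasDerivAt_Hy y).const_sub (log 2)).congr_deriv (neg_neg _)
theorem hasDerivAt_pp' (y : ℝ) : HasDerivAt pp (tanh y + y * (1 - tanh y ^ 2)) y := by
  refine ((hasDerivAt_id y).mul (hasDerivAt_tanh' y)).congr_deriv ?_
  simp only [id]
  ring
theorem lam_mul_eq (y : ℝ) : lam y * (y * (1 - tanh y ^ 2)) = tanh y + y * (1 - tanh y ^ 2) := by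
  unfold lam
  split_ifs with h
  · simp [h]
  · have := cosh_pos y
    rw [one_sub_tanh_sq, tanh_eq_sinh_div_cosh, sinh_two_mul]
    field_simp
    ring
theorem hasDerivAt_pp (y : ℝ) : HasDerivAt pp (lam y * (y * (1 - tanh y ^ 2))) y :=
  (hasDerivAt_pp' y).congr_deriv (lam_mul_eq y).symm
theorem lc_neg (y : ℝ) : lc (-y) = lc y := by simp [lc]
theorem Hy_neg (y : ℝ) : Hy (-y) = Hy y := by simp [Hy, lc_neg]
theorem ph_neg (y : ℝ) : ph (-y) = ph y := by simp [ph, Hy_neg]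
theorem pp_neg (y : ℝ) : pp (-y) = pp y := by simp [pp]
theorem Hy_zero : Hy 0 = log 2 := by simp [Hy, lc]
theorem ph_zero : ph 0 = 0 := by simp [ph, Hy_zero]
theorem pp_zero : pp 0 = 0 := by simp [pp]
theorem lam_zero : lam 0 = 2 := by simp [lam]
theorem lc_eq (y : ℝ) : lc y = y + log (1 + exp (-(2 * y))) := by
  have e : 2 * cosh y = exp y * (1 + exp (-(2 * y))) := by
    rw [cosh_eq, mul_add, ← exp_add, show y + -(2 * y) = -y by ring]
    ring
  rw [lc, e, log_mul (exp_pos _).ne' (by positivity), log_exp]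
theorem lc_eq' (y : ℝ) : lc y = log (1 + exp (2 * y)) - y := by
  rw [← lc_neg, lc_eq, show -(2 * -y) = 2 * y by ring]
  ring
theorem two_lc_eq (y : ℝ) : 2 * lc y = log (2 * (1 + cosh (2 * y))) := by
  have e : 2 * (1 + cosh (2 * y)) = (2 * cosh y) ^ 2 := by
    rw [cosh_two_mul, sinh_sq]
    ring
  rw [e, log_pow, lc]
  norm_num
theorem log_two_le_lc (y : ℝ) : log 2 ≤ lc y :=
  log_le_log two_pos (by linarith [one_le_cosh y])
theorem lc_mono {a b : ℝ} (ha : 0 ≤ a) (h : a ≤ b) : lc a ≤ lc b :=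
  a1_mono h (fun x _ _ => hasDerivAt_lc x) fun x h1 _ => tanh_nonneg' (by linarith)
theorem Hy_eq (y : ℝ) :
    Hy y = log (1 + exp (-(2 * y))) + 2 * y * exp (-(2 * y)) / (1 + exp (-(2 * y))) := by
  have := exp_pos (-(2 * y))
  rw [Hy, lc_eq, tanh_eq_exp]
  field_simp
  ring
theorem a1_even {P : ℝ → Prop} (h1 : ∀ y, P y → P (-y)) (h2 : ∀ y, 0 ≤ y → P y) (y : ℝ) : P y := by
  rcases le_total 0 y with h | h
  · exact h2 y h
  · simpa using h1 _ (h2 (-y) (by linarith))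
theorem Hy_pos (y : ℝ) : 0 < Hy y := by
  refine a1_even (P := fun y => 0 < Hy y) (fun y h => by rwa [Hy_neg]) (fun y h => ?_) y
  have h1 := exp_pos (-(2 * y))
  have h2 : 0 < log (1 + exp (-(2 * y))) := log_pos (by linarith)
  rw [Hy_eq]
  positivity
theorem Hy_anti {a b : ℝ} (ha : 0 ≤ a) (h : a ≤ b) : Hy b ≤ Hy a :=
  a1_anti h (fun x _ _ => hasDerivAt_Hy x) fun x h1 _ =>
    neg_nonpos.2 (mul_nonneg (by linarith) (by linarith [tanh_sq_lt_one' x]))
theorem Hy_le_log_two (y : ℝ) : Hy y ≤ log 2 :=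
  a1_even (P := fun y => Hy y ≤ log 2) (fun y h => by rwa [Hy_neg])
    (fun y h => Hy_zero ▸ Hy_anti le_rfl h) y
theorem ph_nonneg (y : ℝ) : 0 ≤ ph y := sub_nonneg.2 (Hy_le_log_two y)
theorem ph_mono {a b : ℝ} (ha : 0 ≤ a) (h : a ≤ b) : ph a ≤ ph b :=
  sub_le_sub_left (Hy_anti ha h) _
theorem ph_strictMono {a b : ℝ} (ha : 0 ≤ a) (h : a < b) : ph a < ph b :=
  a1_smono h (fun x _ _ => hasDerivAt_ph x) fun x h1 _ =>
    mul_pos (by linarith) (by linarith [tanh_sq_lt_one' x])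
theorem pp_nonneg (y : ℝ) : 0 ≤ pp y :=
  a1_even (P := fun y => 0 ≤ pp y) (fun y h => by rwa [pp_neg])
    (fun y h => mul_nonneg h (tanh_nonneg' h)) y
theorem pp_le_self {y : ℝ} (h : 0 ≤ y) : pp y ≤ y :=
  mul_le_of_le_one_right h (tanh_lt_one y).le
theorem lam_neg (y : ℝ) : lam (-y) = lam y := by
  unfold lam
  by_cases h : y = 0
  · simp [h]
  · rw [if_neg h, if_neg (neg_ne_zero.2 h), mul_neg, sinh_neg, neg_div_neg_eq]
theorem lam_eq {y : ℝ} (h : y ≠ 0) : lam y = 1 + sinh (2 * y) / (2 * y) := if_neg h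
theorem two_le_lam (y : ℝ) : 2 ≤ lam y := by
  refine a1_even (P := fun y => 2 ≤ lam y) (fun y h => by rwa [lam_neg]) (fun y h => ?_) y
  rcases h.eq_or_lt with rfl | h
  · exact lam_zero.ge
  have h1 : 1 ≤ sinh (2 * y) / (2 * y) := by
    rw [le_div_iff₀ (by linarith), one_mul]
    exact self_le_sinh_iff.2 (by linarith)
  rw [lam_eq h.ne']
  linarith
theorem sinh_le_mul_cosh {x : ℝ} (h : 0 ≤ x) : sinh x ≤ x * cosh x := by
  have := tanh_le_self' h
  rwa [tanh_eq_sinh_div_cosh, div_le_iff₀ (cosh_pos x)] at this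
theorem hasDerivAt_lam {y : ℝ} (h : 0 < y) :
    HasDerivAt lam ((2 * y * cosh (2 * y) - sinh (2 * y)) * 2 / (2 * y) ^ 2) y := by
  have h1 : HasDerivAt (fun x : ℝ => 2 * x) 2 y := by simpa using (hasDerivAt_id y).const_mul 2
  have h2 := (h1.sinh.div h1 (by positivity)).const_add 1
  refine (h2.congr_of_eventuallyEq ?_).congr_deriv (by ring)
  filter_upwards [lt_mem_nhds h] with x hx using lam_eq hx.ne'
theorem lam_mono {a b : ℝ} (ha : 0 ≤ a) (h : a ≤ b) : lam a ≤ lam b := by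
  rcases ha.eq_or_lt with rfl | ha
  · exact lam_zero ▸ two_le_lam b
  refine a1_mono h (fun x h1 _ => hasDerivAt_lam (by linarith)) fun x h1 _ => ?_
  have := sinh_le_mul_cosh (x := 2 * x) (by linarith)
  exact div_nonneg (by linarith) (sq_nonneg _)
/-- the tangent line inequality -/
theorem gap_nonneg {v : ℝ} (hv : 0 ≤ v) (w : ℝ) : 0 ≤ gap v w := by
  refine a1_even (P := fun w => 0 ≤ gap v w)
    (fun y h => by simpa only [gap, pp_neg, Hy_neg] using h) (fun w hw => ?_) w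
  have hd : ∀ x, HasDerivAt (gap v) ((lam x - lam v) * (x * (1 - tanh x ^ 2))) x := fun x =>
    (((hasDerivAt_pp x).add ((hasDerivAt_Hy x).const_mul (lam v))).sub_const (eta v)).congr_deriv
      (by ring)
  have h0 : gap v v = 0 := by simp [gap, eta]
  rw [← h0]
  rcases le_total w v with h | h
  · exact a1_anti h (fun x _ _ => hd x) fun x h1 h2 => mul_nonpos_of_nonpos_of_nonneg
      (sub_nonpos.2 (lam_mono (by linarith) h2.le))
      (mul_nonneg (by linarith) (by linarith [tanh_sq_lt_one' x]))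
  · exact a1_mono h (fun x _ _ => hd x) fun x h1 h2 => mul_nonneg
      (sub_nonneg.2 (lam_mono hv h1.le))
      (mul_nonneg (by linarith) (by linarith [tanh_sq_lt_one' x]))
theorem tg_ph_le {a : ℝ} (ha : 0 ≤ a) (w : ℝ) : tg a (ph w) ≤ pp w := by
  have := gap_nonneg ha w
  simp only [gap, eta, tg, ph] at *
  linarith
theorem eta_sub_le {v' v s : ℝ} (h0 : 0 ≤ v') (h : v' ≤ v) (hs : Hy v' ≤ s) :
    eta v - lam v * s ≤ eta v' - lam v' * s := by
  have h1 := gap_nonneg (h0.trans h) v'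
  have h2 := mul_le_mul_of_nonneg_right (lam_mono h0 h) (sub_nonneg.2 hs)
  simp only [gap, eta] at *
  linarith
theorem eta_mono {a b : ℝ} (ha : 0 ≤ a) (h : a ≤ b) : eta a ≤ eta b := by
  have h1 := gap_nonneg ha b
  have h2 := mul_le_mul_of_nonneg_right (lam_mono ha h) (Hy_pos b).le
  simp only [gap, eta] at *
  linarith
theorem bb_mono {a b : ℝ} (ha : 0 ≤ a) (h : a ≤ b) : bb a ≤ bb b :=
  sub_le_sub_right (eta_mono ha h) _
theorem bb_nonneg {v : ℝ} (hv : 0 ≤ v) : 0 ≤ bb v := by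
  have := bb_mono le_rfl hv
  simp only [bb, eta, pp_zero, lam_zero, Hy_zero] at *
  linarith
theorem psi_nonneg {a : ℝ} (ha : 0 ≤ a) : 0 ≤ psi a := by
  have := gap_nonneg ha 0
  simp only [gap, eta, psi, ph, pp_zero, Hy_zero] at *
  linarith
theorem bb_eq (v : ℝ) : bb v = (lam v - 2) * log 2 - psi v := by
  simp only [bb, eta, psi, ph]
  ring
theorem two_ph_le_pp (y : ℝ) : 2 * ph y ≤ pp y := by
  have := gap_nonneg le_rfl y
  simp only [gap, eta, ph, pp_zero, lam_zero, Hy_zero] at *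
  linarith
theorem y0_pos : 0 < y0 := log_pos (by norm_num)

end Vale.Agent.P322
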