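import Vale.Agent.P322.A1

/-! Basic one-variable calculus (part 2). -/

namespace Vale.Agent.P322

open Real

theorem a2_sech_pos (y : ℝ) : 0 < 1 - tanh y ^ 2 := by linarith [tanh_sq_lt_one' y]

theorem a2_tanh_div_anti {a b : ℝ} (ha : 0 < a) (h : a ≤ b) : tanh b / b ≤ tanh a / a := by
  refine a1_anti (f := fun x => tanh x / x)
    (f' := fun x => ((1 - tanh x ^ 2) * x - tanh x * 1) / x ^ 2) h
    (fun x h1 _ => (hasDerivAt_tanh' x).div (hasDerivAt_id x) (by linarith : x ≠ 0))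
    fun x h1 _ => div_nonpos_of_nonpos_of_nonneg ?_ (sq_nonneg _)
  have h2 := lam_mul_eq x
  have h3 := mul_le_mul_of_nonneg_right (two_le_lam x)
    (mul_nonneg (by linarith : 0 ≤ x) (a2_sech_pos x).le)
  linarith

theorem a2_sech_le (y : ℝ) : 1 - tanh y ^ 2 ≤ 4 * exp (-(2 * y)) := by
  have h := exp_pos (-(2 * y))
  rw [tanh_eq_exp]
  set r := exp (-(2 * y))
  have e : 1 - ((1 - r) / (1 + r)) ^ 2 = 4 * r / (1 + r) ^ 2 := by field_simp; ring
  rw [e]
  exact div_le_self (by positivity) (one_le_pow₀ (by linarith))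

theorem Hy_ge (y : ℝ) : log 2 * (1 - tanh y ^ 2) ≤ Hy y := by
  refine a1_even (P := fun y => log 2 * (1 - tanh y ^ 2) ≤ Hy y)
    (fun y h => by simpa only [Hy_neg, tanh_neg, neg_sq] using h) (fun y hy => ?_) y
  have hd : ∀ x, HasDerivAt (fun x => Hy x - log 2 * (1 - tanh x ^ 2))
      ((2 * log 2 * tanh x - x) * (1 - tanh x ^ 2)) x := fun x =>
    ((hasDerivAt_Hy x).sub ((((hasDerivAt_tanh' x).pow 2).const_sub 1).const_mul
      (log 2))).congr_deriv (by simp only [Nat.add_one_sub_one, pow_one]; push_cast; ring)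
  have hl : 0 < log 2 := log_pos one_lt_two
  rcases hy.eq_or_lt with rfl | hy
  · simp [Hy_zero]
  by_cases hc : y ≤ 2 * log 2 * tanh y
  · have := a1_mono hy.le (fun x _ _ => hd x) fun x h1 h2 => by
      refine mul_nonneg ?_ (a2_sech_pos x).le
      have a1 := a2_tanh_div_anti h1 h2.le
      rw [div_le_div_iff₀ hy h1] at a1
      have a2 := mul_le_mul_of_nonneg_left a1 (by positivity : 0 ≤ 2 * log 2)
      have a3 := mul_le_mul_of_nonneg_right hc h1.le
      have a4 : x * y ≤ 2 * log 2 * tanh x * y := by linarith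
      linarith [le_of_mul_le_mul_right a4 hy]
    simp only [Hy_zero, tanh_zero] at this
    linarith
  · push Not at hc
    have key : ∀ Y, y ≤ Y → -(4 * log 2) * exp (-(2 * Y)) ≤ Hy y - log 2 * (1 - tanh y ^ 2) := by
      intro Y hY
      have := a1_anti hY (fun x _ _ => hd x) fun x h1 h2 => by
        refine mul_nonpos_of_nonpos_of_nonneg ?_ (a2_sech_pos x).le
        have a1 := a2_tanh_div_anti hy h1.le
        rw [div_le_div_iff₀ (by linarith) hy] at a1
        have a2 := mul_le_mul_of_nonneg_left a1 (by positivity : 0 ≤ 2 * log 2)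
        have a3 := mul_le_mul_of_nonneg_right hc.le (by linarith : 0 ≤ x)
        have a4 : 2 * log 2 * tanh x * y ≤ x * y := by linarith
        linarith [le_of_mul_le_mul_right a4 hy]
      have a5 := mul_le_mul_of_nonneg_left (a2_sech_le Y) hl.le
      linarith [Hy_pos Y]
    have lim : Filter.Tendsto (fun Y : ℝ => -(4 * log 2) * exp (-(2 * Y))) Filter.atTop
        (nhds (-(4 * log 2) * 0)) :=
      (tendsto_exp_neg_atTop_nhds_zero.comp
        (Filter.tendsto_id.const_mul_atTop two_pos)).const_mul _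
    have := le_of_tendsto lim ((Filter.eventually_ge_atTop y).mono key)
    linarith
theorem ph_le_log_two_mul (y : ℝ) : ph y ≤ log 2 * tanh y ^ 2 := by
  have := Hy_ge y
  unfold ph
  linarith
theorem ph_ge_tanh_sq (y : ℝ) : tanh y ^ 2 / 2 ≤ ph y := by
  refine a1_even (P := fun y => tanh y ^ 2 / 2 ≤ ph y)
    (fun y h => by simpa only [ph_neg, tanh_neg, neg_sq] using h) (fun y hy => ?_) y
  have := a1_mono (f := fun x => ph x - tanh x ^ 2 / 2)
    (f' := fun x => (x - tanh x) * (1 - tanh x ^ 2)) hy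
    (fun x _ _ => ((hasDerivAt_ph x).sub (((hasDerivAt_tanh' x).pow 2).div_const 2)).congr_deriv
      (by simp only [Nat.add_one_sub_one, pow_one]; push_cast; ring))
    fun x h1 _ => mul_nonneg (sub_nonneg.2 (tanh_le_self' h1.le)) (a2_sech_pos x).le
  simp only [ph_zero, tanh_zero] at this
  linarith
theorem ph_le_sq (y : ℝ) : ph y ≤ y ^ 2 / 2 := by
  refine a1_even (P := fun y => ph y ≤ y ^ 2 / 2)
    (fun y h => by simpa only [ph_neg, neg_sq] using h) (fun y hy => ?_) y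
  have := a1_mono (f := fun x => x ^ 2 / 2 - ph x) (f' := fun x => x * tanh x ^ 2) hy
    (fun x _ _ => ((((hasDerivAt_id x).pow 2).div_const 2).sub (hasDerivAt_ph x)).congr_deriv
      (by simp only [Nat.add_one_sub_one, pow_one, id]; push_cast; ring))
    fun x h1 _ => by positivity
  simp only [ph_zero] at this
  linarith
theorem ph_ge_poly (y : ℝ) : y ^ 2 / 2 - y ^ 4 / 4 ≤ ph y := by
  refine a1_even (P := fun y => y ^ 2 / 2 - y ^ 4 / 4 ≤ ph y)
    (fun y h => by rw [ph_neg]; linarith) (fun y hy => ?_) y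
  have := a1_mono (f := fun x => ph x - (x ^ 2 / 2 - x ^ 4 / 4))
    (f' := fun x => x * (x ^ 2 - tanh x ^ 2)) hy
    (fun x _ _ => ((hasDerivAt_ph x).sub ((((hasDerivAt_id x).pow 2).div_const 2).sub
      (((hasDerivAt_id x).pow 4).div_const 4))).congr_deriv
      (by simp only [Nat.add_one_sub_one, pow_one, id]; push_cast; ring))
    fun x h1 _ => mul_nonneg h1.le
      (sub_nonneg.2 (pow_le_pow_left₀ (tanh_nonneg' h1.le) (tanh_le_self' h1.le) 2))
  simp only [ph_zero] at this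
  linarith
theorem a2_log_le {r : ℝ} (hr : 0 < r) : log (1 + r) ≤ r := by
  linarith [log_le_sub_one_of_pos (by linarith : 0 < 1 + r)]
theorem a2_le_log {r : ℝ} (hr : 0 < r) : r / (1 + r) ≤ log (1 + r) := by
  have := one_sub_inv_le_log_of_pos (by linarith : 0 < 1 + r)
  refine le_trans (le_of_eq ?_) this
  field_simp
  ring
theorem Hy_le_exp {y : ℝ} (h : 0 ≤ y) : Hy y ≤ (1 + 2 * y) * exp (-(2 * y)) := by
  have hr := exp_pos (-(2 * y))
  have h1 := a2_log_le hr
  have h2 : 2 * y * exp (-(2 * y)) / (1 + exp (-(2 * y))) ≤ 2 * y * exp (-(2 * y)) :=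
    div_le_self (by positivity) (by linarith)
  rw [Hy_eq]
  linarith
theorem Hy_ge_exp {y : ℝ} (h : 0 ≤ y) :
    (1 + 2 * y) * exp (-(2 * y)) / (1 + exp (-(2 * y))) ≤ Hy y := by
  have hr := exp_pos (-(2 * y))
  have h1 := a2_le_log hr
  have := h
  rw [Hy_eq, add_mul, one_mul, add_div]
  linarith
theorem a2_sinh_eq (v : ℝ) :
    sinh (2 * v) = (1 - exp (-(2 * v)) ^ 2) / (2 * exp (-(2 * v))) := by
  have := exp_pos (2 * v)
  rw [sinh_eq, exp_neg]
  field_simp
theorem eta_le_exp {v : ℝ} (h : 0 < v) :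
    eta v ≤ v + 1 / 2 + 1 / (4 * v) + (1 + 2 * v) * exp (-(2 * v)) := by
  have h1 := pp_le_self h.le
  have h2 := Hy_le_exp h.le
  have hr := exp_pos (-(2 * v))
  have h3 : sinh (2 * v) / (2 * v) ≤ 1 / (2 * exp (-(2 * v))) / (2 * v) := by
    rw [a2_sinh_eq]
    gcongr
    linarith [sq_nonneg (exp (-(2 * v)))]
  have h4 := mul_le_mul h3 h2 (Hy_pos v).le (by positivity)
  have h5 : 1 / (2 * exp (-(2 * v))) / (2 * v) * ((1 + 2 * v) * exp (-(2 * v))) =
      1 / 2 + 1 / (4 * v) := by field_simp; ring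
  rw [eta, lam_eq h.ne']
  linarith
theorem eta_ge_exp {v : ℝ} (h : 0 < v) :
    v + 1 / 2 + (1 - exp (-(2 * v))) / (4 * v) ≤ eta v := by
  have hr := exp_pos (-(2 * v))
  have hr1 : exp (-(2 * v)) ≤ 1 := exp_le_one_iff.2 (by linarith)
  have h1 := a2_le_log hr
  have e : eta v = v + (1 - exp (-(2 * v))) / 2 +
      (1 + (1 - exp (-(2 * v)) ^ 2) / (4 * v * exp (-(2 * v)))) * log (1 + exp (-(2 * v))) := by
    rw [eta, lam_eq h.ne', pp, Hy_eq, tanh_eq_exp, a2_sinh_eq]
    field_simp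
    ring
  rw [e]
  set r := exp (-(2 * v))
  have h0 : 0 ≤ 1 - r ^ 2 := by nlinarith
  have h2 := mul_le_mul_of_nonneg_left h1 (by positivity : 0 ≤ 1 + (1 - r ^ 2) / (4 * v * r))
  have h3 : (1 + (1 - r ^ 2) / (4 * v * r)) * (r / (1 + r)) = r / (1 + r) + (1 - r) / (4 * v) := by
    field_simp
    ring
  have h4 : r / 2 ≤ r / (1 + r) := div_le_div_of_nonneg_left hr.le (by linarith) (by linarith)
  linarith
theorem continuous_Hy : Continuous Hy :=
  continuous_iff_continuousAt.2 fun x => (hasDerivAt_Hy x).continuousAt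
theorem continuous_ph : Continuous ph :=
  continuous_iff_continuousAt.2 fun x => (hasDerivAt_ph x).continuousAt
theorem a2_Hy_le {y : ℝ} (h : 0 < y) : Hy y ≤ 2 / y := by
  have h1 : 1 + y ≤ exp y := by linarith [add_one_le_exp y]
  have h2 : exp (-(2 * y)) = 1 / (exp y) ^ 2 := by
    rw [exp_neg, two_mul, exp_add, sq, one_div]
  refine (Hy_le_exp h.le).trans ?_
  have h3 := pow_le_pow_left₀ (by linarith) h1 2
  rw [h2, mul_one_div, div_le_div_iff₀ (by positivity) h]
  nlinarith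
theorem exists_Hy_eq {a s : ℝ} (ha : 0 ≤ a) (hs : 0 < s) (h : s ≤ Hy a) :
    ∃ w, a ≤ w ∧ Hy w = s := by
  have h0 : 0 < 2 / s := by positivity
  have h1 : Hy (a + 2 / s) ≤ s := by
    refine (Hy_anti h0.le (by linarith)).trans ((a2_Hy_le h0).trans (le_of_eq ?_))
    field_simp
  obtain ⟨w, hw, e⟩ := intermediate_value_Icc' (by linarith : a ≤ a + 2 / s)
    continuous_Hy.continuousOn ⟨h1, h⟩
  exact ⟨w, hw.1, e⟩
theorem exists_ph_eq {a b I : ℝ} (ha : 0 ≤ a) (hab : a ≤ b) (h1 : ph a ≤ I) (h2 : I ≤ ph b) :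
    ∃ s, a ≤ s ∧ s ≤ b ∧ ph s = I := by
  have := ha
  obtain ⟨w, hw, e⟩ := intermediate_value_Icc hab continuous_ph.continuousOn ⟨h1, h2⟩
  exact ⟨w, hw.1, hw.2, e⟩
theorem lc_pos (y : ℝ) : 0 < lc y := (log_pos one_lt_two).trans_le (log_two_le_lc y)
theorem mu_nonneg (y : ℝ) : 0 ≤ mu y := div_nonneg (sq_nonneg _) (lc_pos y).le
theorem mu_pos {y : ℝ} (h : 0 < y) : 0 < mu y :=
  div_pos (pow_pos (sinh_pos_iff.2 h) 2) (lc_pos y)
theorem mu_mono {a b : ℝ} (ha : 0 ≤ a) (h : a ≤ b) : mu a ≤ mu b := by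
  refine a1_mono (f := fun x => sinh x ^ 2 / lc x) h
    (fun x _ _ => ((hasDerivAt_sinh x).pow 2).div (hasDerivAt_lc x) (lc_pos x).ne')
    fun x h1 _ => div_nonneg ?_ (sq_nonneg _)
  have a1 : 0 ≤ sinh x := sinh_nonneg_iff.2 (by linarith)
  have a2 : sinh x * tanh x ≤ cosh x * 1 :=
    mul_le_mul (sinh_lt_cosh x).le (tanh_lt_one x).le (tanh_nonneg' (by linarith)) (cosh_pos x).le
  have a3 : 1 ≤ 2 * lc x := by linarith [log_two_le_lc x, log_two_gt_d9]
  have a4 := mul_le_mul_of_nonneg_left a3 (cosh_pos x).le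
  have a5 := mul_le_mul_of_nonneg_left (a2.trans a4) a1
  simp only [Nat.add_one_sub_one, pow_one, Pi.pow_apply]
  push_cast
  linarith
theorem LL_pos {y : ℝ} (h : 0 < y) : 0 < LL y := div_pos (Hy_pos y) (tanh_pos' h)
theorem hasDerivAt_LL {y : ℝ} (h : 0 < y) : HasDerivAt LL (-(lc y / sinh y ^ 2)) y := by
  refine ((hasDerivAt_Hy y).div (hasDerivAt_tanh' y) (tanh_pos' h).ne').congr_deriv ?_
  have h1 := cosh_pos y
  have h2 := sinh_pos_iff.2 h
  rw [one_sub_tanh_sq, Hy, tanh_eq_sinh_div_cosh]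
  field_simp
  ring
theorem LL_strictAnti {a b : ℝ} (ha : 0 < a) (h : a < b) : LL b < LL a := by
  have := a1_smono (f := fun x => -LL x) (f' := fun x => lc x / sinh x ^ 2) h
    (fun x h1 _ => (hasDerivAt_LL (by linarith)).neg.congr_deriv (neg_neg _))
    fun x h1 _ => div_pos (lc_pos x) (pow_pos (sinh_pos_iff.2 (by linarith)) 2)
  linarith
theorem LL_anti {a b : ℝ} (ha : 0 < a) (h : a ≤ b) : LL b ≤ LL a := by
  rcases h.eq_or_lt with rfl | h
  · exact le_rfl
  · exact (LL_strictAnti ha h).le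
/-- convexity of `LL` in tangent form -/
theorem kap_sub_le {Y y : ℝ} (hY : 0 < Y) (hy : 0 < y) : kap Y - mu Y * LL y ≤ y := by
  have hd : ∀ x, 0 < x → HasDerivAt (fun x => x + mu Y * LL x) (1 - mu Y / mu x) x := by
    intro x hx
    refine ((hasDerivAt_id x).add ((hasDerivAt_LL hx).const_mul (mu Y))).congr_deriv ?_
    rw [show mu x = sinh x ^ 2 / lc x from rfl, div_div_eq_mul_div]
    ring
  unfold kap
  rcases le_total y Y with h | h
  · have := a1_anti h (fun x h1 _ => hd x (by linarith)) fun x h1 h2 => by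
      rw [sub_nonpos, one_le_div (mu_pos (by linarith))]
      exact mu_mono (by linarith) h2.le
    linarith
  · have := a1_mono h (fun x h1 _ => hd x (by linarith)) fun x h1 h2 => by
      rw [sub_nonneg, div_le_one (mu_pos (by linarith))]
      exact mu_mono hY.le h1.le
    linarith
theorem kap_pos {Y : ℝ} (hY : 0 < Y) : 0 < kap Y :=
  add_pos_of_pos_of_nonneg hY (mul_nonneg (mu_nonneg Y) (LL_pos hY).le)
theorem exists_LL_eq {l : ℝ} (hl : 0 < l) : ∃ Y, 0 < Y ∧ LL Y = l := by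
  have ht := tanh_pos' one_pos
  set a := min (1 / 2) (1 / (2 * l)) with ha
  set b := 1 + 2 / (l * tanh 1) with hb
  have ha0 : 0 < a := by positivity
  have ha1 : a ≤ 1 / 2 := min_le_left _ _
  have ha2 : a ≤ 1 / (2 * l) := min_le_right _ _
  have hb0 : 0 < 2 / (l * tanh 1) := by positivity
  have h1 : l ≤ LL a := by
    rw [LL, le_div_iff₀ (tanh_pos' ha0)]
    rw [le_div_iff₀ (by positivity)] at ha2
    have a1 := mul_le_mul_of_nonneg_left (tanh_le_self' ha0.le) hl.le
    have a2 := ph_le_sq a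
    have a3 := pow_le_pow_left₀ ha0.le ha1 2
    unfold ph at a2
    linarith [log_two_gt_d9]
  have h2 : LL b ≤ l := by
    rw [LL, div_le_iff₀ (tanh_pos' (by linarith))]
    refine (Hy_anti hb0.le (by linarith)).trans ((a2_Hy_le hb0).trans ?_)
    have : 2 / (2 / (l * tanh 1)) = l * tanh 1 := by field_simp
    rw [this]
    exact mul_le_mul_of_nonneg_left (tanh_mono' (by linarith)) hl.le
  obtain ⟨w, hw, e⟩ := intermediate_value_Icc' (by linarith : a ≤ b) (f := LL)
    (fun x hx => (hasDerivAt_LL (by linarith [hx.1])).continuousAt.continuousWithinAt) ⟨h2, h1⟩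
  exact ⟨w, by linarith [hw.1], e⟩
theorem LL_sub_ge {y Y : ℝ} (hy : 0 < y) (h : y ≤ Y) :
    lc y * (1 / tanh y - 1 / tanh Y) ≤ LL y - LL Y := by
  have := a1_mono (f := fun s => lc y * (tanh s)⁻¹ - LL s)
    (f' := fun s => (lc s - lc y) / sinh s ^ 2) h
    (fun x h1 _ => by
      have hx : 0 < x := by linarith
      refine ((((hasDerivAt_tanh' x).inv (tanh_pos' hx).ne').const_mul (lc y)).sub
        (hasDerivAt_LL hx)).congr_deriv ?_
      have h1 := cosh_pos x
      have h2 := sinh_pos_iff.2 hx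
      rw [one_sub_tanh_sq, tanh_eq_sinh_div_cosh]
      field_simp
      ring)
    fun x h1 _ => div_nonneg (sub_nonneg.2 (lc_mono hy.le h1.le)) (sq_nonneg _)
  simp only [one_div]
  linarith

end Vale.Agent.P322
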