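import Vale.Agent.P322.A1

/-! Numerical values at `y0 = log (3/2)`. -/

namespace Vale.Agent.P322

open Real

theorem y0_bounds : (0.40546 : ℝ) < y0 ∧ y0 < 0.40547 := by
  have h := abs_log_sub_add_sum_range_le (x := 1 / 3) (by rw [abs_of_pos] <;> norm_num) 12
  have e : log (1 - 1 / 3) = -y0 := by
    rw [y0, ← log_inv]
    norm_num
  rw [e, abs_of_pos (by norm_num : (0 : ℝ) < 1 / 3), abs_le] at h
  simp only [Finset.sum_range_succ, Finset.sum_range_zero] at h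
  norm_num at h
  constructor <;> linarith [h.1, h.2]
theorem exp_y0 : exp y0 = 3 / 2 := exp_log (by norm_num)
theorem exp_two_y0 : exp (2 * y0) = 9 / 4 := by
  rw [two_mul, exp_add, exp_y0]
  norm_num
theorem tanh_y0 : tanh y0 = 5 / 13 := by
  rw [tanh_eq_exp, exp_neg, exp_two_y0]
  norm_num
theorem sinh_two_y0 : sinh (2 * y0) = 65 / 72 := by
  rw [sinh_eq, exp_neg, exp_two_y0]
  norm_num
theorem cosh_two_y0 : cosh (2 * y0) = 97 / 72 := by
  rw [cosh_eq, exp_neg, exp_two_y0]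
  norm_num
theorem lam_y0_sharp : (2.11324 : ℝ) < lam y0 ∧ lam y0 < 2.11328 := by
  obtain ⟨h1, h2⟩ := y0_bounds
  rw [lam_eq y0_pos.ne', sinh_two_y0]
  have a1 : (1.11324 : ℝ) < 65 / 72 / (2 * y0) := by
    rw [lt_div_iff₀ (by linarith)]
    linarith
  have a2 : 65 / 72 / (2 * y0) < (1.11328 : ℝ) := by
    rw [div_lt_iff₀ (by linarith)]
    linarith
  constructor <;> linarith
theorem lam_y0_bounds : (2.1132 : ℝ) < lam y0 ∧ lam y0 < 2.1133 := by
  obtain ⟨h1, h2⟩ := lam_y0_sharp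
  constructor <;> linarith
theorem lc_y0_bounds : (0.773189 : ℝ) < lc y0 ∧ lc y0 < 0.773191 := by
  have h := abs_log_sub_add_sum_range_le (x := 1 / 13) (by rw [abs_of_pos] <;> norm_num) 5
  have e : log (1 - 1 / 13) = log 2 - lc y0 := by
    rw [lc, cosh_eq, exp_neg, exp_y0, ← log_div (by norm_num) (by norm_num)]
    norm_num
  rw [e, abs_of_pos (by norm_num : (0 : ℝ) < 1 / 13), abs_le] at h
  simp only [Finset.sum_range_succ, Finset.sum_range_zero] at h
  norm_num at h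
  constructor <;> linarith [h.1, h.2, log_two_gt_d9, log_two_lt_d9]
theorem Hy_y0_bounds : (0.61723 : ℝ) < Hy y0 ∧ Hy y0 < 0.61725 := by
  obtain ⟨h1, h2⟩ := y0_bounds
  obtain ⟨h3, h4⟩ := lc_y0_bounds
  rw [Hy, tanh_y0]
  constructor <;> linarith
theorem bb_y0_bounds : (0.0740 : ℝ) < bb y0 ∧ bb y0 < 0.0741 := by
  obtain ⟨h1, h2⟩ := y0_bounds
  obtain ⟨h3, h4⟩ := lam_y0_sharp
  obtain ⟨h5, h6⟩ := Hy_y0_bounds
  have a1 := mul_le_mul h3.le h5.le (by norm_num) (by linarith)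
  have a2 := mul_le_mul h4.le h6.le (by linarith) (by norm_num)
  rw [bb, eta, pp, tanh_y0]
  constructor <;> linarith [log_two_gt_d9, log_two_lt_d9]
theorem pp_sub_y0 : pp y0 - 2 * ph y0 < 0.0042 := by
  obtain ⟨h1, h2⟩ := y0_bounds
  obtain ⟨h5, h6⟩ := Hy_y0_bounds
  rw [pp, ph, tanh_y0]
  linarith [log_two_gt_d9]

end Vale.Agent.P322
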