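import Vale.Agent.P322.A2
import Vale.Agent.P322.Const

/-! Numerical inequalities for the region of small entropy. -/

namespace Vale.Agent.P322

open Real

private lemma exp_neg_nat_le (k : ℕ) : exp (-(k : ℝ)) ≤ (0.36788 : ℝ) ^ k := by
  have h : exp (-(k : ℝ)) = exp (-1) ^ k := by
    rw [← Real.exp_nat_mul]; congr 1; ring
  rw [h]
  exact pow_le_pow_left₀ (exp_pos _).le (by have := Real.exp_neg_one_lt_d9; linarith) k

private lemma exp_neg_le_of {x : ℝ} (k : ℕ) (h : (k : ℝ) ≤ x) : exp (-x) ≤ (0.36788 : ℝ) ^ k :=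
  le_trans (exp_le_exp.mpr (by linarith)) (exp_neg_nat_le k)

private lemma sigma_le (Y : ℝ) : 1 - tanh Y ^ 2 ≤ 4 * exp (-(2 * Y)) := by
  rw [tanh_eq_exp]
  set r := exp (-(2 * Y)) with hr
  have hr0 : 0 < r := exp_pos _
  have h1 : 1 - ((1 - r) / (1 + r)) ^ 2 = 4 * r / (1 + r) ^ 2 := by
    field_simp; ring
  rw [h1]
  apply div_le_self (by positivity)
  nlinarith

private lemma sigma_pos (Y : ℝ) : 0 < 1 - tanh Y ^ 2 := by
  have := tanh_sq_lt_one' Y
  linarith

private lemma witness {Y n : ℝ} (hY : 4 ≤ Y) (hn : 1 ≤ n) :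
    ∃ w, Y ≤ w ∧ Hy w ≤ Hy Y / n ∧ eta w ≤ Y + 57 / 100 + 9 / 16 * log n := by
  set r := exp (-(2 * Y)) with hr
  have hr0 : 0 < r := exp_pos _
  have hr1 : r ≤ (0.36788 : ℝ) ^ 8 := exp_neg_le_of 8 (by push_cast; linarith)
  have hr2 : r ≤ 0.00034 := le_trans hr1 (by norm_num)
  have hl : 0 ≤ log n := log_nonneg hn
  have hn0 : 0 < n := by linarith
  set δ := 9 / 16 * (log n + r) with hδ
  have hδ0 : 0 ≤ δ := by positivity
  refine ⟨Y + δ, by linarith, ?_, ?_⟩
  · have h1 := Hy_le_exp (y := Y + δ) (by linarith)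
    have h2 := Hy_ge_exp (y := Y) (by linarith)
    rw [← hr] at h2
    have h3 : 1 + 2 * (Y + δ) ≤ (1 + 2 * Y) * exp (2 * δ / 9) := by
      have := add_one_le_exp (2 * δ / 9)
      nlinarith
    have h4 : exp (2 * δ / 9) * exp (-(2 * (Y + δ))) = r * exp (-r) / n := by
      have e : 2 * δ / 9 + -(2 * (Y + δ)) = -(2 * Y) + -r + -log n := by rw [hδ]; ring
      rw [← exp_add, e, exp_add, exp_add, exp_neg (log n), exp_log hn0, ← hr, div_eq_mul_inv]
    have h5 : exp (-r) ≤ 1 / (1 + r) := by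
      rw [exp_neg, one_div]
      apply inv_anti₀ (by linarith)
      have := add_one_le_exp r
      linarith
    have h6 : (1 + 2 * Y) * (r * exp (-r) / n) ≤ (1 + 2 * Y) * r / (1 + r) / n := by
      have : (1 + 2 * Y) * r / (1 + r) / n = (1 + 2 * Y) * (r * (1 / (1 + r)) / n) := by
        field_simp
      rw [this]
      gcongr
    calc Hy (Y + δ) ≤ (1 + 2 * (Y + δ)) * exp (-(2 * (Y + δ))) := h1
      _ ≤ (1 + 2 * Y) * exp (2 * δ / 9) * exp (-(2 * (Y + δ))) := by gcongr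
      _ = (1 + 2 * Y) * (r * exp (-r) / n) := by rw [mul_assoc, h4]
      _ ≤ (1 + 2 * Y) * r / (1 + r) / n := h6
      _ ≤ Hy Y / n := by gcongr
  · have hw : 4 ≤ Y + δ := by linarith
    have h1 := eta_le_exp (v := Y + δ) (by linarith)
    have h2 : 1 / (4 * (Y + δ)) ≤ 1 / 16 := by
      apply one_div_le_one_div_of_le (by norm_num); linarith
    have h3 : (1 + 2 * (Y + δ)) * exp (-(2 * (Y + δ))) ≤ 0.0031 := by
      set t := Y + δ - 4 with ht
      have ht0 : 0 ≤ t := by linarith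
      have e1 : exp (-(2 * (Y + δ))) = exp (-(8 : ℝ)) * exp (-(2 * t)) := by
        rw [← exp_add]; congr 1; rw [ht]; ring
      have e2 : exp (-(8 : ℝ)) ≤ 0.00034 :=
        le_trans (exp_neg_le_of 8 (by norm_num)) (by norm_num)
      have e3 : (1 + 2 * t) * exp (-(2 * t)) ≤ 1 := by
        have := add_one_le_exp (2 * t)
        have h4 : exp (2 * t) * exp (-(2 * t)) = 1 := by rw [← exp_add]; simp
        nlinarith [exp_pos (-(2 * t))]
      have e4 : 1 + 2 * (Y + δ) = 9 + 2 * t := by rw [ht]; ring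
      rw [e1, e4]
      have e5 : (9 + 2 * t) * exp (-(2 * t)) ≤ 9 := by nlinarith [exp_pos (-(2 * t))]
      have e6 : 0 < exp (-(8 : ℝ)) := exp_pos _
      nlinarith [exp_pos (-(2 * t))]
    rw [hδ] at h1 h2 h3
    rw [hδ]
    linarith

theorem big_sup {Y n v : ℝ} (hY : 4 ≤ Y) (hn : 1 ≤ n) (hv : 0 ≤ v) :
    n * eta v - lam v * Hy Y ≤ pp Y + (n - 1) * (Y + 57 / 100 + 9 / 16 * log n) := by
  obtain ⟨w, hw, hH, he⟩ := witness hY hn
  have hw0 : 0 ≤ w := by linarith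
  have hn0 : 0 < n := by linarith
  have hm : (n - 1) * eta w ≤ (n - 1) * (Y + 57 / 100 + 9 / 16 * log n) :=
    mul_le_mul_of_nonneg_left he (by linarith)
  rcases le_total w v with h | h
  · have h1 := eta_sub_le hw0 h hH
    have h2 := gap_nonneg hw0 Y
    unfold gap at h2
    have h3 := mul_le_mul_of_nonneg_left h1 hn0.le
    have e1 : n * (eta v - lam v * (Hy Y / n)) = n * eta v - lam v * Hy Y := by field_simp
    have e2 : n * (eta w - lam w * (Hy Y / n)) = n * eta w - lam w * Hy Y := by field_simp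
    rw [e1, e2] at h3
    nlinarith
  · have h1 := eta_mono hv h
    have h2 := gap_nonneg hv Y
    unfold gap at h2
    have h3 : (n - 1) * eta v ≤ (n - 1) * eta w := mul_le_mul_of_nonneg_left h1 (by linarith)
    nlinarith

theorem big_S {Y d : ℝ} (hY : 4 ≤ Y) (hd : 0 < d) (hd' : d ≤ 37 / 50) :
    ∃ w, y0 ≤ w ∧ Hy w ≤ Hy Y * d ∧ 2 * log 2 + d * (bb w + xi) ≤ Y := by
  have hn : 1 ≤ 1 / d := by rw [le_div_iff₀ hd]; linarith
  obtain ⟨w, hw, hH, he⟩ := witness hY hn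
  refine ⟨w, by have := y0_bounds.2; linarith, ?_, ?_⟩
  · have : Hy Y / (1 / d) = Hy Y * d := by field_simp
    rwa [this] at hH
  · have h1 : log (1 / d) ≤ 1 / d - 1 := log_le_sub_one_of_pos (by positivity)
    have h2 : d * log (1 / d) ≤ 1 - d := by
      have := mul_le_mul_of_nonneg_left h1 hd.le
      have e : d * (1 / d - 1) = 1 - d := by field_simp
      rwa [e] at this
    have h3 := mul_le_mul_of_nonneg_left he hd.le
    have h4 := log_two_lt_d9
    have h5 : (1 - d) * (4 - 2 * 0.6931471808) ≤ (1 - d) * (Y - 2 * log 2) :=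
      mul_le_mul_of_nonneg_left (by linarith) (by linarith)
    unfold bb xi
    nlinarith

theorem big_A {Y k : ℝ} (hY : 4 ≤ Y) (hk : 0 ≤ k) (hk' : k ≤ 9 / 20 * exp (-Y)) :
    Y + 57 / 100 + 9 / 16 * log (1 + k) ≤ -log (k + (1 - tanh Y ^ 2)) := by
  have h4 : exp (-Y) ≤ 0.0184 := le_trans (exp_neg_le_of 4 (by push_cast; linarith)) (by norm_num)
  have hE : 0 < exp (-Y) := exp_pos _
  have hs := sigma_le Y
  have hs0 := sigma_pos Y
  have e1 : exp (-(2 * Y)) = exp (-Y) * exp (-Y) := by rw [← exp_add]; congr 1; ring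
  have h1 : k + (1 - tanh Y ^ 2) ≤ 0.5236 * exp (-Y) := by rw [e1] at hs; nlinarith
  have h2 : log (k + (1 - tanh Y ^ 2)) ≤ log (0.5236 * exp (-Y)) :=
    log_le_log (by linarith) h1
  have h3 : log (0.5236 * exp (-Y)) = log 1.0472 - log 2 - Y := by
    rw [log_mul (by norm_num) hE.ne', log_exp, ← log_div (by norm_num) (by norm_num)]
    norm_num
    ring
  have h5 : log 1.0472 ≤ 1.0472 - 1 := log_le_sub_one_of_pos (by norm_num)
  have h6 : log (1 + k) ≤ 1 + k - 1 := log_le_sub_one_of_pos (by linarith)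
  have h7 := log_two_gt_d9
  linarith

private lemma main_core {Y k v ρ q κ L a b c d e : ℝ} (hY : 4 ≤ Y) (hv1 : 1.5978 ≤ v)
    (hq0 : 0 < q) (hqv : q * (4 * v) = 1) (hρ0 : 0 < ρ) (_hκ0 : 0 ≤ κ)
    (hL1 : 0.6931471803 < L) (hL2 : L < 0.6931471808)
    (hk : k ≤ a) (hρ : ρ ≤ 0.042) (hκ : κ ≤ b) (hb : b ≤ 1) (hb0 : 0 ≤ b)
    (hc : 2 * Y - 1 + 2 * ρ ≤ c * (4 * v)) (hd : v + q ≤ Y - d)
    (he : ρ ≤ e)
    (hnum : 57 / 100 + 9 / 16 * a + c + 4 * e + 4 * 0.6931471808 + 1 / 20 - 1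
      + b * (4 - d - 0.9112) ≤ 4) :
    Y + 57 / 100 + 9 / 16 * k + (1 + 2 * Y) * q
      ≤ -(2 * v - 2 * Y + 4 * ρ) + (2 - κ) * (v + 1 / 2 + (1 - ρ) * q - 2 * L - 1 / 40) := by
  obtain ⟨B0, hB0⟩ : ∃ B0, B0 = v + 1 / 2 + (1 - ρ) * q - 2 * L - 1 / 40 := ⟨_, rfl⟩
  rw [← hB0]
  have hρq : 0 ≤ ρ * q := by positivity
  have hρq2 : ρ * q ≤ q := by nlinarith
  have e0 : (1 - ρ) * q = q - ρ * q := by ring
  rw [e0] at hB0
  have c5 : (2 * Y - 1 + 2 * ρ) * q ≤ c := by
    have h1 := mul_le_mul_of_nonneg_right hc hq0.le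
    have h2 : c * (4 * v) * q = c * (q * (4 * v)) := by ring
    rw [h2, hqv, mul_one] at h1
    exact h1
  have c6 : B0 ≤ Y - d - 0.9112 := by linarith
  have hB1 : 0 ≤ B0 := by linarith
  have c7 : κ * B0 ≤ b * (Y - d - 0.9112) := mul_le_mul hκ c6 hB1 hb0
  have c8 : (2 - κ) * B0 = 2 * B0 - κ * B0 := by ring
  rw [c8]
  have c10 : (2 * Y - 1 + 2 * ρ) * q = (1 + 2 * Y) * q - 2 * q + 2 * (ρ * q) := by ring
  have c11 : b * (Y - d - 0.9112) = b * (4 - d - 0.9112) + b * (Y - 4) := by ring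
  have c12 : b * (Y - 4) ≤ Y - 4 := by nlinarith
  linarith

private lemma log_tenth : log (1 / 10) = log (4 / 5) - 3 * log 2 := by
  have : (1 / 10 : ℝ) = 4 / 5 / 2 ^ 3 := by norm_num
  rw [this, log_div (by norm_num) (by norm_num), log_pow]; norm_num

private lemma exp_319 : exp (-3.19 : ℝ) ≤ 0.042 := by
  have h1 : exp (-3.19 : ℝ) = exp (-(3 : ℝ)) * exp (-0.19) := by
    rw [← exp_add]; norm_num
  have h2 : exp (-(3 : ℝ)) ≤ 0.0498 := le_trans (exp_neg_le_of 3 (by norm_num)) (by norm_num)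
  have h3 : exp (-0.19 : ℝ) ≤ 1 / 1.19 := by
    rw [exp_neg, one_div]
    apply inv_anti₀ (by norm_num)
    have := add_one_le_exp (0.19 : ℝ)
    linarith
  have h4 : exp (-(3 : ℝ)) * exp (-0.19) ≤ 0.0498 * (1 / 1.19) :=
    mul_le_mul h2 h3 (exp_pos _).le (by norm_num)
  have h5 : (0.0498 : ℝ) * (1 / 1.19) ≤ 0.042 := by norm_num
  linarith

private lemma main_ineq {Y k v : ℝ} (hY : 4 ≤ Y) (hk0 : 0 < k) (hk' : k ≤ 9 / 25)
    (hlk : -0.8043 - Y ≤ log k) (hlk2 : log k ≤ -0.986) (hv : v = Y + log k / 2) :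
    Y + 57 / 100 + 9 / 16 * k + (1 + 2 * Y) * (1 / (4 * v))
      ≤ -(log k + 4 * exp (-(2 * v))) + (2 - k / (1 + k))
        * (v + 1 / 2 + (1 - exp (-(2 * v))) * (1 / (4 * v)) - 2 * log 2 - 1 / 40) := by
  have l2a := log_two_gt_d9
  have l2b := log_two_lt_d9
  have hv1 : 1.5978 ≤ v := by rw [hv]; linarith
  have hv0 : 0 < v := by linarith
  have hlkv : log k = 2 * v - 2 * Y := by rw [hv]; ring
  have hq0 : 0 < 1 / (4 * v) := by positivity
  have hqv : 1 / (4 * v) * (4 * v) = 1 := by field_simp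
  have hκ0 : 0 ≤ k / (1 + k) := by positivity
  have c2 : exp (-(2 * v)) ≤ 0.042 := le_trans (exp_le_exp.mpr (by linarith)) exp_319
  rcases le_total k (1 / 10) with hc | hc
  · have c1 : log k ≤ -2.279 := by
      have h1 : log k ≤ log (1 / 10) := log_le_log hk0 hc
      have h2 := log_tenth
      have h3 : log (4 / 5) ≤ 4 / 5 - 1 := log_le_sub_one_of_pos (by norm_num)
      linarith
    have c3 : k / (1 + k) ≤ 0.091 := by rw [div_le_iff₀ (by linarith)]; linarith
    have c4 : 1 / (4 * v) ≤ 0.157 := by rw [div_le_iff₀ (by linarith)]; linarith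
    rw [hlkv]
    exact main_core (a := 1 / 10) (b := 0.091) (c := 1.11) (d := 0.98) (e := 0.042) hY hv1 hq0 hqv
      (exp_pos _) hκ0 l2a l2b hc c2 c3 (by norm_num) (by norm_num) (by linarith) (by linarith) c2
      (by norm_num)
  · have c1 : -2.33 ≤ log k := by
      have h1 : log (1 / 10) ≤ log k := log_le_log (by norm_num) hc
      have h2 := log_tenth
      have h3 : 1 - (4 / 5 : ℝ)⁻¹ ≤ log (4 / 5) := one_sub_inv_le_log_of_pos (by norm_num)
      norm_num at h3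
      linarith
    have cv : Y - 1.165 ≤ v := by linarith
    have c2' : exp (-(2 * v)) ≤ 0.0068 :=
      le_trans (exp_neg_le_of 5 (by push_cast; linarith)) (by norm_num)
    have c3 : k / (1 + k) ≤ 0.2648 := by rw [div_le_iff₀ (by linarith)]; linarith
    have c4 : 1 / (4 * v) ≤ 0.0883 := by rw [div_le_iff₀ (by linarith)]; linarith
    rw [hlkv]
    exact main_core (a := 9 / 25) (b := 0.2648) (c := 0.62) (d := 0.404) (e := 0.0068) hY hv1 hq0
      hqv (exp_pos _) hκ0 l2a l2b hk' c2 c3 (by norm_num) (by norm_num) (by linarith)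
      (by linarith) c2' (by norm_num)

theorem big_B {Y k : ℝ} (hY : 4 ≤ Y) (hk : 9 / 20 * exp (-Y) ≤ k) (hk' : k ≤ 9 / 25) :
    ∃ v', y0 ≤ v' ∧
      k * (Y + 57 / 100 + 9 / 16 * log (1 + k)) + (lam v' - 2) * Hy Y
        ≤ k * (-log (k + (1 - tanh Y ^ 2))) + k * (2 + k) / (1 + k) * (bb v' - xi) := by
  have hE : 0 < exp (-Y) := exp_pos _
  have hk0 : 0 < k := by linarith
  have l2a := log_two_gt_d9
  have l2b := log_two_lt_d9
  -- lower bound for log k
  have hlk : -0.8043 - Y ≤ log k := by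
    have h1 : log (9 / 20 * exp (-Y)) ≤ log k := log_le_log (by positivity) hk
    have h2 : log (9 / 20 * exp (-Y)) = log (9 / 10) - log 2 - Y := by
      rw [log_mul (by norm_num) hE.ne', log_exp, ← log_div (by norm_num) (by norm_num)]
      norm_num
      ring
    have h3 : 1 - (9 / 10 : ℝ)⁻¹ ≤ log (9 / 10) := one_sub_inv_le_log_of_pos (by norm_num)
    norm_num at h3
    linarith
  have hlk2 : log k ≤ -0.986 := by
    have h1 : log k ≤ log (9 / 25) := log_le_log hk0 hk'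
    have h2 : log (9 / 25) = 2 * (log (6 / 5) - log 2) := by
      rw [← log_div (by norm_num) (by norm_num)]
      have : (9 / 25 : ℝ) = (6 / 5 / 2) ^ 2 := by norm_num
      rw [this, log_pow]; norm_num
    have h3 : log (6 / 5) ≤ 6 / 5 - 1 := log_le_sub_one_of_pos (by norm_num)
    linarith
  obtain ⟨v, hv⟩ : ∃ v, v = Y + log k / 2 := ⟨_, rfl⟩
  have hv1 : 1.5978 ≤ v := by rw [hv]; linarith
  have hv0 : 0 < v := by linarith
  refine ⟨v, by have := y0_bounds.2; linarith, ?_⟩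
  set ρ := exp (-(2 * v)) with hρ
  have hρ0 : 0 < ρ := exp_pos _
  have hkρ : k * ρ = exp (-(2 * Y)) := by
    rw [hρ]
    conv_lhs => rw [← exp_log hk0]
    rw [← exp_add]
    congr 1
    rw [hv]; ring
  -- the multiplier term
  have hlam : (lam v - 2) * Hy Y ≤ k * ((1 + 2 * Y) / (4 * v)) := by
    have h1 : lam v - 2 ≤ exp (2 * v) / (4 * v) := by
      unfold lam
      rw [if_neg hv0.ne', sinh_eq]
      have e : (exp (2 * v) - exp (-(2 * v))) / 2 / (2 * v)
          = exp (2 * v) / (4 * v) - exp (-(2 * v)) / (4 * v) := by field_simp; ring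
      rw [e]
      have : 0 ≤ exp (-(2 * v)) / (4 * v) := by positivity
      linarith
    have h2 := Hy_le_exp (y := Y) (by linarith)
    have h3 : 0 ≤ lam v - 2 := by have := two_le_lam v; linarith
    have h4 : (lam v - 2) * Hy Y ≤ exp (2 * v) / (4 * v) * ((1 + 2 * Y) * exp (-(2 * Y))) :=
      mul_le_mul h1 h2 (Hy_pos Y).le (by positivity)
    have h5 : exp (2 * v) * ρ = 1 := by rw [hρ, ← exp_add]; simp
    have h6 : exp (2 * v) / (4 * v) * ((1 + 2 * Y) * exp (-(2 * Y)))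
        = k * ((1 + 2 * Y) / (4 * v)) * (exp (2 * v) * ρ) := by
      rw [← hkρ]; field_simp
    rw [h6, h5, mul_one] at h4
    exact h4
  -- the logarithm
  have hlog : log (k + (1 - tanh Y ^ 2)) ≤ log k + 4 * ρ := by
    have hs := sigma_le Y
    have hs0 := sigma_pos Y
    have h1 : k + (1 - tanh Y ^ 2) ≤ k * (1 + 4 * ρ) := by rw [← hkρ] at hs; nlinarith
    have h2 := log_le_log (by linarith) h1
    rw [log_mul hk0.ne' (by positivity)] at h2
    have h3 : log (1 + 4 * ρ) ≤ 1 + 4 * ρ - 1 := log_le_sub_one_of_pos (by positivity)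
    linarith
  have hl1 : log (1 + k) ≤ k := by
    have : log (1 + k) ≤ 1 + k - 1 := log_le_sub_one_of_pos (by linarith)
    linarith
  have hbb := eta_ge_exp hv0
  rw [← hρ] at hbb
  set q := 1 / (4 * v) with hq
  have hq0 : 0 < q := by positivity
  have hqv : q * (4 * v) = 1 := by rw [hq]; field_simp
  have e1 : (1 - ρ) / (4 * v) = (1 - ρ) * q := by rw [hq]; field_simp
  have e2 : (1 + 2 * Y) / (4 * v) = (1 + 2 * Y) * q := by rw [hq]; field_simp
  rw [e1] at hbb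
  rw [e2] at hlam
  set κ := k / (1 + k) with hκ
  have hκ0 : 0 ≤ κ := by positivity
  have e3 : k * (2 + k) / (1 + k) = k * (2 - κ) := by rw [hκ]; field_simp; ring
  rw [e3]
  set B0 := v + 1 / 2 + (1 - ρ) * q - 2 * log 2 - 1 / 40 with hB0
  have hB : B0 ≤ bb v - xi := by unfold bb xi; linarith
  have hκ1 : κ ≤ 0.2648 := by rw [hκ, div_le_iff₀ (by linarith)]; linarith
  have hmain : Y + 57 / 100 + 9 / 16 * k + (1 + 2 * Y) * q ≤ -(log k + 4 * ρ) + (2 - κ) * B0 :=
    main_ineq hY hk0 hk' hlk hlk2 hv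
  have hfin := mul_le_mul_of_nonneg_left hmain hk0.le
  have t1 : k * (2 - κ) * B0 ≤ k * (2 - κ) * (bb v - xi) :=
    mul_le_mul_of_nonneg_left hB (mul_nonneg hk0.le (by linarith))
  have t2 : k * (-(log k + 4 * ρ)) ≤ k * (-log (k + (1 - tanh Y ^ 2))) :=
    mul_le_mul_of_nonneg_left (by linarith) hk0.le
  have t3 : k * log (1 + k) ≤ k * k := mul_le_mul_of_nonneg_left hl1 hk0.le
  have t4 : k * (Y + 57 / 100 + 9 / 16 * k + (1 + 2 * Y) * q)
      = k * Y + 57 / 100 * k + 9 / 16 * (k * k) + k * ((1 + 2 * Y) * q) := by ring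
  have t5 : k * (-(log k + 4 * ρ) + (2 - κ) * B0) = k * (-(log k + 4 * ρ)) + k * (2 - κ) * B0 := by
    ring
  have t6 : k * (Y + 57 / 100 + 9 / 16 * log (1 + k))
      = k * Y + 57 / 100 * k + 9 / 16 * (k * log (1 + k)) := by ring
  rw [t4, t5] at hfin
  rw [t6]
  linarith

end Vale.Agent.P322
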