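import Vale.Agent.P322.Route
import Vale.Agent.P322.BigNum

/-! The region of small entropy. -/

namespace Vale.Agent.P322

open Real

theorem big_mix {k1 k2 σ : ℝ} (h1 : 0 ≤ k1) (h2 : 0 ≤ k2) (hσ : 0 < σ) :
    (k1 + k2) * (-log (k1 + k2 + σ))
      ≤ k2 * (-log (k1 + k2 + σ + k1)) + k1 * log (4 / (σ + 2 * k1)) := by
  have hp : 0 < k1 + k2 + σ := by positivity
  have h3 : log (k1 + k2 + σ + k1) - log (k1 + k2 + σ) ≤ k1 / (k1 + k2 + σ) := by
    rw [← log_div (by positivity) hp.ne']
    refine (log_le_sub_one_of_pos (by positivity)).trans (le_of_eq ?_)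
    field_simp; ring
  have h4 : k2 / (k1 + k2 + σ) ≤ log (4 / (σ + 2 * k1)) + log (k1 + k2 + σ) := by
    rw [← log_mul (by positivity) hp.ne']
    have h5 := one_sub_inv_le_log_of_pos
      (show 0 < 2 / (σ + 2 * k1) * (k1 + k2 + σ) by positivity)
    have h6 : log (2 / (σ + 2 * k1) * (k1 + k2 + σ)) ≤ log (4 / (σ + 2 * k1) * (k1 + k2 + σ)) :=
      log_le_log (by positivity) (by gcongr; norm_num)
    have h7 : 1 - (2 / (σ + 2 * k1) * (k1 + k2 + σ))⁻¹ = (k2 + σ / 2) / (k1 + k2 + σ) := by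
      field_simp; ring
    have h8 : k2 / (k1 + k2 + σ) ≤ (k2 + σ / 2) / (k1 + k2 + σ) := by gcongr; linarith
    linarith
  have h5 := mul_le_mul_of_nonneg_left h3 h2
  have h6 := mul_le_mul_of_nonneg_left h4 h1
  have e : k2 * (k1 / (k1 + k2 + σ)) = k1 * (k2 / (k1 + k2 + σ)) := by ring
  linarith

theorem big_info {y Y z : ℝ} (hy : 0 < y) (h : y ≤ Y) (hz : 0 ≤ z) :
    (tanh Y * io y z - 1) * (-log ((tanh Y * io y z - 1) + (1 - tanh Y ^ 2)))
      ≤ 2 * tanh Y * (qq y z - LL Y) := by
  have hS : 0 < sinh (2 * y) := sinh_pos_iff.2 (by linarith)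
  have hD := one_le_cosh (2 * y)
  have hC := one_le_cosh (2 * z)
  have ht := tanh_pos' hy
  have htT := tanh_mono' h
  have hT1 := tanh_lt_one Y
  have hσ : 0 < 1 - tanh Y ^ 2 := by linarith [tanh_sq_lt_one' Y]
  have e1 : tanh y = sinh (2 * y) / (1 + cosh (2 * y)) := by
    rw [← dd_zero]; simp [dd, NN]
  have e2 : 1 - tanh y ^ 2 = 2 / (1 + cosh (2 * y)) := by
    have := cosh_pos y
    have e : 1 + cosh (2 * y) = 2 * cosh y ^ 2 := by rw [cosh_two_mul, sinh_sq]; ring
    rw [one_sub_tanh_sq, e]; field_simp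
  have h1 := QQ_sub_ge (y := y) hz
  have h2 := LL_sub_ge hy h
  have h3 := two_lc_eq y
  have e3 : LL y = QQ y 0 / sinh (2 * y) := (qq_zero hy).symm
  set S := sinh (2 * y)
  set D := cosh (2 * y)
  set C := cosh (2 * z) with hCdef
  set T := tanh Y
  set t := tanh y
  set k1 := T / t - 1 with hk1
  set k2 := (C - 1) / (1 + D) with hk2
  have hk10 : 0 ≤ k1 := by rw [hk1, sub_nonneg, one_le_div ht]; exact htT
  have hk20 : 0 ≤ k2 := div_nonneg (by linarith) (by linarith)
  have hN : NN y z = C + D := rfl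
  have e4 : T * io y z - 1 = k1 + (1 + k1) * k2 := by
    rw [io, hN, hk1, hk2, e1]; field_simp; ring
  have h4 : 2 / (1 + D) ≤ 1 - T ^ 2 + 2 * k1 := by
    rw [← e2]
    have : T ^ 2 - t ^ 2 ≤ 2 * k1 := by
      have e : 2 * k1 = 2 * (T - t) / t := by rw [hk1]; field_simp
      rw [e, le_div_iff₀ ht]
      nlinarith [mul_nonneg (sub_nonneg.2 htT) (show 0 ≤ 2 - (T + t) * t by nlinarith)]
    linarith
  have h5 : -log (k1 + (1 + k1) * k2 + (1 - T ^ 2) + k1) ≤ log (NN y z / (C + 1)) := by
    rw [← log_inv]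
    refine log_le_log (by positivity) ?_
    rw [hN, inv_le_comm₀ (by positivity) (by positivity), inv_div]
    have e : (C + 1) / (1 + D) = k2 + 2 / (1 + D) := by rw [hk2]; field_simp; ring
    have : (C + 1) / (C + D) ≤ (C + 1) / (1 + D) := by gcongr
    nlinarith [mul_nonneg hk10 hk20]
  have h6 : log (4 / (1 - T ^ 2 + 2 * k1)) ≤ 2 * lc y := by
    rw [h3]
    refine log_le_log (by positivity) ?_
    rw [div_le_iff₀ (by positivity)]
    rw [div_le_iff₀ (by positivity)] at h4
    linarith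
  have h7 := big_mix hk10 (mul_nonneg (by linarith : 0 ≤ 1 + k1) hk20) hσ
  have hT : 0 < T := by linarith
  have h8 : (1 + k1) * k2 * log (NN y z / (C + 1)) ≤ 2 * T * (qq y z - LL y) := by
    have e : (1 + k1) * k2 * log (NN y z / (C + 1))
        = 2 * T * ((C - 1) / 2 * log (NN y z / (C + 1)) / S) := by
      rw [hk1, hk2, e1]; field_simp; ring
    rw [e, e3, qq, ← sub_div]
    gcongr
  have h9 : k1 * (2 * lc y) ≤ 2 * T * (LL y - LL Y) := by
    have e : k1 * (2 * lc y) = 2 * T * (lc y * (1 / t - 1 / T)) := by rw [hk1]; field_simp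
    rw [e]; gcongr
  have h10 := mul_le_mul_of_nonneg_left h5 (mul_nonneg (by linarith : 0 ≤ 1 + k1) hk20)
  have h11 := mul_le_mul_of_nonneg_left h6 hk10
  rw [e4]
  linarith

theorem big_aux {d i u : ℝ} (hd : 0 < d) (hid : i * d = 1) (hd1 : d ≤ 1) (hu : 0 ≤ u) :
    d * (1 - d ^ 2 - 6 * u) ≤ i - d := by
  have e : i - d = i * (1 - d ^ 2) := by linear_combination d * hid
  have h9 : 0 ≤ 1 - d ^ 2 := by nlinarith
  have h8 : d ≤ i := by
    by_contra h
    nlinarith
  rw [e]
  nlinarith [mul_nonneg hd.le hu]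

theorem good_big {y Y z v : ℝ} (hy : 0 < y) (h : y ≤ Y) (hY : 4 ≤ Y) (hz : 0 ≤ z)
    (hv : y0 ≤ v) : Good y z (LL Y) v := by
  have hY0 : 0 < Y := by linarith
  have hc : Cost y (LL Y) Y := Or.inr ⟨Y, hY0, by unfold kap; linarith⟩
  have hd := dd_pos hy z
  have hio := io_pos hy z
  have hid := io_mul_dd hy z
  have hth := th_le_io hy z
  have hth0 := th_pos hy z
  have hT := tanh_pos' hY0
  have hT1 := tanh_lt_one Y
  have hH := Hy_pos Y
  have hu := uu_nonneg y z
  have hu1 := uu_lt_one y z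
  have hxi : xi = 1 / 40 := rfl
  have hdT : dd y z ≤ tanh Y := (dd_le_tanh hy.le z).trans (tanh_mono' h)
  have hl : tanh Y * LL Y = Hy Y := by unfold LL; field_simp
  have hL := LL_pos hY0
  rcases le_total (dd y z) (37 / 50) with hd' | hd'
  · obtain ⟨w, hw, h1, h2⟩ := big_S hY hd hd'
    refine routeS hy hw ?_ ?_ hc hv
    · calc Hy w * th y z ≤ Hy Y * dd y z * io y z :=
            mul_le_mul h1 hth hth0.le (by positivity)
        _ = Hy Y := by rw [mul_assoc, mul_comm (dd y z), hid, mul_one]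
        _ ≤ LL Y := by rw [← hl]; exact mul_le_of_le_one_left hL.le hT1.le
    · have := mm_le_log_two hy hz
      have h3 : 0 ≤ xi * dd y z * (dd y z ^ 2 + 6 * uu y z) := by rw [hxi]; positivity
      linarith
  · set n := tanh Y * io y z with hn
    have hn1 : 1 ≤ n := by rw [← hid, hn, mul_comm]; gcongr
    have hn2 : n - 1 ≤ 9 / 25 := by
      have : io y z * (37 / 50) ≤ 1 := by rw [← hid]; gcongr
      have := mul_le_of_le_one_left hio.le hT1.le
      linarith
    have hinfo := big_info hy h hz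
    rw [← hn] at hinfo
    have h2m := two_mm_add hy z
    have hsup : ∀ v, 0 ≤ v → tanh Y * (io y z * bb v - lam v * LL Y + 2 * mm y z + 2 * LL Y)
        ≤ tanh Y * Y + (n - 1) * (Y + 57 / 100 + 9 / 16 * log (1 + (n - 1)))
          - (n - 1) * (-log ((n - 1) + (1 - tanh Y ^ 2))) := fun v hv => by
      have h1 := big_sup hY hn1 hv
      have h2 := mul_le_mul_of_nonneg_left h2m hT.le
      rw [add_sub_cancel]
      unfold pp at h1
      unfold bb
      rw [← hl, hn] at h1
      rw [hn] at *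
      linarith
    have hy0 := y0_pos
    rcases le_total (n - 1) (9 / 20 * exp (-Y)) with hk | hk
    · refine Or.inr (Or.inr ⟨0, le_rfl, hy0.le, hc.mono ?_⟩)
      have h1 := mul_le_mul_of_nonneg_left (big_A hY (sub_nonneg.2 hn1) hk) (sub_nonneg.2 hn1)
      have h2 := hsup v (by linarith)
      have h3 : io y z * bb v - lam v * LL Y + 2 * mm y z + 2 * LL Y ≤ Y :=
        le_of_mul_le_mul_left (by linarith) hT
      have h4 := mul_le_mul_of_nonneg_right hth (bb_nonneg (show 0 ≤ v by linarith))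
      have h5 : 0 ≤ xi * io y z * (uu y z * (1 - uu y z)) := by
        rw [hxi]; have : 0 ≤ 1 - uu y z := by linarith
        positivity
      unfold FP psi
      rw [lam_zero, ph_zero, pp_zero]
      linarith
    · obtain ⟨v', hv', h1⟩ := big_B hY hk hn2
      refine routeG hy hv' (fun v hvv => hc.mono ?_) hv
      have h2 := hsup v (by linarith)
      have hb : 0 ≤ bb v' - xi := by
        have := bb_mono hy0.le hv'
        have := bb_y0_bounds.1
        rw [hxi]; linarith
      have h3 : (n - 1) * (2 + (n - 1)) / (1 + (n - 1)) ≤ tanh Y * (io y z - dd y z) := by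
        rw [div_le_iff₀ (by linarith)]
        have e : tanh Y * dd y z * n = tanh Y ^ 2 := by
          rw [hn]; linear_combination tanh Y ^ 2 * hid
        have := tanh_sq_lt_one' Y
        have e2 : tanh Y * (io y z - dd y z) * (1 + (n - 1)) = n * n - tanh Y * dd y z * n := by
          rw [hn]; ring
        rw [e2, e]; linarith
      have h4 := mul_le_mul_of_nonneg_right h3 hb
      have h5 : io y z * bb v - lam v * LL Y + 2 * mm y z + 2 * LL Y + (lam v' - 2) * LL Y
          - (io y z - dd y z) * (bb v' - xi) ≤ Y := by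
        refine le_of_mul_le_mul_left ?_ hT
        rw [← hl] at h1
        linarith
      have h6 := mul_le_mul_of_nonneg_right hth
        (sub_nonneg.2 (bb_mono (by linarith) hvv))
      have h7 := big_aux hd hid (hdT.trans hT1.le) hu
      unfold FG
      rw [hxi] at *
      linarith


end Vale.Agent.P322
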