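import Vale.Agent.P322.A1

/-! The noise semigroup on the cube. -/

namespace Vale.Agent.P322

open Real

theorem Hb_tanh (y : ℝ) : Hb (tanh y) = Hy y := by
  have hc := cosh_pos y
  have e1 : (1 + tanh y) / 2 = exp y / (2 * cosh y) := by
    rw [tanh_eq_sinh_div_cosh, ← cosh_add_sinh]; field_simp
  have e2 : 1 - (1 + tanh y) / 2 = exp (-y) / (2 * cosh y) := by
    rw [tanh_eq_sinh_div_cosh, ← cosh_sub_sinh]; field_simp; ring
  have l1 : log ((1 + tanh y) / 2)⁻¹ = lc y - y := by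
    rw [e1, inv_div, log_div (by positivity) (exp_pos _).ne', log_exp, lc]
  have l2 : log (1 - (1 + tanh y) / 2)⁻¹ = lc y + y := by
    rw [e2, inv_div, log_div (by positivity) (exp_pos _).ne', log_exp, lc]; ring
  rw [Hb, binEntropy, l1, l2, Hy]; ring

lemma semi_sg_one : sg 1 = 1 := by simp [sg]
lemma semi_sg_neg (s : ℤˣ) : sg (-s) = -sg s := by simp [sg]

lemma semi_sg_cases (s : ℤˣ) : sg s = 1 ∨ sg s = -1 := by
  rcases Int.units_eq_one_or s with h | h <;> simp [h, sg]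

lemma semi_sum_units (F : ℤˣ → ℝ) : ∑ s, F s = F 1 + F (-1) := by
  rw [UnitsInt.univ, Finset.sum_pair (by decide)]

/-- the noise kernel -/
noncomputable def semiK {n : ℕ} (ρ : ℝ) (x y : Fin n → ℤˣ) : ℝ :=
  ∏ i, (1 + ρ * sg (x i) * sg (y i)) / 2

lemma semi_TT {n : ℕ} (ρ : ℝ) (f : (Fin n → ℤˣ) → ℤˣ) (y : Fin n → ℤˣ) :
    TT ρ f y = ∑ x, semiK ρ x y * sg (f x) := rfl

lemma semiK_comm {n : ℕ} (ρ : ℝ) (x y : Fin n → ℤˣ) : semiK ρ x y = semiK ρ y x :=
  Finset.prod_congr rfl fun i _ => by ring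

lemma semiK_sum {n : ℕ} (ρ : ℝ) (x : Fin n → ℤˣ) : ∑ y, semiK ρ x y = 1 := by
  have h := Finset.prod_univ_sum (fun _ : Fin n => (Finset.univ : Finset ℤˣ))
    (fun i s => (1 + ρ * sg (x i) * sg s) / 2)
  rw [Fintype.piFinset_univ] at h
  unfold semiK
  rw [← h]
  refine Finset.prod_eq_one fun i _ => ?_
  rw [semi_sum_units, semi_sg_neg]; ring

lemma semiK_pos {n : ℕ} {ρ : ℝ} (hρ : |ρ| < 1) (x y : Fin n → ℤˣ) : 0 < semiK ρ x y := by
  obtain ⟨h1, h2⟩ := abs_lt.1 hρ
  refine Finset.prod_pos fun i _ => ?_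
  rcases semi_sg_cases (x i) with h | h <;> rcases semi_sg_cases (y i) with h' | h' <;>
    rw [h, h'] <;> linarith

theorem avg_TT {n : ℕ} (ρ : ℝ) (f : (Fin n → ℤˣ) → ℤˣ) :
    avg (TT ρ f) = avg (fun x => sg (f x)) := by
  unfold avg
  congr 1
  simp only [semi_TT]
  rw [Finset.sum_comm]
  refine Finset.sum_congr rfl fun x _ => ?_
  rw [← Finset.sum_mul, semiK_sum, one_mul]

theorem abs_TT_lt_one {n : ℕ} {ρ : ℝ} (hρ : |ρ| < 1) (f : (Fin n → ℤˣ) → ℤˣ)
    (hf : ∃ x x', f x ≠ f x') (y : Fin n → ℤˣ) : |TT ρ f y| < 1 := by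
  have hs : ∑ x, semiK ρ x y = 1 := by
    simp only [fun x => semiK_comm ρ x y]; exact semiK_sum ρ y
  have hex : (∃ x, sg (f x) = 1) ∧ ∃ x, sg (f x) = -1 := by
    obtain ⟨x, x', h⟩ := hf
    rcases Int.units_eq_one_or (f x) with h1 | h1 <;>
      rcases Int.units_eq_one_or (f x') with h2 | h2
    · exact absurd (h1.trans h2.symm) h
    · exact ⟨⟨x, by simp [h1, sg]⟩, x', by simp [h2, sg]⟩
    · exact ⟨⟨x', by simp [h2, sg]⟩, x, by simp [h1, sg]⟩
    · exact absurd (h1.trans h2.symm) h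
  obtain ⟨⟨a, ha⟩, b, hb⟩ := hex
  rw [semi_TT, abs_lt]
  constructor
  · have : ∑ x, -semiK ρ x y < ∑ x, semiK ρ x y * sg (f x) := by
      refine Finset.sum_lt_sum (fun x _ => ?_) ⟨a, Finset.mem_univ _, ?_⟩
      · have := semiK_pos hρ x y
        rcases semi_sg_cases (f x) with h | h <;> rw [h] <;> linarith
      · have := semiK_pos hρ a y
        rw [ha]; linarith
    rwa [Finset.sum_neg_distrib, hs] at this
  · rw [← hs]
    refine Finset.sum_lt_sum (fun x _ => ?_) ⟨b, Finset.mem_univ _, ?_⟩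
    · have := semiK_pos hρ x y
      rcases semi_sg_cases (f x) with h | h <;> rw [h] <;> linarith
    · have := semiK_pos hρ b y
      rw [hb]; linarith

lemma semiK_deriv {n : ℕ} {ρ : ℝ} (hρ : ρ ≠ 0) (x y : Fin n → ℤˣ) :
    HasDerivAt (fun ρ => semiK ρ x y)
      ((∑ i, (semiK ρ x y - semiK ρ x (flp y i)) / 2) / ρ) ρ := by
  have h := HasDerivAt.fun_finsetProd (u := Finset.univ) (x := ρ)
    (f := fun i ρ => (1 + ρ * sg (x i) * sg (y i)) / 2)
    (f' := fun i => sg (x i) * sg (y i) / 2) fun i _ => by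
      have := ((((hasDerivAt_id ρ).mul_const (sg (x i))).mul_const (sg (y i))).const_add
        1).div_const 2
      simpa using this
  refine h.congr_deriv ?_
  rw [Finset.sum_div]
  refine Finset.sum_congr rfl fun i _ => ?_
  have e1 : semiK ρ x y = (1 + ρ * sg (x i) * sg (y i)) / 2
      * ∏ j ∈ Finset.univ.erase i, (1 + ρ * sg (x j) * sg (y j)) / 2 :=
    (Finset.mul_prod_erase _ (fun j => (1 + ρ * sg (x j) * sg (y j)) / 2)
      (Finset.mem_univ i)).symm
  have e2 : semiK ρ x (flp y i) = (1 - ρ * sg (x i) * sg (y i)) / 2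
      * ∏ j ∈ Finset.univ.erase i, (1 + ρ * sg (x j) * sg (y j)) / 2 := by
    rw [semiK, ← Finset.mul_prod_erase _ _ (Finset.mem_univ i)]
    congr 1
    · simp only [flp, Function.update_self, semi_sg_neg]; ring
    · exact Finset.prod_congr rfl fun j hj => by
        rw [flp, Function.update_of_ne (Finset.ne_of_mem_erase hj)]
  rw [e1, e2, smul_eq_mul]
  field_simp
  ring

lemma semi_TT_deriv {n : ℕ} {ρ : ℝ} (hρ : ρ ≠ 0) (f : (Fin n → ℤˣ) → ℤˣ) (y : Fin n → ℤˣ) :
    HasDerivAt (fun ρ => TT ρ f y) ((∑ i, (TT ρ f y - TT ρ f (flp y i)) / 2) / ρ) ρ := by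
  have h := HasDerivAt.fun_sum (u := Finset.univ)
    fun x _ => (semiK_deriv hρ x y).mul_const (sg (f x))
  refine h.congr_deriv ?_
  simp only [semi_TT, ← Finset.sum_sub_distrib, Finset.sum_div, Finset.sum_mul]
  rw [Finset.sum_comm]
  exact Finset.sum_congr rfl fun i _ => Finset.sum_congr rfl fun x _ => by ring

lemma semi_Hb_deriv {u : ℝ} (hu : |u| < 1) : HasDerivAt Hb (-artanh u) u := by
  obtain ⟨h1, h2⟩ := abs_lt.1 hu
  have h := (hasDerivAt_binEntropy (p := (1 + u) / 2) (by linarith) (by linarith)).comp u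
    (((hasDerivAt_id u).const_add 1).div_const 2)
  refine h.congr_deriv ?_
  rw [artanh_eq_half_log ⟨h1.le, h2.le⟩, show 1 - (1 + u) / 2 = (1 - u) / 2 by ring,
    log_div (by linarith) (by norm_num), log_div (by linarith) (by norm_num),
    log_div (by linarith) (by linarith)]
  ring

lemma semi_flp_flp {n : ℕ} (y : Fin n → ℤˣ) (i : Fin n) : flp (flp y i) i = y := by
  simp [flp]

lemma semi_symm {n : ℕ} (A u : (Fin n → ℤˣ) → ℝ) (i : Fin n) :
    ∑ y, A y * ((u y - u (flp y i)) / 2) = ∑ y, (u y - u (flp y i)) * (A y - A (flp y i)) / 4 := by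
  have h := Equiv.sum_comp (Function.Involutive.toPerm (fun y => flp y i)
    fun y => semi_flp_flp y i) fun y => A y * ((u y - u (flp y i)) / 2)
  change ∑ y, A (flp y i) * ((u (flp y i) - u (flp (flp y i) i)) / 2) = _ at h
  simp only [semi_flp_flp] at h
  have h2 : ∑ y, (u y - u (flp y i)) * (A y - A (flp y i)) / 4
      = (∑ y, A y * ((u y - u (flp y i)) / 2)
        + ∑ y, A (flp y i) * ((u (flp y i) - u y) / 2)) / 2 := by
    rw [← Finset.sum_add_distrib, Finset.sum_div]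
    exact Finset.sum_congr rfl fun y _ => by ring
  rw [h2, h]; ring

theorem hasDerivAt_ent {n : ℕ} (f : (Fin n → ℤˣ) → ℤˣ) (hf : ∃ x x', f x ≠ f x')
    {s : ℝ} (hs : 0 < s) :
    HasDerivAt (fun s => ent (fun y => artanh (TT (tanh s) f y)))
      (-(dir (fun y => artanh (TT (tanh s) f y)) * (1 - tanh s ^ 2) / tanh s)) s := by
  have habs : ∀ s : ℝ, |tanh s| < 1 := fun s => by
    have := tanh_sq_lt_one' s
    rw [abs_lt]; constructor <;> nlinarith
  have hta : ∀ (s : ℝ) (y : Fin n → ℤˣ), tanh (artanh (TT (tanh s) f y)) = TT (tanh s) f y :=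
    fun s y => by
      have := abs_lt.mp (abs_TT_lt_one (habs s) f hf y)
      exact tanh_artanh ⟨this.1, this.2⟩
  have e : (fun s => ent (fun y => artanh (TT (tanh s) f y)))
      = fun s => (∑ y, Hb (TT (tanh s) f y)) / (Fintype.card (Fin n → ℤˣ) : ℝ) := by
    funext s
    simp only [ent, avg, ← Hb_tanh, hta]
  have ht := (tanh_pos' hs).ne'
  have h := (HasDerivAt.fun_sum (u := Finset.univ) fun y _ =>
    (semi_Hb_deriv (abs_TT_lt_one (habs s) f hf y)).comp s
      ((semi_TT_deriv ht f y).comp s (hasDerivAt_tanh' s))).div_const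
      (Fintype.card (Fin n → ℤˣ) : ℝ)
  rw [e]
  refine h.congr_deriv ?_
  have h2 : dir (fun y => artanh (TT (tanh s) f y))
      = (∑ y, artanh (TT (tanh s) f y) * ∑ i, (TT (tanh s) f y - TT (tanh s) f (flp y i)) / 2)
        / (Fintype.card (Fin n → ℤˣ) : ℝ) := by
    simp only [dir, avg, cst, hta, Finset.mul_sum]
    rw [Finset.sum_comm, Finset.sum_div]
    exact Finset.sum_congr rfl fun i _ => by rw [semi_symm]
  rw [h2, Finset.sum_div, Finset.sum_div, Finset.sum_mul, Finset.sum_div, ← Finset.sum_neg_distrib]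
  exact Finset.sum_congr rfl fun y _ => by ring

end Vale.Agent.P322
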