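import Vale.Agent.P322.Defs
import Vale.Agent.P322.Semi

/-! Mutual information in terms of the noise operator. -/

namespace Vale.Agent.P322

open Real

lemma br_card (n : ℕ) : (Fintype.card (Fin n → ℤˣ) : ℝ) = 2 ^ n := by simp

lemma br_avg {n : ℕ} (F : (Fin n → ℤˣ) → ℝ) : avg F = (1 / 2) ^ n * ∑ y, F y := by
  rw [avg, br_card, one_div, inv_pow, div_eq_inv_mul]

lemma br_avg_const {n : ℕ} (c : ℝ) : avg (fun _ : Fin n → ℤˣ => c) = c := by
  rw [avg, Finset.sum_const, Finset.card_univ, nsmul_eq_mul, br_card]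
  field_simp

lemma br_K_nonneg {n : ℕ} {ρ : ℝ} (hρ : |ρ| ≤ 1) (x y : Fin n → ℤˣ) : 0 ≤ semiK ρ x y := by
  obtain ⟨h1, h2⟩ := abs_le.1 hρ
  refine Finset.prod_nonneg fun i _ => ?_
  rcases semi_sg_cases (x i) with h | h <;> rcases semi_sg_cases (y i) with h' | h' <;>
    rw [h, h'] <;> linarith

lemma br_K_sum {n : ℕ} (ρ : ℝ) (y : Fin n → ℤˣ) : ∑ x, semiK ρ x y = 1 := by
  simp only [fun x => semiK_comm ρ x y]; exact semiK_sum ρ y

lemma br_abs_TT {n : ℕ} {ρ : ℝ} (hρ : |ρ| ≤ 1) (f : (Fin n → ℤˣ) → ℤˣ) (y : Fin n → ℤˣ) :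
    |TT ρ f y| ≤ 1 := by
  rw [semi_TT, ← br_K_sum ρ y]
  refine (Finset.abs_sum_le_sum_abs _ _).trans (Finset.sum_le_sum fun x _ => ?_)
  rw [abs_mul, abs_of_nonneg (br_K_nonneg hρ x y)]
  rcases semi_sg_cases (f x) with h | h <;> simp [h]

lemma br_joint (n : ℕ) (ε : ℝ) (f : (Fin n → ℤˣ) → ℤˣ) (b : ℤˣ) (y : Fin n → ℤˣ) :
    joint n ε f b y = (1 / 2) ^ n * ((1 + sg b * TT (1 - 2 * ε) f y) / 2) := by
  have h1 : ∀ x : Fin n → ℤˣ, (∑ z : Fin n → ℤˣ,
      if f x = b ∧ (fun i => x i * z i) = y then weight n ε z else 0)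
      = (1 / 2) ^ n * (semiK (1 - 2 * ε) x y * ((1 + sg b * sg (f x)) / 2)) := fun x => by
    rw [Finset.sum_eq_single (fun i => x i * y i)]
    · have e1 : (fun i => x i * (x i * y i)) = y := by
        funext i; rw [← mul_assoc, Int.units_mul_self, one_mul]
      have e2 : weight n ε (fun i => x i * y i) = (1 / 2) ^ n * semiK (1 - 2 * ε) x y := by
        unfold weight semiK
        congr 1
        refine Finset.prod_congr rfl fun i _ => ?_
        rcases Int.units_eq_one_or (x i) with h | h <;>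
          rcases Int.units_eq_one_or (y i) with h' | h' <;> simp [h, h', sg] <;> ring
      simp only [e1, and_true, e2]
      rcases Int.units_eq_one_or (f x) with h | h <;>
        rcases Int.units_eq_one_or b with h' | h' <;> simp [h, h', sg]
    · intro z _ hz
      rw [if_neg]
      rintro ⟨-, h⟩
      apply hz
      funext i
      rw [← h]
      simp only
      rw [← mul_assoc, Int.units_mul_self, one_mul]
    · simp
  unfold joint
  simp only [h1]
  rw [← Finset.mul_sum, semi_TT]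
  congr 1
  have e : ∑ x, semiK (1 - 2 * ε) x y * ((1 + sg b * sg (f x)) / 2)
      = (∑ x, semiK (1 - 2 * ε) x y + sg b * ∑ x, semiK (1 - 2 * ε) x y * sg (f x)) / 2 := by
    rw [Finset.mul_sum, ← Finset.sum_add_distrib, Finset.sum_div]
    exact Finset.sum_congr rfl fun x _ => by ring
  rw [e, br_K_sum]

lemma br_Hb (u : ℝ) : Hb u = -∑ b : ℤˣ, (1 + sg b * u) / 2 * log ((1 + sg b * u) / 2) := by
  rw [semi_sum_units, semi_sg_neg, semi_sg_one, Hb, binEntropy, log_inv, log_inv,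
    show 1 - (1 + u) / 2 = (1 + -1 * u) / 2 by ring, one_mul]
  ring

theorem mutualInfo_eq (n : ℕ) (ε : ℝ) (h0 : 0 ≤ ε) (h1 : ε ≤ 1 / 2) (f : (Fin n → ℤˣ) → ℤˣ) :
    mutualInfo (joint n ε f) * log 2
      = Hb (avg (fun x => sg (f x))) - avg (fun y => Hb (TT (1 - 2 * ε) f y)) := by
  have hρ : |1 - 2 * ε| ≤ 1 := abs_le.2 ⟨by linarith, by linarith⟩
  set m := avg (fun x => sg (f x)) with hm
  have hc : (0:ℝ) < (1 / 2) ^ n := by positivity
  have hq : ∀ b y, 0 ≤ (1 + sg b * TT (1 - 2 * ε) f y) / 2 := fun b y => by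
    obtain ⟨a1, a2⟩ := abs_le.1 (br_abs_TT hρ f y)
    rcases semi_sg_cases b with h | h <;> rw [h] <;> linarith
  have m1 : ∀ b, ∑ y, joint n ε f b y = (1 + sg b * m) / 2 := fun b => by
    simp only [br_joint]
    rw [← Finset.mul_sum, ← Finset.sum_div, Finset.sum_add_distrib, ← Finset.mul_sum,
      hm, ← avg_TT (1 - 2 * ε) f, br_avg, Finset.sum_const, Finset.card_univ, nsmul_eq_mul,
      br_card, one_div, inv_pow]
    field_simp
  have m2 : ∀ y, ∑ b, joint n ε f b y = (1 / 2) ^ n := fun y => by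
    simp only [br_joint]
    rw [semi_sum_units, semi_sg_neg]; ring
  have hl : log 2 ≠ 0 := (log_pos one_lt_two).ne'
  have key : ∀ b y, joint n ε f b y * logb 2 (joint n ε f b y
      / ((∑ y', joint n ε f b y') * ∑ b', joint n ε f b' y)) * log 2
      = (1 / 2) ^ n * ((1 + sg b * TT (1 - 2 * ε) f y) / 2
          * log ((1 + sg b * TT (1 - 2 * ε) f y) / 2))
        - joint n ε f b y * log ((1 + sg b * m) / 2) := fun b y => by
    have hP : joint n ε f b y ≤ (1 + sg b * m) / 2 := by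
      rw [← m1]
      refine Finset.single_le_sum (f := fun y => joint n ε f b y) (fun y _ => ?_)
        (Finset.mem_univ y)
      rw [br_joint]; exact mul_nonneg hc.le (hq b y)
    rw [m1, m2, logb, br_joint] at *
    rcases (hq b y).eq_or_lt with h | h
    · rw [← h]; simp
    · have hP0 : 0 < (1 + sg b * m) / 2 := (mul_pos hc h).trans_le hP
      rw [mul_comm ((1 + sg b * m) / 2), mul_div_mul_left _ _ hc.ne', log_div h.ne' hP0.ne']
      field_simp
  unfold mutualInfo
  rw [Finset.sum_mul, Finset.sum_congr rfl fun b _ => Finset.sum_mul _ _ _]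
  simp only [key, Finset.sum_sub_distrib]
  simp only [← Finset.sum_mul, m1]
  rw [br_Hb m, br_avg, Finset.sum_comm]
  simp only [br_Hb, Finset.sum_neg_distrib, Finset.mul_sum, mul_neg]
  ring

theorem h2_eq (ε : ℝ) : h2 ε * log 2 = Hb (1 - 2 * ε) := by
  have hl : log 2 ≠ 0 := (log_pos one_lt_two).ne'
  rw [Hb, show (1 + (1 - 2 * ε)) / 2 = 1 - ε by ring, binEntropy, log_inv, log_inv, h2, logb, logb,
    sub_sub_cancel]
  field_simp
  ring

/-- reduction to the nondegenerate case -/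
theorem main_of_core
    (core : ∀ (n : ℕ) (f : (Fin n → ℤˣ) → ℤˣ), (∃ x x', f x ≠ f x') → ∀ ρ : ℝ, 0 < ρ → ρ < 1 →
      Hb (avg (fun x => sg (f x))) - avg (fun y => Hb (TT ρ f y)) ≤ log 2 - Hb ρ)
    (n : ℕ) (f : (Fin n → ℤˣ) → ℤˣ) (ε : ℝ) (h0 : 0 ≤ ε) (h1 : ε ≤ 1 / 2) :
    mutualInfo (joint n ε f) ≤ 1 - h2 ε := by
  refine le_of_mul_le_mul_right ?_ (log_pos one_lt_two)
  rw [mutualInfo_eq n ε h0 h1, sub_mul, h2_eq, one_mul]
  have hρ : |1 - 2 * ε| ≤ 1 := abs_le.2 ⟨by linarith, by linarith⟩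
  have hle : ∀ u, Hb u ≤ log 2 := fun u => binEntropy_le_log_two
  have hav : 0 ≤ avg (fun y => Hb (TT (1 - 2 * ε) f y)) := by
    rw [br_avg]
    refine mul_nonneg (by positivity) (Finset.sum_nonneg fun y _ => ?_)
    obtain ⟨a1, a2⟩ := abs_le.1 (br_abs_TT hρ f y)
    exact binEntropy_nonneg (by linarith) (by linarith)
  by_cases hf : ∃ x x', f x ≠ f x'
  · rcases h0.eq_or_lt with h | h
    · subst h
      have : Hb (1 - 2 * 0) = 0 := by simp [Hb]
      linarith [hle (avg fun x => sg (f x))]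
    rcases h1.eq_or_lt with h' | h'
    · subst h'
      have e : ∀ y, TT (1 - 2 * (1 / 2)) f y = avg fun x => sg (f x) := fun y => by
        rw [br_avg, semi_TT, Finset.mul_sum]
        refine Finset.sum_congr rfl fun x _ => ?_
        simp [semiK]
      simp only [e, br_avg_const]
      linarith [hle (1 - 2 * (1 / 2))]
    · exact core n f hf _ (by linarith) (by linarith)
  · push Not at hf
    have e : (fun x => sg (f x)) = fun _ => sg (f 1) := funext fun x => by rw [hf x 1]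
    have : Hb (avg fun x => sg (f x)) = 0 := by
      rw [e, br_avg_const]
      rcases semi_sg_cases (f 1) with h | h <;> simp [h, Hb]
    linarith [hle (1 - 2 * ε)]

end Vale.Agent.P322
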