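import Vale.Agent.P322.Cert1
import Vale.Agent.P322.Cert2
import Vale.Agent.P322.Cert3
import Vale.Agent.P322.Cert4
import Vale.Agent.P322.Cert5
import Vale.Agent.P322.Cert6
import Vale.Agent.P322.Cert7
import Vale.Agent.P322.Cert8

namespace Vale.Agent.P322

theorem box_root : Box 5033164800 13743895347200 4294967296 0 12582912 38654705664 :=
  (Box.sy 13421772800 (Box.sy 6576668672 (Box.sl 671088640 b0 (Box.sy 5570035712 (Box.sl
  5100273664 b1 (Box.sl 13958643712 b2 (Box.sz 12884901888 (Box.sy 5259657216 (Box.sl 23085449216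
  b3 (Box.sy 5138022400 (Box.sy 5083496448 b4 b5) (Box.sl 27648851968 b6 b7))) (Box.sy 5402263552
  (Box.sl 20132659200 b8 (Box.sl 24293408768 b9 b10)) (Box.sl 19058917376 b11 b12))) (Box.sz
  38654705664 b13 b14)))) (Box.sl 3892314112 b15 (Box.sl 9395240960 b16 (Box.sz 12884901888
  (Box.sy 5989466112 (Box.sl 14495514624 b17 (Box.sy 5762973696 b18 b19)) (Box.sy 6257901568 b20
  b21)) (Box.sz 38654705664 b22 b23)))))) (Box.sl 419430400 b24 (Box.sy 8589934592 (Box.sl
  2415919104 b25 (Box.sz 12884901888 (Box.sl 5771362304 b26 (Box.sy 7381975040 (Box.sl 8858370048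
  b27 (Box.sy 6945767424 b28 b29)) (Box.sy 7918845952 b30 b31))) (Box.sz 38654705664 b32 b33)))
  (Box.sy 10468982784 (Box.sl 1879048192 b34 (Box.sz 12884901888 (Box.sl 3892314112 b35 (Box.sy
  9428795392 b36 b37)) b38)) (Box.sl 1610612736 b39 (Box.sz 12884901888 (Box.sy 11744051200 b40
  (Box.sl 2952790016 b41 (Box.sy 12515803136 b42 b43))) (Box.sz 38654705664 b44 b45))))))) (Box.sy
  90194313216 (Box.sy 27917287424 (Box.sl 243269632 b46 (Box.sy 18522046464 (Box.sz 12884901888
  (Box.sl 1073741824 b47 (Box.sy 15569256448 (Box.sl 2214592512 b48 (Box.sy 14428405760 b49 b50))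
  (Box.sl 2046820352 b51 (Box.sy 16911433728 b52 b53)))) (Box.sz 38654705664 (Box.sl 1073741824
  b54 (Box.sy 15569256448 b55 b56)) b57)) (Box.sz 12884901888 (Box.sl 905969664 b58 (Box.sy
  22414360576 (Box.sl 1744830464 b59 (Box.sy 20333985792 b60 b61)) (Box.sl 1577058304 b62 (Box.sy
  24964497408 b63 b64)))) (Box.sz 38654705664 (Box.sl 905969664 b65 (Box.sy 22414360576 b66 b67))
  b68)))) (Box.sl 167772160 b69 (Box.sy 47244640256 (Box.sz 12884901888 (Box.sl 620756992 b70
  (Box.sy 35701915648 (Box.sy 31406948352 b71 b72) (Box.sl 1073741824 b73 b74))) (Box.sz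
  38654705664 (Box.sl 620756992 b75 (Box.sy 35701915648 b76 b77)) b78)) (Box.sz 12884901888
  (Box.sy 63887638528 b79 b80) (Box.sz 38654705664 (Box.sy 63887638528 b81 b82) b83))))) (Box.sy
  618475290624 (Box.sy 210453397504 (Box.sl 104857600 b84 (Box.sz 12884901888 (Box.sy 135291469824
  b85 b86) (Box.sz 38654705664 (Box.sy 135291469824 b87 b88) b89))) (Box.sl 73400320 (Box.sy
  352187318272 b90 (Box.sz 12884901888 b91 b92)) (Box.sy 352187318272 (Box.sz 12884901888 (Box.sl
  180355072 b93 b94) (Box.sz 38654705664 (Box.sl 180355072 b95 b96) b97)) (Box.sz 12884901888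
  (Box.sy 463856467968 b98 b99) (Box.sz 38654705664 b100 b101))))) (Box.sy 2405181685760 (Box.sy
  1168231104512 (Box.sz 12884901888 (Box.sl 48234496 b102 (Box.sy 841813590016 (Box.sl 92274688
  b103 b104) (Box.sl 81788928 b105 (Box.sy 987842478080 b106 b107)))) (Box.sz 38654705664 (Box.sl
  48234496 (Box.sy 841813590016 b108 b109) b110) (Box.sz 347892350976 (Box.sl 48234496 b111 b112)
  b113))) (Box.sz 12884901888 (Box.sl 36700160 b114 (Box.sy 1666447310848 (Box.sl 61865984 b115
  (Box.sy 1391569403904 b116 (Box.sy 1520418422784 b117 b118))) (Box.sy 1992864825344 (Box.sl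
  53477376 b119 (Box.sy 1821066133504 b120 b121)) (Box.sl 49283072 b122 (Box.sy 2190433320960 b123
  b124))))) (Box.sz 38654705664 (Box.sl 36700160 (Box.sy 1666447310848 b125 b126) b127) (Box.sz
  347892350976 (Box.sl 36700160 b128 (Box.sy 1666447310848 b129 b130)) b131)))) (Box.sy
  5497558138880 (Box.sz 12884901888 (Box.sy 3573412790272 (Box.sl 26738688 b132 (Box.sy
  2920577761280 (Box.sl 38797312 b133 (Box.sy 2645699854336 b134 b135)) (Box.sl 35651584 b136
  (Box.sy 3229815406592 b137 (Box.sy 3393024163840 b138 b139))))) (Box.sl 22544384 b140 (Box.sy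
  4432406249472 (Box.sl 29884416 b141 (Box.sy 3968549781504 (Box.sl 34603008 b142 (Box.sy
  3762391351296 b143 b144)) (Box.sy 4191888080896 b145 b146))) (Box.sy 4930622455808 (Box.sl
  27262976 b147 (Box.sy 4672924418048 b148 b149)) (Box.sl 26083328 b150 (Box.sy 5205500362752 b151
  b152)))))) (Box.sz 38654705664 (Box.sy 3573412790272 b153 b154) (Box.sz 347892350976 (Box.sy
  3573412790272 (Box.sl 26738688 b155 b156) (Box.sl 22544384 b157 b158)) b159))) (Box.sl 18612224
  (Box.sz 12884901888 (Box.sy 8521215115264 b160 (Box.sl 15335424 (Box.sy 10720238370816 b161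
  (Box.sl 13828096 (Box.sy 12094627905536 b162 (Box.sy 12884901888000 (Box.sy 12489764896768 b163
  (Box.sz 8321499136 (Box.sl 12910592 b164 b165) b166)) b167)) (Box.sy 12094627905536 (Box.sl
  14483456 (Box.sy 11373073399808 b168 (Box.sl 14123008 b169 b170)) (Box.sy 11373073399808 (Box.sl
  14827520 b171 b172) b173)) b174))) (Box.sy 10720238370816 (Box.sl 16908288 (Box.sy 9552007266304
  b175 (Box.sl 16056320 (Box.sy 10101763080192 b176 (Box.sl 15663104 b177 b178)) (Box.sy
  10101763080192 (Box.sl 16433152 b179 b180) b181))) (Box.sy 9552007266304 (Box.sl 17727488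
  (Box.sy 9019431321600 b182 (Box.sl 17301504 b183 b184)) (Box.sy 9019431321600 (Box.sl 18169856
  b185 b186) b187)) b188)) b189))) (Box.sz 38654705664 b190 (Box.sz 347892350976 (Box.sy
  8521215115264 b191 b192) b193))) (Box.sy 8521215115264 (Box.sz 12884901888 (Box.sl 22544384
  (Box.sy 6803228196864 b194 (Box.sl 20512768 (Box.sy 7593502179328 b195 (Box.sl 19529728 (Box.sy
  8040178778112 b196 b197) (Box.sy 8040178778112 (Box.sy 7816840478720 b198 b199) b200))) (Box.sy
  7593502179328 (Box.sy 7181185318912 b201 b202) b203))) (Box.sy 6803228196864 (Box.sl 24903680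
  (Box.sy 6116033429504 b204 (Box.sl 23724032 b205 b206)) (Box.sy 6116033429504 (Box.sl 26083328
  b207 b208) b209)) b210)) b211) b212)))))))

end Vale.Agent.P322
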