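import Vale.Agent.P322.Route

/-! Box lemmas: each one turns finitely many inequalities at the corners of a box into `Good`. -/

namespace Vale.Agent.P322

open Real

theorem leaf_xi {y yb z z1 : ℝ} (hy : 0 < y) (h2 : y ≤ yb) (hz1 : 0 ≤ z1) (h3 : z1 ≤ z) :
    xi * dd y z * (1 - dd y z ^ 2 - 6 * uu y z)
      ≤ xi * dd yb z1 * max (1 - 6 * uu yb z1) 0 := by
  have a1 := uu_le hy.le h2 hz1 h3
  have a2 := dd_le hy.le h2 hz1 h3
  have a3 := (dd_pos hy z).le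
  have a4 : 1 - dd y z ^ 2 - 6 * uu y z ≤ max (1 - 6 * uu yb z1) 0 :=
    le_trans (by nlinarith [sq_nonneg (dd y z)]) (le_max_left _ _)
  have a5 := mul_le_mul_of_nonneg_left a4 a3
  have a6 := mul_le_mul_of_nonneg_right a2 (le_max_right (1 - 6 * uu yb z1) 0)
  unfold xi
  nlinarith

theorem leaf_aff {a g l l1 l2 k : ℝ} (h5 : l1 ≤ l) (h6 : l ≤ l2) (c1 : a + g * l1 ≤ k)
    (c2 : a + g * l2 ≤ k) : a + g * l ≤ k := by
  rcases le_total 0 g with h | h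
  · nlinarith
  · nlinarith

theorem leaf_mm {y yb z z1 z2 τ : ℝ} (hy : 0 < y) (h2 : y ≤ yb) (h0 : 0 ≤ τ) (h1 : τ ≤ 1)
    (hC : cosh (2 * z) = (1 - τ) * cosh (2 * z1) + τ * cosh (2 * z2)) :
    mm y z ≤ (1 - τ) * mm yb z1 + τ * mm yb z2 := by
  have hb : 0 < yb := hy.trans_le h2
  refine (mm_mono hy h2 z).trans ?_
  have := MM_chord hb.le h0 h1 hC
  have hs := p1_sinh_pos hb
  unfold mm
  rw [← mul_div_assoc, ← mul_div_assoc, ← add_div]
  exact div_le_div_of_nonneg_right this hs.le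

theorem leaf_th {ya y z z1 z2 τ t1 t2 : ℝ} (hya : 0 < ya) (h1 : ya ≤ y) (hz1 : 0 ≤ z1)
    (h3 : z1 ≤ z) (h4 : z ≤ z2)
    (hC : cosh (2 * z) = (1 - τ) * cosh (2 * z1) + τ * cosh (2 * z2)) (ht1 : t1 = th ya z1)
    (ht2 : t2 = t1 + sinh (2 * ya) / NN ya z1 ^ 2 * (cosh (2 * z2) - cosh (2 * z1))) :
    th y z ≤ (1 - τ) * t1 + τ * t2 ∧ 0 ≤ t1 ∧ 0 ≤ t2 := by
  have a1 := th_le_tan hya h1 hz1 h3
  have a2 : 0 ≤ t1 := ht1 ▸ (th_pos hya z1).le
  have a3 : 0 ≤ sinh (2 * ya) / NN ya z1 ^ 2 := div_nonneg (p1_sinh_pos hya).le (sq_nonneg _)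
  have a4 := p1_cosh_le hz1 (h3.trans h4)
  refine ⟨?_, a2, ?_⟩
  · rw [hC, ← ht1] at a1
    rw [ht2]
    linarith
  · rw [ht2]
    have := mul_nonneg a3 (sub_nonneg.2 a4)
    linarith

theorem leaf_S {ya yb z1 l1 l2 tm w X y z l v : ℝ} (hya : 0 < ya) (h1 : ya ≤ y) (h2 : y ≤ yb)
    (hz1 : 0 ≤ z1) (h3 : z1 ≤ z) (h5 : l1 ≤ l) (h6 : l ≤ l2) (hv : y0 ≤ v)
    (htm : th y z ≤ tm) (hw : y0 ≤ w) (hs : Hy w * tm ≤ l1)
    (hX : 2 * mm yb z1 + dd yb z1 * (bb w + xi * max (1 - 6 * uu yb z1) 0) ≤ X)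
    (hc : X ≤ ya ∨ (0 < X ∧ l2 ≤ LL X)) : Good y z l v := by
  have hy : 0 < y := hya.trans_le h1
  refine routeS (X := X) hy hw ?_ ?_ ?_ hv
  · have := mul_le_mul_of_nonneg_left htm (Hy_pos w).le
    linarith
  · have a1 := mm_le hy h2 hz1 h3
    have a2 := mul_le_mul_of_nonneg_right (dd_le hy.le h2 hz1 h3)
      (bb_nonneg (y0_pos.le.trans hw))
    have a3 := leaf_xi hy h2 hz1 h3
    linarith
  · rcases hc with hc | ⟨hc1, hc2⟩
    · exact Or.inl (hc.trans h1)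
    · exact cost_of_LL hc1 (h6.trans hc2)

theorem leaf_D {ya yb z2 l1 w y z l v : ℝ} (hya : 0 < ya) (h1 : ya ≤ y) (h2 : y ≤ yb)
    (hz2 : 0 < z2) (h3 : 0 ≤ z) (h4 : z ≤ z2) (h5 : l1 ≤ l) (hl : l ≤ LL y) (hv : y0 ≤ v)
    (hw : 0 ≤ w) (hs : Hy w * th ya z2 ≤ l1) (hlam : lam w ≤ mu ya + 2)
    (hX : tanh yb ^ 2 * bb w * (cosh (2 * z2) - 1) + 2 * MM ya z2
      ≤ 2 * MM ya 0 + xi * (cosh (2 * z2) - 1) * (2 / (1 + cosh (2 * yb))) * (1 - uu ya z2)) :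
    Good y z l v := by
  have hy : 0 < y := hya.trans_le h1
  have hv0 : 0 ≤ v := y0_pos.le.trans hv
  refine Or.inr (Or.inr ⟨0, le_rfl, y0_pos.le, Or.inr ⟨y, hy, ?_⟩⟩)
  have hth := th_pos hy z
  obtain ⟨u, hu0, huw, hu⟩ : ∃ u, 0 ≤ u ∧ u ≤ w ∧
      th y z * bb v - lam v * l ≤ th y z * bb u - lam u * l := by
    rcases le_total v w with h | h
    · exact ⟨v, hv0, h, le_rfl⟩
    · refine ⟨w, hw, le_rfl, ?_⟩
      have b1 := mul_le_mul_of_nonneg_left (th_le hya h1 h3 h4) (Hy_pos w).le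
      have := gap_bound hw h hth.le (show Hy w * th y z ≤ l by linarith)
      rw [route_gap_self] at this
      linarith
  have hl2 : 0 ≤ mu y + 2 - lam u := by
    have := lam_mono hu0 huw
    have := mu_mono hya.le h1
    linarith
  have b1 := mul_le_mul_of_nonneg_left hl hl2
  have ht := tanh_pos' hy
  have b2 : 2 * mm y 0 + th y 0 * bb u - (lam u - 2) * LL y ≤ y := by
    have g := gap_nonneg hu0 y
    rw [mm_zero hy, th_zero hy]
    have e : 2 * (ph y / tanh y) + 1 / tanh y * bb u - (lam u - 2) * LL y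
        = (eta u - lam u * Hy y) / tanh y := by
      unfold LL ph bb; field_simp; ring
    rw [e, div_le_iff₀ ht]
    unfold gap pp at g
    linarith
  obtain ⟨τ, t0, t1, hC⟩ := exists_tau le_rfl h3 h4
  have hS := p1_sinh_pos hy
  have hN := NN_pos y z
  have hC' : cosh (2 * z) - 1 = τ * (cosh (2 * z2) - 1) := by
    rw [hC]; simp; ring
  have hD := one_le_cosh (2 * y)
  have hCz := one_le_cosh (2 * z)
  have hC2 := one_le_cosh (2 * z2)
  have c1 : MM y z - MM y 0 ≤ τ * (MM ya z2 - MM ya 0) := by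
    have := MM_diff_mono (z := z) hya.le h1
    have := MM_chord hya.le t0 t1 hC
    linarith
  have c2 : sinh (2 * y) * (th y z - th y 0) * bb u
      ≤ τ * (tanh yb ^ 2 * bb w * (cosh (2 * z2) - 1)) := by
    have e : sinh (2 * y) * (th y z - th y 0)
        = tanh y ^ 2 * ((1 + cosh (2 * y)) / NN y z) * (cosh (2 * z) - 1) := by
      unfold th
      rw [p1_NN_zero, ← p1_mul_tanh y]
      have : NN y z = cosh (2 * z) + cosh (2 * y) := rfl
      have h' : 0 < 1 + cosh (2 * y) := by linarith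
      field_simp
      rw [this]; ring
    have d1 : (1 + cosh (2 * y)) / NN y z ≤ 1 := by
      rw [div_le_one hN]; unfold NN; linarith
    have d2 : tanh y ^ 2 ≤ tanh yb ^ 2 := pow_le_pow_left₀ ht.le (tanh_mono' h2) 2
    have d3 : tanh y ^ 2 * ((1 + cosh (2 * y)) / NN y z) ≤ tanh yb ^ 2 := by
      have := mul_le_mul_of_nonneg_left d1 (sq_nonneg (tanh y))
      linarith
    have d4 := mul_le_mul_of_nonneg_right d3 (sub_nonneg.2 hCz)
    have d5 := mul_le_mul_of_nonneg_right d4 (bb_nonneg hu0)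
    have d6 := mul_le_mul_of_nonneg_left (bb_mono hu0 huw)
      (mul_nonneg (sq_nonneg (tanh yb)) (sub_nonneg.2 hCz))
    rw [e]
    rw [hC'] at d5 d6 ⊢
    linarith
  have c3 : τ * (xi * (cosh (2 * z2) - 1) * (2 / (1 + cosh (2 * yb))) * (1 - uu ya z2))
      ≤ xi * NN y z * (uu y z * (1 - uu y z)) := by
    have e : NN y z * uu y z = (cosh (2 * z) - 1) * ((cosh (2 * z) + 1) / NN y z) := by
      unfold uu
      have := cosh_sq (2 * z)
      field_simp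
      linarith
    have d1 : 2 / (1 + cosh (2 * yb)) ≤ (cosh (2 * z) + 1) / NN y z := by
      have := p1_cosh_le hy.le h2
      refine le_trans (div_le_div_of_nonneg_left (by norm_num) (by linarith)
        (show 1 + cosh (2 * y) ≤ 1 + cosh (2 * yb) by linarith)) ?_
      rw [div_le_div_iff₀ (by linarith) hN]
      unfold NN
      nlinarith [mul_nonneg (sub_nonneg.2 hCz) (sub_nonneg.2 hD)]
    have d2 : 1 - uu ya z2 ≤ 1 - uu y z := by linarith [uu_le hya.le h1 h3 h4]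
    have d3 : 0 ≤ 1 - uu ya z2 := by linarith [uu_lt_one ya z2]
    have d4 : 0 ≤ (cosh (2 * z) + 1) / NN y z := div_nonneg (by linarith) hN.le
    have d5 := mul_le_mul d1 d2 d3 d4
    have d6 := mul_le_mul_of_nonneg_left d5 (sub_nonneg.2 hCz)
    have e2 : xi * NN y z * (uu y z * (1 - uu y z))
        = xi * ((cosh (2 * z) - 1) * ((cosh (2 * z) + 1) / NN y z * (1 - uu y z))) := by
      rw [← mul_assoc (cosh (2 * z) - 1), ← e]; ring
    have e3 : τ * (xi * (cosh (2 * z2) - 1) * (2 / (1 + cosh (2 * yb))) * (1 - uu ya z2))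
        = xi * ((cosh (2 * z) - 1) * (2 / (1 + cosh (2 * yb)) * (1 - uu ya z2))) := by
      rw [hC']; ring
    rw [e2, e3]
    exact mul_le_mul_of_nonneg_left d6 (by unfold xi; norm_num)
  have c4 := mul_le_mul_of_nonneg_left hX t0
  have b3 : 2 * (mm y z - mm y 0) + (th y z - th y 0) * bb u
      - xi * io y z * (uu y z * (1 - uu y z)) ≤ 0 := by
    have e : 2 * (mm y z - mm y 0) + (th y z - th y 0) * bb u
        - xi * io y z * (uu y z * (1 - uu y z))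
        = (2 * (MM y z - MM y 0) + sinh (2 * y) * (th y z - th y 0) * bb u
          - xi * NN y z * (uu y z * (1 - uu y z))) / sinh (2 * y) := by
      unfold mm io; field_simp
    rw [e]
    exact div_nonpos_of_nonpos_of_nonneg (by linarith) hS.le
  have p0 : psi 0 = 0 := by simp [psi, ph_zero, pp_zero]
  unfold FP kap
  rw [lam_zero, p0]
  linarith

theorem leaf_G {ya yb z1 z2 l1 l2 v' Y t1 t2 T w11 w12 w21 w22 y z l v : ℝ}
    (hya : 0 < ya) (h1 : ya ≤ y) (h2 : y ≤ yb)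
    (hz1 : 0 ≤ z1) (h3 : z1 ≤ z) (h4 : z ≤ z2) (h5 : l1 ≤ l) (h6 : l ≤ l2) (hv : y0 ≤ v)
    (hv' : y0 ≤ v') (hY : 0 < Y) (ht1 : t1 = th ya z1)
    (ht2 : t2 = t1 + sinh (2 * ya) / NN ya z1 ^ 2 * (cosh (2 * z2) - cosh (2 * z1)))
    (hT : T = xi * dd yb z1 * max (1 - 6 * uu yb z1) 0)
    (s11 : Hy w11 * t1 ≤ l1) (s12 : Hy w12 * t1 ≤ l2)
    (s21 : Hy w21 * t2 ≤ l1) (s22 : Hy w22 * t2 ≤ l2)
    (c11 : 2 * mm yb z1 + t1 * gap v' w11 + dd yb z1 * bb v' + T + mu Y * l1 ≤ kap Y)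
    (c12 : 2 * mm yb z1 + t1 * gap v' w12 + dd yb z1 * bb v' + T + mu Y * l2 ≤ kap Y)
    (c21 : 2 * mm yb z2 + t2 * gap v' w21 + dd yb z2 * bb v' + T + mu Y * l1 ≤ kap Y)
    (c22 : 2 * mm yb z2 + t2 * gap v' w22 + dd yb z2 * bb v' + T + mu Y * l2 ≤ kap Y) :
    Good y z l v := by
  have hy : 0 < y := hya.trans_le h1
  have hb : 0 < yb := hy.trans_le h2
  have hv0 : 0 ≤ v' := y0_pos.le.trans hv'
  refine routeG hy hv' (fun u hu => Or.inr ⟨Y, hY, ?_⟩) hv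
  obtain ⟨τ, t0, t1', hC⟩ := exists_tau hz1 h3 h4
  have a1 := leaf_mm hy h2 t0 t1' hC
  obtain ⟨a2, p1, p2⟩ := leaf_th hya h1 hz1 h3 h4 hC ht1 ht2
  have a3 := (dd_le hy.le h2 (hz1.trans h3) le_rfl).trans (dd_chord hb.le t0 t1' hC)
  have a4 := leaf_xi hy h2 hz1 h3
  rw [← hT] at a4
  have b1 := mul_le_mul_of_nonneg_right a2 (sub_nonneg.2 (bb_mono hv0 hu))
  have b2 := mul_le_mul_of_nonneg_right a3 (bb_nonneg hv0)
  have g11 := gap_bound hv0 hu p1 s11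
  have g12 := gap_bound hv0 hu p1 s12
  have g21 := gap_bound hv0 hu p2 s21
  have g22 := gap_bound hv0 hu p2 s22
  have k1 := leaf_aff (a := 2 * mm yb z1 + t1 * (bb u - bb v') + dd yb z1 * bb v' + T)
    (g := mu Y - (lam u - lam v')) (k := kap Y) h5 h6 (by linarith) (by linarith)
  have k2 := leaf_aff (a := 2 * mm yb z2 + t2 * (bb u - bb v') + dd yb z2 * bb v' + T)
    (g := mu Y - (lam u - lam v')) (k := kap Y) h5 h6 (by linarith) (by linarith)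
  have m1 := mul_le_mul_of_nonneg_left k1 (sub_nonneg.2 t1')
  have m2 := mul_le_mul_of_nonneg_left k2 t0
  unfold FG
  linarith

theorem leaf_P {ya yb z1 z2 l1 l2 a Y t1 t2 R w11 w12 w21 w22 y z l v : ℝ}
    (hya : 0 < ya) (h1 : ya ≤ y) (h2 : y ≤ yb)
    (hz1 : 0 ≤ z1) (h3 : z1 ≤ z) (h4 : z ≤ z2) (h5 : l1 ≤ l) (h6 : l ≤ l2) (hv : y0 ≤ v)
    (ha0 : 0 ≤ a) (ha1 : a ≤ y0) (hY : 0 < Y) (ht1 : t1 = th ya z1)
    (ht2 : t2 = t1 + sinh (2 * ya) / NN ya z1 ^ 2 * (cosh (2 * z2) - cosh (2 * z1)))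
    (hR : R = kap Y + (lam a - 2) * qq yb z1 + xi * io yb z1 * (uu yb z1 * (1 - uu ya z2)))
    (s11 : Hy w11 * t1 ≤ l1) (s12 : Hy w12 * t1 ≤ l2)
    (s21 : Hy w21 * t2 ≤ l1) (s22 : Hy w22 * t2 ≤ l2)
    (c11 : 2 * mm yb z1 + t1 * (gap y0 w11 + bb y0) + io ya z1 * psi a + (mu Y + lam a) * l1
      ≤ R + lam y0 * l1)
    (c12 : 2 * mm yb z1 + t1 * (gap y0 w12 + bb y0) + io ya z1 * psi a + (mu Y + lam a) * l2
      ≤ R + lam y0 * l2)
    (c21 : 2 * mm yb z2 + t2 * (gap y0 w21 + bb y0) + io ya z2 * psi a + (mu Y + lam a) * l1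
      ≤ R + lam y0 * l1)
    (c22 : 2 * mm yb z2 + t2 * (gap y0 w22 + bb y0) + io ya z2 * psi a + (mu Y + lam a) * l2
      ≤ R + lam y0 * l2) :
    Good y z l v := by
  have hy : 0 < y := hya.trans_le h1
  have hb : 0 < yb := hy.trans_le h2
  have hz : 0 ≤ z := hz1.trans h3
  refine Or.inr (Or.inr ⟨a, ha0, ha1, Or.inr ⟨Y, hY, ?_⟩⟩)
  obtain ⟨τ, t0, t1', hC⟩ := exists_tau hz1 h3 h4
  have a1 := leaf_mm hy h2 t0 t1' hC
  obtain ⟨a2, p1, p2⟩ := leaf_th hya h1 hz1 h3 h4 hC ht1 ht2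
  have a3 := io_le hya h1 hz le_rfl
  rw [io_chord (y := ya) hC] at a3
  have a4 := qq_ge hy h2 hz1 h3
  have a5 : io yb z1 * (uu yb z1 * (1 - uu ya z2)) ≤ io y z * (uu y z * (1 - uu y z)) := by
    have d3 : 0 ≤ 1 - uu ya z2 := by linarith [uu_lt_one ya z2]
    refine mul_le_mul (io_le hy h2 hz1 h3) (mul_le_mul (uu_le hy.le h2 hz1 h3) ?_ d3
      (uu_nonneg _ _)) (mul_nonneg (uu_nonneg _ _) d3) (io_pos hy z).le
    linarith [uu_le hya.le h1 hz h4]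
  have b1 := mul_le_mul_of_nonneg_right a2 (bb_nonneg (y0_pos.le.trans hv))
  have b2 := mul_le_mul_of_nonneg_right a3 (psi_nonneg ha0)
  have b3 := mul_le_mul_of_nonneg_left a4 (sub_nonneg.2 (two_le_lam a))
  have b4 := mul_le_mul_of_nonneg_left a5 (show 0 ≤ xi by unfold xi; norm_num)
  have g11 := gap_bound y0_pos.le hv p1 s11
  have g12 := gap_bound y0_pos.le hv p1 s12
  have g21 := gap_bound y0_pos.le hv p2 s21
  have g22 := gap_bound y0_pos.le hv p2 s22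
  have k1 := leaf_aff (a := 2 * mm yb z1 + t1 * bb v + io ya z1 * psi a)
    (g := mu Y + lam a - lam v) (k := R) h5 h6 (by linarith) (by linarith)
  have k2 := leaf_aff (a := 2 * mm yb z2 + t2 * bb v + io ya z2 * psi a)
    (g := mu Y + lam a - lam v) (k := R) h5 h6 (by linarith) (by linarith)
  have m1 := mul_le_mul_of_nonneg_left k1 (sub_nonneg.2 t1')
  have m2 := mul_le_mul_of_nonneg_left k2 t0
  unfold FP
  linarith

end Vale.Agent.P322
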