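import Vale.Agent.P322.IvFn
import Vale.Agent.P322.Leaf

/-! The certificate checker and its soundness. -/

namespace Vale.Agent.P322

open Real Iv

inductive Tr where
  | o : Tr
  | k : Tr
  | s1 (w : ℕ) : Tr
  | s2 (w x : ℕ) : Tr
  | d (w : ℕ) : Tr
  | g (v Y w11 w12 w21 w22 : ℕ) : Tr
  | p (a Y w11 w12 w21 w22 : ℕ) : Tr
  | sy (m : ℕ) (l r : Tr) : Tr
  | sz (m : ℕ) (l r : Tr) : Tr
  | sl (m : ℕ) (l r : Tr) : Tr

def okR (k : ℕ) : Bool := Nat.ble 4563402752 k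
def ge1 (k : ℕ) : Bool := Nat.ble 4294967296 k
def okE (k : ℕ) : Bool := Bool.or (Nat.beq k 0) (ge1 k)
def geK0 (k : ℕ) : Bool := Nat.ble 9663676416 k
def okA (k : ℕ) : Bool :=
  Bool.and (Bool.or (Nat.beq k 4294967296) (okR k)) (Nat.ble k 9663676416)
def tmI (ra e2 : ℕ) : Iv := cond (Nat.beq e2 0) (thInfI ra) (thI ra e2)
def tiltI (rb e1 : ℕ) : Iv := Iv.sub Iv.one (Iv.nmul 6 (uuI rb e1))

def chkO (ra l1 : ℕ) : Bool := Bool.and (okR ra) (Iv.lt (LLI ra) (Iv.ex l1))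
def chkK (ra e1 e2 l1 : ℕ) : Bool :=
  Bool.and (okR ra) (Bool.and (ge1 e1) (Bool.and (okE e2)
    (Iv.le (Iv.mul (HyI 9663676416) (tmI ra e2)) (Iv.ex l1))))
def chkS (ra rb e1 e2 l1 w : ℕ) : Bool :=
  Bool.and (okR ra) (Bool.and (okR rb) (Bool.and (ge1 e1) (Bool.and (okE e2) (Bool.and (geK0 w)
    (Iv.le (Iv.mul (HyI w) (tmI ra e2)) (Iv.ex l1))))))
def XSI (rb e1 w : ℕ) : Iv :=
  Iv.add (Iv.nmul 2 (mmI rb e1))
    (Iv.mul (ddI rb e1) (Iv.add (bbI w) (Iv.mul Iv.fortieth (tiltI rb e1))))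
def chkS1 (ra rb e1 e2 l1 w : ℕ) : Bool :=
  Bool.and (chkS ra rb e1 e2 l1 w) (Iv.le (XSI rb e1 w) (yI ra))
def chkS2 (ra rb e1 e2 l1 l2 w x : ℕ) : Bool :=
  Bool.and (chkS ra rb e1 e2 l1 w) (Bool.and (okR x)
    (Bool.and (Iv.le (XSI rb e1 w) (yI x)) (Iv.le (Iv.ex l2) (LLI x))))
def chkD (ra rb e1 e2 l1 w : ℕ) : Bool :=
  Bool.and (okR ra) (Bool.and (okR rb) (Bool.and (Nat.beq e1 4294967296)
    (Bool.and (Nat.ble 4294967297 e2) (Bool.and (okR w)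
    (Bool.and (Iv.le (Iv.mul (HyI w) (thI ra e2)) (Iv.ex l1))
    (Bool.and (Iv.le (lamI w) (Iv.add (muI ra) Iv.two))
    (Iv.le
      (Iv.add (Iv.mul (Iv.mul (sqI (tI rb)) (bbI w)) (Iv.sub (c2I e2) Iv.one))
        (Iv.nmul 2 (MMI ra e2)))
      (Iv.add (Iv.nmul 2 (MMI ra 4294967296))
        (Iv.mul (Iv.mul (Iv.mul Iv.fortieth (Iv.sub (c2I e2) Iv.one))
          (Iv.div Iv.two (Iv.add Iv.one (c2I rb)))) (Iv.sub Iv.one (uuI ra e2)))))))))))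
def chkBox (ra rb e1 e2 Y : ℕ) : Bool :=
  Bool.and (okR ra) (Bool.and (okR rb) (Bool.and (ge1 e1) (Bool.and (Nat.ble e1 e2) (okR Y))))
def chkW (w : ℕ) (t : Iv) (l : ℕ) : Bool := Bool.and (ge1 w) (Iv.le (Iv.mul (HyI w) t) (Iv.ex l))
def TI (rb e1 : ℕ) : Iv := Iv.mul (Iv.mul Iv.fortieth (ddI rb e1)) (tiltI rb e1)
def vtxG (rb e1 e v Y w : ℕ) (t : Iv) (l : ℕ) : Bool :=
  Bool.and (chkW w t l) (Iv.le
    (Iv.add (Iv.add (Iv.add (Iv.add (Iv.nmul 2 (mmI rb e)) (Iv.mul t (gapI v w)))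
      (Iv.mul (ddI rb e) (bbI v))) (TI rb e1)) (Iv.mul (muI Y) (Iv.ex l))) (kapI Y))
def chkG (ra rb e1 e2 l1 l2 v Y w11 w12 w21 w22 : ℕ) : Bool :=
  Bool.and (chkBox ra rb e1 e2 Y) (Bool.and (geK0 v)
    (Bool.and (vtxG rb e1 e1 v Y w11 (thI ra e1) l1) (Bool.and (vtxG rb e1 e1 v Y w12 (thI ra e1) l2)
    (Bool.and (vtxG rb e1 e2 v Y w21 (t2I ra e1 e2) l1) (vtxG rb e1 e2 v Y w22 (t2I ra e1 e2) l2)))))
def RI (ra rb e1 e2 a Y : ℕ) : Iv :=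
  Iv.add (Iv.add (kapI Y) (Iv.mul (Iv.sub (lamI0 a) Iv.two) (qqI rb e1)))
    (Iv.mul (Iv.mul Iv.fortieth (ioI rb e1)) (Iv.mul (uuI rb e1) (Iv.sub Iv.one (uuI ra e2))))
def vtxP (ra rb e a Y w : ℕ) (t R : Iv) (l : ℕ) : Bool :=
  Bool.and (chkW w t l) (Iv.le
    (Iv.add (Iv.add (Iv.add (Iv.nmul 2 (mmI rb e))
      (Iv.mul t (Iv.add (gapI 9663676416 w) (bbI 9663676416))))
      (Iv.mul (ioI ra e) (psiI a))) (Iv.mul (Iv.add (muI Y) (lamI0 a)) (Iv.ex l)))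
    (Iv.add R (Iv.mul (lamI 9663676416) (Iv.ex l))))
def chkP (ra rb e1 e2 l1 l2 a Y w11 w12 w21 w22 : ℕ) : Bool :=
  Bool.and (chkBox ra rb e1 e2 Y) (Bool.and (okA a)
    (Bool.and (vtxP ra rb e1 a Y w11 (thI ra e1) (RI ra rb e1 e2 a Y) l1)
    (Bool.and (vtxP ra rb e1 a Y w12 (thI ra e1) (RI ra rb e1 e2 a Y) l2)
    (Bool.and (vtxP ra rb e2 a Y w21 (t2I ra e1 e2) (RI ra rb e1 e2 a Y) l1)
      (vtxP ra rb e2 a Y w22 (t2I ra e1 e2) (RI ra rb e1 e2 a Y) l2)))))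

def check : Tr → ℕ → ℕ → ℕ → ℕ → ℕ → ℕ → Bool
  | .o, ra, _, _, _, l1, _ => chkO ra l1
  | .k, ra, _, e1, e2, l1, _ => chkK ra e1 e2 l1
  | .s1 w, ra, rb, e1, e2, l1, _ => chkS1 ra rb e1 e2 l1 w
  | .s2 w x, ra, rb, e1, e2, l1, l2 => chkS2 ra rb e1 e2 l1 l2 w x
  | .d w, ra, rb, e1, e2, l1, _ => chkD ra rb e1 e2 l1 w
  | .g v Y a b c d, ra, rb, e1, e2, l1, l2 => chkG ra rb e1 e2 l1 l2 v Y a b c d
  | .p v Y a b c d, ra, rb, e1, e2, l1, l2 => chkP ra rb e1 e2 l1 l2 v Y a b c d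
  | .sy m l r, ra, rb, e1, e2, l1, l2 =>
      Bool.and (check l ra m e1 e2 l1 l2) (check r m rb e1 e2 l1 l2)
  | .sz m l r, ra, rb, e1, e2, l1, l2 =>
      Bool.and (check l ra rb e1 m l1 l2) (check r ra rb m e2 l1 l2)
  | .sl m l r, ra, rb, e1, e2, l1, l2 =>
      Bool.and (check l ra rb e1 e2 l1 m) (check r ra rb e1 e2 m l2)

def Box (ra rb e1 e2 l1 l2 : ℕ) : Prop :=
  ∀ y z l v : ℝ, yv ra ≤ y → y ≤ yv rb → yv e1 ≤ z → (e2 = 0 ∨ z ≤ yv e2) → rv l1 ≤ l →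
    l ≤ rv l2 → l ≤ LL y → y0 ≤ v → Good y z l v

theorem Box.sy {ra rb e1 e2 l1 l2 : ℕ} (m : ℕ) (h1 : Box ra m e1 e2 l1 l2)
    (h2 : Box m rb e1 e2 l1 l2) : Box ra rb e1 e2 l1 l2 := by
  intro y z l v a1 a2 a3 a4 a5 a6 a7 a8
  rcases le_total y (yv m) with h | h
  · exact h1 y z l v a1 h a3 a4 a5 a6 a7 a8
  · exact h2 y z l v h a2 a3 a4 a5 a6 a7 a8

theorem Box.sz {ra rb e1 e2 l1 l2 : ℕ} (m : ℕ) (h1 : Box ra rb e1 m l1 l2)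
    (h2 : Box ra rb m e2 l1 l2) : Box ra rb e1 e2 l1 l2 := by
  intro y z l v a1 a2 a3 a4 a5 a6 a7 a8
  rcases le_total z (yv m) with h | h
  · exact h1 y z l v a1 a2 a3 (Or.inr h) a5 a6 a7 a8
  · exact h2 y z l v a1 a2 h a4 a5 a6 a7 a8

theorem Box.sl {ra rb e1 e2 l1 l2 : ℕ} (m : ℕ) (h1 : Box ra rb e1 e2 l1 m)
    (h2 : Box ra rb e1 e2 m l2) : Box ra rb e1 e2 l1 l2 := by
  intro y z l v a1 a2 a3 a4 a5 a6 a7 a8
  rcases le_total l (rv m) with h | h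
  · exact h1 y z l v a1 a2 a3 a4 a5 h a7 a8
  · exact h2 y z l v a1 a2 a3 a4 h a6 a7 a8

theorem okR_ok {k : ℕ} (h : okR k = true) : 17 / 16 ≤ rv k := ok_le_rv (Nat.le_of_ble_eq_true h)
theorem ge1_ok {k : ℕ} (h : ge1 k = true) : 1 ≤ rv k := one_le_rv (Nat.le_of_ble_eq_true h)
theorem okE_ok {k : ℕ} (h : okE k = true) : k = 0 ∨ 1 ≤ rv k := by
  unfold okE at h
  rw [Bool.or_eq_true] at h
  exact h.imp Nat.eq_of_beq_eq_true ge1_ok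
theorem K0_ok : 17 / 16 ≤ rv 9663676416 := ok_le_rv (by norm_num)
theorem geK0_ok {k : ℕ} (h : geK0 k = true) : 17 / 16 ≤ rv k ∧ y0 ≤ yv k := by
  have h1 : 9663676416 ≤ k := Nat.le_of_ble_eq_true h
  exact ⟨ok_le_rv (by omega), yv_K0 ▸ yv_mono (by norm_num) h1⟩
theorem okA_ok {k : ℕ} (h : okA k = true) :
    (k = 4294967296 ∨ 17 / 16 ≤ rv k) ∧ yv k ≤ y0 := by
  unfold okA at h
  rw [Bool.and_eq_true, Bool.or_eq_true] at h
  have h1 : k = 4294967296 ∨ 17 / 16 ≤ rv k := h.1.imp Nat.eq_of_beq_eq_true okR_ok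
  have h2 : k ≤ 9663676416 := Nat.le_of_ble_eq_true h.2
  refine ⟨h1, ?_⟩
  have h3 : 4294967296 ≤ k := by
    rcases h.1 with h | h
    · exact (Nat.eq_of_beq_eq_true h).ge
    · exact le_trans (by norm_num) (Nat.le_of_ble_eq_true h)
  exact yv_K0 ▸ yv_mono h3 h2

theorem mem_exr (k : ℕ) : (Iv.ex k).Mem (rv k) := mem_ex k
theorem mem_xi : Iv.fortieth.Mem xi := mem_fortieth
theorem mem_n2 {a : Iv} {x : ℝ} (h : a.Mem x) : (Iv.nmul 2 a).Mem (2 * x) :=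
  (mem_nmul 2 h).congr (by push_cast; ring)

theorem tm_ok {ra e2 : ℕ} {y z : ℝ} (hra : 17 / 16 ≤ rv ra) (he : e2 = 0 ∨ 1 ≤ rv e2)
    (a1 : yv ra ≤ y) (hz : 0 ≤ z) (a4 : e2 = 0 ∨ z ≤ yv e2) :
    ∃ tm, (tmI ra e2).Mem tm ∧ th y z ≤ tm := by
  unfold tmI
  by_cases h : e2 = 0
  · subst h
    exact ⟨_, mem_thInfI hra, th_le_inf (yv_pos hra) a1 z⟩
  · have hb : Nat.beq e2 0 = false := by
      cases hb : Nat.beq e2 0
      · rfl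
      · exact absurd (Nat.eq_of_beq_eq_true hb) h
    rw [hb]
    exact ⟨_, mem_thI hra (he.resolve_left h), th_le (yv_pos hra) a1 hz (a4.resolve_left h)⟩

theorem mem_tiltI {rb e1 : ℕ} (hrb : 17 / 16 ≤ rv rb) (he : 1 ≤ rv e1) :
    (tiltI rb e1).Mem (max (1 - 6 * uu (yv rb) (yv e1)) 0) :=
  (mem_sub_max mem_one (mem_nmul 6 (mem_uuI hrb he))).congr (by push_cast; ring_nf)

theorem box_O {ra rb e1 e2 l1 l2 : ℕ} (h : chkO ra l1 = true) : Box ra rb e1 e2 l1 l2 := by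
  intro y z l v a1 a2 a3 a4 a5 a6 a7 a8
  simp only [chkO, Bool.and_eq_true] at h
  have hra := okR_ok h.1
  have h1 := lt_of_lt (mem_LLI hra) (mem_exr l1) h.2
  have h2 := LL_anti (yv_pos hra) a1
  exact absurd (a5.trans (a7.trans h2)) (not_le.mpr h1)

theorem box_K {ra rb e1 e2 l1 l2 : ℕ} (h : chkK ra e1 e2 l1 = true) :
    Box ra rb e1 e2 l1 l2 := by
  intro y z l v a1 a2 a3 a4 a5 a6 a7 a8
  simp only [chkK, Bool.and_eq_true] at h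
  obtain ⟨b1, b2, b3, b4⟩ := h
  have hra := okR_ok b1
  obtain ⟨tm, m1, m2⟩ := tm_ok hra (okE_ok b3) a1 ((yv_nonneg (ge1_ok b2)).trans a3) a4
  have h1 := le_of_le (mem_mul (mem_HyI (ok_one K0_ok)) m1) (mem_exr l1) b4
  rw [yv_K0] at h1
  left
  have := mul_le_mul_of_nonneg_left m2 (Hy_pos y0).le
  linarith

theorem box_S {ra rb e1 e2 l1 l2 w : ℕ} (h : chkS ra rb e1 e2 l1 w = true)
    (hc : 17 / 16 ≤ rv ra → ∀ X, (XSI rb e1 w).Mem X →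
      ∃ X', X ≤ X' ∧ (X' ≤ yv ra ∨ (0 < X' ∧ rv l2 ≤ LL X'))) :
    Box ra rb e1 e2 l1 l2 := by
  intro y z l v a1 a2 a3 a4 a5 a6 a7 a8
  simp only [chkS, Bool.and_eq_true] at h
  obtain ⟨b1, b2, b3, b4, b5, b6⟩ := h
  have hra := okR_ok b1
  have hrb := okR_ok b2
  have he1 := ge1_ok b3
  obtain ⟨hw, hw'⟩ := geK0_ok b5
  obtain ⟨tm, m1, m2⟩ := tm_ok hra (okE_ok b4) a1 ((yv_nonneg he1).trans a3) a4
  have h1 := le_of_le (mem_mul (mem_HyI (ok_one hw)) m1) (mem_exr l1) b6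
  have m3 : (XSI rb e1 w).Mem _ := mem_add (mem_n2 (mem_mmI hrb he1))
    (mem_mul (mem_ddI hrb he1) (mem_add (mem_bbI hw) (mem_mul mem_xi (mem_tiltI hrb he1))))
  obtain ⟨X', c1, c2⟩ := hc hra _ m3
  exact leaf_S (yv_pos hra) a1 a2 (yv_nonneg he1) a3 a5 a6 a8 m2 hw' h1 c1 c2

theorem box_S1 {ra rb e1 e2 l1 l2 w : ℕ} (h : chkS1 ra rb e1 e2 l1 w = true) :
    Box ra rb e1 e2 l1 l2 := by
  simp only [chkS1, Bool.and_eq_true] at h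
  exact box_S h.1 fun hra X hX =>
    ⟨X, le_rfl, Or.inl (le_of_le hX (mem_yI (ok_one hra)) h.2)⟩

theorem box_S2 {ra rb e1 e2 l1 l2 w x : ℕ} (h : chkS2 ra rb e1 e2 l1 l2 w x = true) :
    Box ra rb e1 e2 l1 l2 := by
  simp only [chkS2, Bool.and_eq_true] at h
  obtain ⟨b1, b2, b3, b4⟩ := h
  have hx := okR_ok b2
  exact box_S b1 fun _ X hX =>
    ⟨yv x, le_of_le hX (mem_yI (ok_one hx)) b3,
      Or.inr ⟨yv_pos hx, le_of_le (mem_exr l2) (mem_LLI hx) b4⟩⟩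

theorem box_D {ra rb e1 e2 l1 l2 w : ℕ} (h : chkD ra rb e1 e2 l1 w = true) :
    Box ra rb e1 e2 l1 l2 := by
  intro y z l v a1 a2 a3 a4 a5 a6 a7 a8
  simp only [chkD, Bool.and_eq_true] at h
  obtain ⟨b1, b2, b3, b4, b5, b6, b7, b8⟩ := h
  have hra := okR_ok b1
  have hrb := okR_ok b2
  have he1 : e1 = 4294967296 := Nat.eq_of_beq_eq_true b3
  have he2 : 4294967297 ≤ e2 := Nat.le_of_ble_eq_true b4
  have hw := okR_ok b5
  have he2' : 1 ≤ rv e2 := one_le_rv (by omega)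
  have h1' : 1 ≤ rv 4294967296 := one_le_rv le_rfl
  subst he1
  rw [yv_one] at a3
  have hz2 : 0 < yv e2 := by
    have : 1 < rv e2 := by
      unfold rv
      rw [lt_div_iff₀ (by positivity)]
      have : (4294967297 : ℝ) ≤ e2 := by exact_mod_cast he2
      norm_num; linarith
    unfold yv
    have := Real.log_pos this
    linarith
  have c1 := le_of_le (mem_mul (mem_HyI (ok_one hw)) (mem_thI hra he2')) (mem_exr l1) b6
  have c2 := le_of_le (mem_lamI hw) (mem_add (mem_muI (ok_one hra)) mem_two) b7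
  have m1 := mem_sub (mem_c2I he2') mem_one (Real.one_le_cosh _)
  have c3 := le_of_le
    (mem_add (mem_mul (mem_mul (mem_sqI (mem_tI (ok_one hrb))) (mem_bbI hw)) m1)
      (mem_n2 (mem_MMI hra he2')))
    (mem_add (mem_n2 (mem_MMI hra h1'))
      (mem_mul (mem_mul (mem_mul mem_xi m1)
        (mem_div mem_two (mem_add mem_one (mem_c2I (ok_one hrb)))
          (by linarith [Real.one_le_cosh (2 * yv rb)])))
        (mem_sub mem_one (mem_uuI hra he2') (uu_lt_one _ _).le))) b8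
  rw [yv_one] at c3
  exact leaf_D (yv_pos hra) a1 a2 hz2 a3 (a4.resolve_left (by omega)) a5 a7 a8 (yv_pos hw).le
    c1 c2 c3

theorem chkBox_ok {ra rb e1 e2 Y : ℕ} (h : chkBox ra rb e1 e2 Y = true) :
    17 / 16 ≤ rv ra ∧ 17 / 16 ≤ rv rb ∧ 1 ≤ rv e1 ∧ rv e1 ≤ rv e2 ∧ e2 ≠ 0 ∧ 17 / 16 ≤ rv Y := by
  simp only [chkBox, Bool.and_eq_true] at h
  obtain ⟨b1, b2, b3, b4, b5⟩ := h
  have h1 : 4294967296 ≤ e1 := Nat.le_of_ble_eq_true b3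
  have h2 : e1 ≤ e2 := Nat.le_of_ble_eq_true b4
  exact ⟨okR_ok b1, okR_ok b2, ge1_ok b3, rv_mono h2, by omega, okR_ok b5⟩

theorem chkW_ok {w l : ℕ} {t : Iv} {τ : ℝ} (ht : t.Mem τ) (h : chkW w t l = true) :
    1 ≤ rv w ∧ Hy (yv w) * τ ≤ rv l := by
  simp only [chkW, Bool.and_eq_true] at h
  have hw := ge1_ok h.1
  exact ⟨hw, le_of_le (mem_mul (mem_HyI hw) ht) (mem_exr l) h.2⟩

theorem vtxG_ok {rb e1 e v Y w l : ℕ} {t : Iv} {τ : ℝ} (hrb : 17 / 16 ≤ rv rb) (he1 : 1 ≤ rv e1)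
    (he : 1 ≤ rv e) (hv : 17 / 16 ≤ rv v) (hY : 17 / 16 ≤ rv Y) (ht : t.Mem τ)
    (h : vtxG rb e1 e v Y w t l = true) :
    Hy (yv w) * τ ≤ rv l ∧
      2 * mm (yv rb) (yv e) + τ * gap (yv v) (yv w) + dd (yv rb) (yv e) * bb (yv v)
        + xi * dd (yv rb) (yv e1) * max (1 - 6 * uu (yv rb) (yv e1)) 0 + mu (yv Y) * rv l
        ≤ kap (yv Y) := by
  simp only [vtxG, Bool.and_eq_true] at h
  obtain ⟨hw, c1⟩ := chkW_ok ht h.1
  exact ⟨c1, le_of_le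
    (mem_add (mem_add (mem_add (mem_add (mem_n2 (mem_mmI hrb he)) (mem_mul ht (mem_gapI hv hw)))
      (mem_mul (mem_ddI hrb he) (mem_bbI hv)))
      (mem_mul (mem_mul mem_xi (mem_ddI hrb he1)) (mem_tiltI hrb he1)))
      (mem_mul (mem_muI (ok_one hY)) (mem_exr l))) (mem_kapI hY) h.2⟩

theorem box_G {ra rb e1 e2 l1 l2 v Y w11 w12 w21 w22 : ℕ}
    (h : chkG ra rb e1 e2 l1 l2 v Y w11 w12 w21 w22 = true) : Box ra rb e1 e2 l1 l2 := by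
  intro y z l u a1 a2 a3 a4 a5 a6 a7 a8
  simp only [chkG, Bool.and_eq_true] at h
  obtain ⟨b0, b1, b2, b3, b4, b5⟩ := h
  obtain ⟨hra, hrb, he1, he12, he0, hY⟩ := chkBox_ok b0
  obtain ⟨hv, hv'⟩ := geK0_ok b1
  have he2 := he1.trans he12
  have m1 := mem_thI hra he1
  have m2 := mem_t2I hra he1 he12
  obtain ⟨s11, c11⟩ := vtxG_ok hrb he1 he1 hv hY m1 b2
  obtain ⟨s12, c12⟩ := vtxG_ok hrb he1 he1 hv hY m1 b3
  obtain ⟨s21, c21⟩ := vtxG_ok hrb he1 he2 hv hY m2 b4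
  obtain ⟨s22, c22⟩ := vtxG_ok hrb he1 he2 hv hY m2 b5
  exact leaf_G (yv_pos hra) a1 a2 (yv_nonneg he1) a3 (a4.resolve_left he0) a5 a6 a8 hv'
    (yv_pos hY) rfl rfl rfl s11 s12 s21 s22 c11 c12 c21 c22

theorem vtxP_ok {ra rb e a Y w l : ℕ} {t R : Iv} {τ ρ : ℝ} (hra : 17 / 16 ≤ rv ra)
    (hrb : 17 / 16 ≤ rv rb) (he : 1 ≤ rv e) (ha : a = 4294967296 ∨ 17 / 16 ≤ rv a)
    (hY : 17 / 16 ≤ rv Y) (ht : t.Mem τ) (hR : R.Mem ρ)
    (h : vtxP ra rb e a Y w t R l = true) :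
    Hy (yv w) * τ ≤ rv l ∧
      2 * mm (yv rb) (yv e) + τ * (gap y0 (yv w) + bb y0) + io (yv ra) (yv e) * psi (yv a)
        + (mu (yv Y) + lam (yv a)) * rv l ≤ ρ + lam y0 * rv l := by
  simp only [vtxP, Bool.and_eq_true] at h
  obtain ⟨hw, c1⟩ := chkW_ok ht h.1
  have := le_of_le
    (mem_add (mem_add (mem_add (mem_n2 (mem_mmI hrb he))
      (mem_mul ht (mem_add (mem_gapI K0_ok hw) (mem_bbI K0_ok))))
      (mem_mul (mem_ioI hra he) (mem_psiI ha)))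
      (mem_mul (mem_add (mem_muI (ok_one hY)) (mem_lamI0 ha)) (mem_exr l)))
    (mem_add hR (mem_mul (mem_lamI K0_ok) (mem_exr l))) h.2
  rw [yv_K0] at this
  exact ⟨c1, this⟩

theorem box_P {ra rb e1 e2 l1 l2 a Y w11 w12 w21 w22 : ℕ}
    (h : chkP ra rb e1 e2 l1 l2 a Y w11 w12 w21 w22 = true) : Box ra rb e1 e2 l1 l2 := by
  intro y z l u a1 a2 a3 a4 a5 a6 a7 a8
  simp only [chkP, Bool.and_eq_true] at h
  obtain ⟨b0, b1, b2, b3, b4, b5⟩ := h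
  obtain ⟨hra, hrb, he1, he12, he0, hY⟩ := chkBox_ok b0
  obtain ⟨ha, ha'⟩ := okA_ok b1
  have he2 := he1.trans he12
  have m1 := mem_thI hra he1
  have m2 := mem_t2I hra he1 he12
  have m3 : (RI ra rb e1 e2 a Y).Mem _ :=
    mem_add (mem_add (mem_kapI hY)
      (mem_mul (mem_sub (mem_lamI0 ha) mem_two (two_le_lam _)) (mem_qqI hrb he1)))
      (mem_mul (mem_mul mem_xi (mem_ioI hrb he1))
        (mem_mul (mem_uuI hrb he1) (mem_sub mem_one (mem_uuI hra he2) (uu_lt_one _ _).le)))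
  obtain ⟨s11, c11⟩ := vtxP_ok hra hrb he1 ha hY m1 m3 b2
  obtain ⟨s12, c12⟩ := vtxP_ok hra hrb he1 ha hY m1 m3 b3
  obtain ⟨s21, c21⟩ := vtxP_ok hra hrb he2 ha hY m2 m3 b4
  obtain ⟨s22, c22⟩ := vtxP_ok hra hrb he2 ha hY m2 m3 b5
  exact leaf_P (yv_pos hra) a1 a2 (yv_nonneg he1) a3 (a4.resolve_left he0) a5 a6 a8
    (yv_nonneg (one_le_of_or ha)) ha' (yv_pos hY) rfl rfl rfl s11 s12 s21 s22 c11 c12 c21 c22

theorem box_of_check (t : Tr) : ∀ ra rb e1 e2 l1 l2 : ℕ, check t ra rb e1 e2 l1 l2 = true →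
    Box ra rb e1 e2 l1 l2 := by
  induction t with
  | o => exact fun _ _ _ _ _ _ h => box_O h
  | k => exact fun _ _ _ _ _ _ h => box_K h
  | s1 w => exact fun _ _ _ _ _ _ h => box_S1 h
  | s2 w x => exact fun _ _ _ _ _ _ h => box_S2 h
  | d w => exact fun _ _ _ _ _ _ h => box_D h
  | g v Y a b c d => exact fun _ _ _ _ _ _ h => box_G h
  | p v Y a b c d => exact fun _ _ _ _ _ _ h => box_P h
  | sy m l r ihl ihr =>
    intro ra rb e1 e2 l1 l2 h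
    simp only [check, Bool.and_eq_true] at h
    exact Box.sy m (ihl _ _ _ _ _ _ h.1) (ihr _ _ _ _ _ _ h.2)
  | sz m l r ihl ihr =>
    intro ra rb e1 e2 l1 l2 h
    simp only [check, Bool.and_eq_true] at h
    exact Box.sz m (ihl _ _ _ _ _ _ h.1) (ihr _ _ _ _ _ _ h.2)
  | sl m l r ihl ihr =>
    intro ra rb e1 e2 l1 l2 h
    simp only [check, Bool.and_eq_true] at h
    exact Box.sl m (ihl _ _ _ _ _ _ h.1) (ihr _ _ _ _ _ _ h.2)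

end Vale.Agent.P322
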