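import Vale.Agent.P322.CertAll

/-! The compact region (certificate). -/

namespace Vale.Agent.P322

open Real Iv

theorem mid_LL_lt {ra l : ℕ} (h : chkO ra l = true) : LL (yv ra) < rv l := by
  simp only [chkO, Bool.and_eq_true] at h
  exact lt_of_lt (mem_LLI (okR_ok h.1)) (mem_exr l) h.2

theorem mid_c1 : yv 5033164800 ≤ 2 / 25 := by
  have h : yv 5033164800 ≤ rv 343597383 :=
    le_of_le (mem_yI (one_le_rv (by norm_num))) (mem_exr _) (by decide +kernel)
  have : rv 343597383 ≤ 2 / 25 := by unfold rv; norm_num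
  linarith

theorem mid_c2 : rv 12582912 ≤ LL 4 := by
  have hk : 17 / 16 ≤ rv 12803297509376 := ok_le_rv (by norm_num)
  have h1 : rv 17179869184 ≤ yv 12803297509376 :=
    le_of_le (mem_exr _) (mem_yI (ok_one hk)) (by decide +kernel)
  have h2 : rv 17179869184 = 4 := by unfold rv; norm_num
  have h3 : rv 12582912 ≤ LL (yv 12803297509376) :=
    le_of_le (mem_exr _) (mem_LLI hk) (by decide +kernel)
  exact h3.trans (LL_anti (by norm_num) (h2 ▸ h1))

theorem good_mid {y z l v : ℝ} (hy : 2 / 25 ≤ y) (hz : 0 ≤ z) (hl : LL 4 ≤ l) (hl' : l ≤ LL y)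
    (hv : y0 ≤ v) : Good y z l v := by
  have a1 : yv 5033164800 ≤ y := mid_c1.trans hy
  have p1 : 0 < yv 5033164800 := yv_pos (ok_le_rv (by norm_num))
  have p2 : 0 < yv 13743895347200 := yv_pos (ok_le_rv (by norm_num))
  have a5 : rv 12582912 ≤ l := mid_c2.trans hl
  have a2 : y ≤ yv 13743895347200 := by
    by_contra hc
    have h1 := LL_anti p2 (not_le.mp hc).le
    have h2 : LL (yv 13743895347200) < rv 12582912 := mid_LL_lt (by decide +kernel)
    linarith
  have a6 : l ≤ rv 38654705664 := by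
    have h1 := LL_anti p1 a1
    have h2 : LL (yv 5033164800) < rv 38654705664 := mid_LL_lt (by decide +kernel)
    linarith
  exact box_root y z l v a1 a2 (yv_one ▸ hz) (Or.inl rfl) a5 a6 hl' hv

end Vale.Agent.P322
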