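import Vale.Agent.P322.Small
import Vale.Agent.P322.Big
import Vale.Agent.P322.Mid

namespace Vale.Agent.P322

open Real

theorem good_le {y z l v : ℝ} (hy : 0 < y) (hz : 0 ≤ z) (hl : 0 < l) (hl' : l ≤ LL y)
    (hv : y0 ≤ v) : Good y z l v := by
  rcases le_total y (2 / 25) with h | h
  · exact good_small hy h hz hl hv
  rcases le_total (LL 4) l with h4 | h4
  · exact good_mid h hz h4 hl' hv
  obtain ⟨Y, hY, rfl⟩ := exists_LL_eq hl
  have h1 : y ≤ Y := by
    by_contra hc
    exact absurd hl' (not_le.mpr (LL_strictAnti hY (not_le.mp hc)))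
  have h2 : 4 ≤ Y := by
    by_contra hc
    exact absurd h4 (not_le.mpr (LL_strictAnti hY (not_le.mp hc)))
  exact good_big hy h1 h2 hz hv

theorem good_all {y z l v : ℝ} (hy : 0 < y) (hz : 0 ≤ z) (hl : 0 < l) (hv : y0 ≤ v) :
    Good y z l v := by
  rcases le_total l (LL y) with h | h
  · exact good_le hy hz hl h hv
  · exact good_of_ge hy hv h (good_le hy hz (LL_pos hy) le_rfl hv)

end Vale.Agent.P322
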