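import Vale.Agent.P322.Pair2

/-! Lower bounds for the averaged edge cost. -/

namespace Vale.Agent.P322

open Real

theorem cst_nonneg (a b : ℝ) : 0 ≤ cst a b := by
  unfold cst
  rcases le_total a b with h | h
  · have := tanh_mono' h
    exact div_nonneg (mul_nonneg_of_nonpos_of_nonpos (by linarith) (by linarith)) (by norm_num)
  · have := tanh_mono' h
    exact div_nonneg (mul_nonneg (by linarith) (by linarith)) (by norm_num)

theorem z1_point (a b : ℝ) {Y : ℝ} (hY : 0 < Y) :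
    kap Y * ((tanh a - tanh b) / 2) - mu Y * ((Hy a + Hy b) / 2) ≤ cst a b := by
  have hk := kap_pos hY
  have hm := mu_nonneg Y
  rcases le_or_gt a b with h | h
  · have h1 := tanh_mono' h
    have h2 := cst_nonneg a b
    have h3 := Hy_pos a
    have h4 := Hy_pos b
    nlinarith
  · obtain ⟨y, z, rfl, rfl⟩ : ∃ y z, a = z + y ∧ b = z - y :=
      ⟨(a - b) / 2, (a + b) / 2, by ring, by ring⟩
    have hy : 0 < y := by linarith
    have hS : 0 < sinh (2 * y) := sinh_pos_iff.2 (by linarith)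
    have hN := NN_pos y z
    have hd := dd_pos hy z
    have e1 : QQ y z / NN y z = qq y z * dd y z := by unfold qq dd; field_simp
    have e2 : qq y z = qq y |z| := by
      rcases abs_cases z with h | h <;> rw [h.1]
      simp [qq, QQ, NN]
    have h1 : LL y ≤ qq y z := by
      rw [e2, ← qq_zero hy]; exact qq_ge hy le_rfl le_rfl (abs_nonneg z)
    have h2 := kap_sub_le hY hy
    unfold cst
    rw [tanh_sub_tanh, Hy_add_Hy, e1]
    nlinarith [mul_le_mul_of_nonneg_left h1 hm]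

theorem kl_nonneg (a A : ℝ) : 0 ≤ Hy A - Hy a - A * (tanh a - tanh A) := by
  have hd : ∀ s, HasDerivAt (fun s => lc s - tanh a * s) (tanh s - tanh a) s := fun s => by
    exact ((hasDerivAt_lc s).sub ((hasDerivAt_id s).const_mul (tanh a))).congr_deriv (by simp)
  have h : lc a - tanh a * a ≤ lc A - tanh a * A := by
    rcases le_total a A with h | h
    · exact a1_mono h (fun s _ _ => hd s) fun s h1 _ => sub_nonneg.2 (tanh_mono' h1.le)
    · exact a1_anti h (fun s _ _ => hd s) fun s _ h1 => sub_nonpos.2 (tanh_mono' h1.le)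
  unfold Hy
  linarith

theorem kl_le (a A : ℝ) :
    Hy A - Hy a - A * (tanh a - tanh A) ≤ (tanh a - tanh A) ^ 2 / (1 - tanh A ^ 2) := by
  have hl : ∀ x : ℝ, log ((1 + tanh x) / 2) = x - lc x := fun x => by
    have hc := cosh_pos x
    have : (1 + tanh x) / 2 = exp x / (2 * cosh x) := by
      rw [tanh_eq_sinh_div_cosh, ← cosh_add_sinh]; field_simp
    rw [this, log_div (exp_pos x).ne' (by positivity), log_exp, lc]
  have hp : ∀ x : ℝ, 0 < (1 + tanh x) / 2 := fun x => by linarith [neg_one_lt_tanh x]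
  have key : ∀ x X : ℝ, (1 + tanh x) / 2 * ((x - lc x) - (X - lc X))
      ≤ (1 + tanh x) / 2 * ((1 + tanh x) / (1 + tanh X) - 1) := fun x X => by
    refine mul_le_mul_of_nonneg_left ?_ (hp x).le
    rw [← hl, ← hl, ← log_div (hp x).ne' (hp X).ne']
    refine (log_le_sub_one_of_pos (div_pos (hp x) (hp X))).trans (le_of_eq ?_)
    have := hp X
    field_simp
  have h1 := key a A
  have h2 := key (-a) (-A)
  rw [lc_neg, lc_neg, tanh_neg, tanh_neg] at h2
  have h3 : 0 < 1 + tanh A := by linarith [neg_one_lt_tanh A]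
  have h4 : 0 < 1 + -tanh A := by linarith [tanh_lt_one A]
  have h5 : 1 - tanh A ^ 2 = (1 + tanh A) * (1 + -tanh A) := by ring
  have e : (tanh a - tanh A) ^ 2 / (1 - tanh A ^ 2)
      = (1 + tanh a) / 2 * ((1 + tanh a) / (1 + tanh A) - 1)
        + (1 + -tanh a) / 2 * ((1 + -tanh a) / (1 + -tanh A) - 1) := by
    rw [h5]; field_simp; ring
  rw [e]
  unfold Hy
  linarith


variable {Ω : Type} [Fintype Ω] [Nonempty Ω]

theorem zc_card_pos : (0 : ℝ) < Fintype.card Ω := by exact_mod_cast Fintype.card_pos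

theorem zc_lin {f g h k F : Ω → ℝ} {c0 c1 c2 c3 c4 : ℝ}
    (H : ∀ ω, c0 + c1 * f ω + c2 * g ω + c3 * h ω + c4 * k ω ≤ F ω) :
    c0 + c1 * avg f + c2 * avg g + c3 * avg h + c4 * avg k ≤ avg F := by
  have hc := zc_card_pos (Ω := Ω)
  have h1 := Finset.sum_le_sum fun ω (_ : ω ∈ Finset.univ) => H ω
  simp only [Finset.sum_add_distrib, ← Finset.mul_sum, Finset.sum_const, Finset.card_univ,
    nsmul_eq_mul] at h1
  unfold avg
  rw [le_div_iff₀ hc]
  refine le_trans (le_of_eq ?_) h1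
  field_simp

theorem exists_tanh_eq_avg (a : Ω → ℝ) : ∃ A, tanh A = avg (fun ω => tanh (a ω)) := by
  have hc := zc_card_pos (Ω := Ω)
  refine ⟨artanh (avg fun ω => tanh (a ω)), tanh_artanh ⟨?_, ?_⟩⟩
  · unfold avg
    rw [lt_div_iff₀ hc]
    have := Finset.sum_lt_sum_of_nonempty Finset.univ_nonempty
      fun ω (_ : ω ∈ Finset.univ) => neg_one_lt_tanh (a ω)
    simpa using this
  · unfold avg
    rw [div_lt_iff₀ hc]
    have := Finset.sum_lt_sum_of_nonempty Finset.univ_nonempty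
      fun ω (_ : ω ∈ Finset.univ) => tanh_lt_one (a ω)
    simpa using this

theorem avg_Hy_pos (a : Ω → ℝ) : 0 < avg (fun ω => Hy (a ω)) := by
  exact div_pos (Finset.sum_pos (fun ω _ => Hy_pos _) Finset.univ_nonempty) zc_card_pos

theorem avg_Hy_le (a : Ω → ℝ) {A : ℝ} (hA : tanh A = avg (fun ω => tanh (a ω))) :
    avg (fun ω => Hy (a ω)) ≤ Hy A := by
  have h := zc_lin (f := fun ω => Hy (a ω)) (g := fun ω => tanh (a ω)) (h := fun _ => 0)
    (k := fun _ => 0) (F := fun _ => 0) (c0 := -Hy A - A * tanh A) (c1 := 1) (c2 := A) (c3 := 0)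
    (c4 := 0) fun ω => by linarith [kl_nonneg (a ω) A]
  have h0 : avg (fun _ : Ω => (0 : ℝ)) = 0 := by simp [avg]
  rw [← hA, h0] at h
  linarith

theorem z1 (a b : Ω → ℝ) {A0 A1 : ℝ} (h0 : tanh A0 = avg (fun ω => tanh (a ω)))
    (h1 : tanh A1 = avg (fun ω => tanh (b ω))) {Y : ℝ} (hY : 0 < Y) :
    kap Y * (|tanh A0 - tanh A1| / 2)
      - mu Y * ((avg (fun ω => Hy (a ω)) + avg (fun ω => Hy (b ω))) / 2)
      ≤ avg (fun ω => cst (a ω) (b ω)) := by
  have h2 := zc_lin (f := fun ω => tanh (a ω)) (g := fun ω => tanh (b ω)) (h := fun ω => Hy (a ω))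
    (k := fun ω => Hy (b ω)) (F := fun ω => cst (a ω) (b ω)) (c0 := 0) (c1 := kap Y / 2)
    (c2 := -kap Y / 2) (c3 := -mu Y / 2) (c4 := -mu Y / 2)
    fun ω => by linarith [z1_point (a ω) (b ω) hY]
  have h3 := zc_lin (f := fun ω => tanh (a ω)) (g := fun ω => tanh (b ω)) (h := fun ω => Hy (a ω))
    (k := fun ω => Hy (b ω)) (F := fun ω => cst (a ω) (b ω)) (c0 := 0) (c1 := -kap Y / 2)
    (c2 := kap Y / 2) (c3 := -mu Y / 2) (c4 := -mu Y / 2)
    fun ω => by
      have h := z1_point (b ω) (a ω) hY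
      have e : cst (b ω) (a ω) = cst (a ω) (b ω) := by unfold cst; ring
      linarith
  rw [← h0, ← h1] at h2 h3
  rcases abs_cases (tanh A0 - tanh A1) with h | h <;> rw [h.1] <;> linarith

theorem zc_point (y s : ℝ) :
    0 ≤ (s - (y + tanh (2 * y) / 2)) * sinh (2 * s) + sinh (2 * y) ^ 2 / (2 * cosh (2 * y)) := by
  set α := y + tanh (2 * y) / 2 with hα
  have hd : ∀ s, HasDerivAt (fun s => (s - α) * sinh (2 * s))
      (2 * cosh (2 * s) * (s + tanh (2 * s) / 2 - α)) s := fun s => by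
    have h1 : HasDerivAt (fun s : ℝ => sinh (2 * s)) (cosh (2 * s) * 2) s := by
      simpa using ((hasDerivAt_id s).const_mul 2).sinh
    refine (((hasDerivAt_id s).sub_const α).mul h1).congr_deriv ?_
    have := cosh_pos (2 * s)
    rw [tanh_eq_sinh_div_cosh]
    simp only [id]
    field_simp
    ring
  have h : (y - α) * sinh (2 * y) ≤ (s - α) * sinh (2 * s) := by
    rcases le_total y s with h | h
    · refine a1_mono h (fun s _ _ => hd s) fun s h1 _ => mul_nonneg (by positivity) ?_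
      have := tanh_mono' (show 2 * y ≤ 2 * s by linarith)
      linarith
    · refine a1_anti h (fun s _ _ => hd s) fun s _ h1 =>
        mul_nonpos_of_nonneg_of_nonpos (by positivity) ?_
      have := tanh_mono' (show 2 * s ≤ 2 * y by linarith)
      linarith
  have e : (y - α) * sinh (2 * y) + sinh (2 * y) ^ 2 / (2 * cosh (2 * y)) = 0 := by
    have := cosh_pos (2 * y)
    rw [hα, tanh_eq_sinh_div_cosh]
    field_simp
    ring
  linarith

theorem zc_tanh_sub (a b : ℝ) : tanh a - tanh b = sinh (a - b) / (cosh a * cosh b) := by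
  have := cosh_pos a
  have := cosh_pos b
  rw [tanh_eq_sinh_div_cosh, tanh_eq_sinh_div_cosh, sinh_sub]
  field_simp

theorem zc_ratio (a A : ℝ) : (cosh A / cosh a) ^ 2 ≤ 1 - (Hy A - Hy a - A * (tanh a - tanh A))
    - 2 * tanh A / (1 - tanh A ^ 2) * (tanh a - tanh A) := by
  have h1 := kl_le a A
  have h2 : 0 < 1 - tanh A ^ 2 := by linarith [tanh_sq_lt_one' A]
  have h3 : (cosh A / cosh a) ^ 2 = (1 - tanh a ^ 2) / (1 - tanh A ^ 2) := by
    have := cosh_pos a
    have := cosh_pos A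
    rw [one_sub_tanh_sq, one_sub_tanh_sq]; field_simp
  have h4 : (1 - tanh a ^ 2) / (1 - tanh A ^ 2) = 1 - (tanh a - tanh A) ^ 2 / (1 - tanh A ^ 2)
      - 2 * tanh A / (1 - tanh A ^ 2) * (tanh a - tanh A) := by
    field_simp; ring
  linarith

theorem zc_cst (a b A0 A1 : ℝ) :
    ((A0 - A1) / 2 + tanh (A0 - A1) / 2) * ((tanh a - tanh b) / 2)
      - (tanh A0 - tanh A1) / 4 * tanh (A0 - A1)
        * (((cosh A0 / cosh a) ^ 2 + (cosh A1 / cosh b) ^ 2) / 2) ≤ cst a b := by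
  have h := zc_point ((A0 - A1) / 2) ((a - b) / 2)
  rw [show 2 * ((A0 - A1) / 2) = A0 - A1 by ring, show 2 * ((a - b) / 2) = a - b by ring] at h
  have ha := cosh_pos a
  have hb := cosh_pos b
  have h0 := cosh_pos A0
  have h1 := cosh_pos A1
  have h2 := cosh_pos (A0 - A1)
  have e : (tanh A0 - tanh A1) / 4 * tanh (A0 - A1)
      = sinh (A0 - A1) ^ 2 / (2 * cosh (A0 - A1)) / (2 * (cosh A0 * cosh A1)) := by
    rw [zc_tanh_sub, tanh_eq_sinh_div_cosh]; field_simp; ring
  rw [e]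
  set β := sinh (A0 - A1) ^ 2 / (2 * cosh (A0 - A1)) with hβ
  have hβ0 : 0 ≤ β := by positivity
  have h3 : β / (2 * (cosh a * cosh b)) ≤ β / (2 * (cosh A0 * cosh A1))
      * (((cosh A0 / cosh a) ^ 2 + (cosh A1 / cosh b) ^ 2) / 2) := by
    have e2 : β / (2 * (cosh a * cosh b)) = β / (2 * (cosh A0 * cosh A1))
      * (cosh A0 / cosh a * (cosh A1 / cosh b)) := by field_simp
    rw [e2]
    refine mul_le_mul_of_nonneg_left ?_ (by positivity)
    nlinarith [sq_nonneg (cosh A0 / cosh a - cosh A1 / cosh b)]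
  have h4 := div_nonneg h (show 0 ≤ 2 * (cosh a * cosh b) by positivity)
  have e3 : (((a - b) / 2 - ((A0 - A1) / 2 + tanh (A0 - A1) / 2)) * sinh (a - b) + β)
      / (2 * (cosh a * cosh b)) = cst a b - ((A0 - A1) / 2 + tanh (A0 - A1) / 2)
        * ((tanh a - tanh b) / 2) + β / (2 * (cosh a * cosh b)) := by
    unfold cst
    rw [zc_tanh_sub a b]; field_simp; ring
  linarith

theorem z2 (a b : Ω → ℝ) {A0 A1 : ℝ} (h0 : tanh A0 = avg (fun ω => tanh (a ω)))
    (h1 : tanh A1 = avg (fun ω => tanh (b ω))) :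
    cst A0 A1 + (tanh A0 - tanh A1) / 4 * tanh (A0 - A1)
      * (((Hy A0 - avg (fun ω => Hy (a ω))) + (Hy A1 - avg (fun ω => Hy (b ω)))) / 2)
      ≤ avg (fun ω => cst (a ω) (b ω)) := by
  set α := (A0 - A1) / 2 + tanh (A0 - A1) / 2 with hα
  set γ := (tanh A0 - tanh A1) / 4 * tanh (A0 - A1) with hγ
  set e0 := 2 * tanh A0 / (1 - tanh A0 ^ 2) with he0
  set e1 := 2 * tanh A1 / (1 - tanh A1 ^ 2) with he1
  have hγ0 : 0 ≤ γ := by
    rw [hγ, zc_tanh_sub, tanh_eq_sinh_div_cosh]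
    have : sinh (A0 - A1) / (cosh A0 * cosh A1) / 4 * (sinh (A0 - A1) / cosh (A0 - A1))
      = sinh (A0 - A1) ^ 2 / (cosh A0 * cosh A1 * 4 * cosh (A0 - A1)) := by ring
    rw [this]; positivity
  have h2 := zc_lin (f := fun ω => tanh (a ω)) (g := fun ω => tanh (b ω)) (h := fun ω => Hy (a ω))
    (k := fun ω => Hy (b ω)) (F := fun ω => cst (a ω) (b ω))
    (c0 := -γ + γ / 2 * (Hy A0 + Hy A1 + (A0 - e0) * tanh A0 + (A1 - e1) * tanh A1))
    (c1 := α / 2 - γ / 2 * (A0 - e0)) (c2 := -α / 2 - γ / 2 * (A1 - e1)) (c3 := -γ / 2)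
    (c4 := -γ / 2) fun ω => by
      have h3 := zc_cst (a ω) (b ω) A0 A1
      have h4 := mul_le_mul_of_nonneg_left (add_le_add (zc_ratio (a ω) A0) (zc_ratio (b ω) A1)) hγ0
      rw [← hα, ← hγ] at h3
      rw [← he0, ← he1] at h4
      clear_value α γ e0 e1
      linarith
  rw [← h0, ← h1] at h2
  have e : cst A0 A1 = α * ((tanh A0 - tanh A1) / 2) - γ := by
    unfold cst; rw [hα, hγ]; ring
  linarith


end Vale.Agent.P322
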