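import Vale.Agent.P322.Step
import Vale.Agent.P322.Zc

/-! The two functional inequalities on the cube, by induction on the dimension. -/

namespace Vale.Agent.P322

open Real

theorem cube_avg_succ {n : ℕ} (F : (Fin (n + 1) → ℤˣ) → ℝ) :
    avg F = (avg (fun x : Fin n → ℤˣ => F (Fin.cons 1 x))
      + avg (fun x : Fin n → ℤˣ => F (Fin.cons (-1) x))) / 2 := by
  unfold avg
  have e : ∑ ω, F ω = ∑ x : Fin n → ℤˣ, F (Fin.cons 1 x) + ∑ x : Fin n → ℤˣ, F (Fin.cons (-1) x) := by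
    rw [← (Fin.consEquiv fun _ : Fin (n + 1) => ℤˣ).sum_comp, Fintype.sum_prod_type]
    have : (Finset.univ : Finset ℤˣ) = {1, -1} := by decide
    rw [this, Finset.sum_pair (by decide)]
    rfl
  rw [e]
  simp only [Fintype.card_fun, Fintype.card_fin, Fintype.card_units_int]
  push_cast
  field_simp
  ring

theorem cube_flp_zero {n : ℕ} (s : ℤˣ) (x : Fin n → ℤˣ) :
    flp (Fin.cons s x : Fin (n + 1) → ℤˣ) 0 = Fin.cons (-s) x := by
  unfold flp; simp [Fin.update_cons_zero]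

theorem cube_flp_succ {n : ℕ} (s : ℤˣ) (x : Fin n → ℤˣ) (i : Fin n) :
    flp (Fin.cons s x : Fin (n + 1) → ℤˣ) i.succ = Fin.cons s (flp x i) := by
  unfold flp; simp [Fin.cons_update]

theorem cube_dir_succ {n : ℕ} (G : (Fin (n + 1) → ℤˣ) → ℝ) :
    dir G = (dir (fun x : Fin n → ℤˣ => G (Fin.cons 1 x))
      + dir (fun x : Fin n → ℤˣ => G (Fin.cons (-1) x))) / 2
      + avg (fun x : Fin n → ℤˣ => cst (G (Fin.cons 1 x)) (G (Fin.cons (-1) x))) := by
  unfold dir
  rw [Fin.sum_univ_succ]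
  simp only [cube_avg_succ, cube_flp_zero, cube_flp_succ, neg_neg]
  rw [← Finset.sum_div, Finset.sum_add_distrib]
  have : (fun x : Fin n → ℤˣ => cst (G (Fin.cons (-1) x)) (G (Fin.cons 1 x)))
      = fun x : Fin n → ℤˣ => cst (G (Fin.cons 1 x)) (G (Fin.cons (-1) x)) :=
    funext fun x => step_cst_comm _ _
  rw [this]
  ring

theorem s13 (n : ℕ) (G : (Fin n → ℤˣ) → ℝ) (X : ℝ)
    (hX : tanh X = avg (fun x => tanh (G x))) :
    (∀ a, 0 ≤ a → a ≤ y0 → tg a (Hy X - ent G) ≤ dir G) ∧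
      (∀ v, y0 ≤ v → GG X v - lam v * ent G ≤ dir G) := by
  induction n generalizing X with
  | zero =>
    have h1 : ∀ F : (Fin 0 → ℤˣ) → ℝ, avg F = F default := by
      intro F
      simp only [avg, Fintype.sum_unique, Fintype.card_unique, Nat.cast_one, div_one]
      exact congrArg F (Subsingleton.elim _ _)
    have h2 : X = G default := tanh_injective (by rw [hX, h1])
    have h3 : ent G = Hy X := by rw [ent, h1, h2]
    have h4 : dir G = 0 := by simp [dir]
    rw [h3, h4, sub_self]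
    exact ⟨fun a ha _ => base1 ha, fun v hv => base3 (y0_pos.le.trans hv) X⟩
  | succ n ih =>
    obtain ⟨A0, h0⟩ := exists_tanh_eq_avg (fun x : Fin n → ℤˣ => G (Fin.cons 1 x))
    obtain ⟨A1, h1⟩ := exists_tanh_eq_avg (fun x : Fin n → ℤˣ => G (Fin.cons (-1) x))
    obtain ⟨i0, j0⟩ := ih _ A0 h0
    obtain ⟨i1, j1⟩ := ih _ A1 h1
    have hX' : tanh X = (tanh A0 + tanh A1) / 2 := by rw [hX, cube_avg_succ, h0, h1]
    have he : ent G = (ent (fun x : Fin n → ℤˣ => G (Fin.cons 1 x))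
        + ent (fun x : Fin n → ℤˣ => G (Fin.cons (-1) x))) / 2 := cube_avg_succ _
    have e0 := avg_Hy_le _ h0
    have e1 := avg_Hy_le _ h1
    have k2 := z2 _ _ h0 h1
    rw [he, cube_dir_succ]
    have s1 := fun a ha0 ha1 => step1 (a := a) hX' e0 e1 i0 i1 k2 ha0 ha1
    refine ⟨s1, fun v hv => step3 hX' (add_pos (avg_Hy_pos _) (avg_Hy_pos _)) i0 i1 j0 j1 s1 ?_
      (fun Y hY => z1 _ _ h0 h1 hY) hv⟩
    refine le_trans ?_ k2
    have : 0 ≤ (tanh A0 - tanh A1) / 4 * tanh (A0 - A1) := by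
      rcases le_total A1 A0 with h | h
      · exact mul_nonneg (by linarith [tanh_mono' h]) (tanh_nonneg' (by linarith))
      · have h' := tanh_nonneg' (show 0 ≤ -(A0 - A1) by linarith)
        rw [tanh_neg] at h'
        exact mul_nonneg_of_nonpos_of_nonpos (by linarith [tanh_mono' h]) (by linarith)
    have := mul_nonneg this (show 0 ≤ ((Hy A0 - avg (fun x : Fin n → ℤˣ => Hy (G (Fin.cons 1 x))))
      + (Hy A1 - avg (fun x : Fin n → ℤˣ => Hy (G (Fin.cons (-1) x))))) / 2 by linarith)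
    linarith

end Vale.Agent.P322
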