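import Mathlib

namespace Vale.Agent.P322

/-- Binary entropy in bits. -/
noncomputable def h2 (p : ℝ) : ℝ :=
  -p * Real.logb 2 p - (1 - p) * Real.logb 2 (1 - p)

/-- Mutual information in bits of a pair of finitely valued random variables with joint
probability mass function `p`. -/
noncomputable def mutualInfo {α β : Type} [Fintype α] [Fintype β] (p : α → β → ℝ) : ℝ :=
  ∑ a, ∑ b, p a b * Real.logb 2 (p a b / ((∑ b', p a b') * (∑ a', p a' b)))

/-- Probability of the input `x` (uniform) together with the noise pattern `z` (independent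
signs, each equal to `-1` with probability `ε`). -/
noncomputable def weight (n : ℕ) (ε : ℝ) (z : Fin n → ℤˣ) : ℝ :=
  (1 / 2) ^ n * ∏ i, (if z i = -1 then ε else 1 - ε)

/-- Joint probability mass function of `(f X, Y)` with `Y i = X i * Z i`. -/
noncomputable def joint (n : ℕ) (ε : ℝ) (f : (Fin n → ℤˣ) → ℤˣ) (b : ℤˣ) (y : Fin n → ℤˣ) : ℝ :=
  ∑ x : Fin n → ℤˣ, ∑ z : Fin n → ℤˣ,
    if f x = b ∧ (fun i => x i * z i) = y then weight n ε z else 0

end Vale.Agent.P322
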