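import Mathlib

/-! Proof-level definitions for the most informative Boolean function inequality.
All one-variable functions are written in the coordinate `y` with `t = tanh y`. -/

namespace Vale.Agent.P322

open Real

noncomputable section

def lc (y : ℝ) : ℝ := log (2 * cosh y)
/-- binary entropy (nats) of a sign with mean `tanh y` -/
def Hy (y : ℝ) : ℝ := lc y - y * tanh y
def ph (y : ℝ) : ℝ := log 2 - Hy y
def pp (y : ℝ) : ℝ := y * tanh y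
def lam (y : ℝ) : ℝ := if y = 0 then 2 else 1 + sinh (2 * y) / (2 * y)
def eta (y : ℝ) : ℝ := pp y + lam y * Hy y
def bb (y : ℝ) : ℝ := eta y - 2 * log 2
def psi (a : ℝ) : ℝ := lam a * ph a - pp a
def tg (a I : ℝ) : ℝ := pp a + lam a * (I - ph a)
def gap (v w : ℝ) : ℝ := pp w + lam v * Hy w - eta v
def LL (y : ℝ) : ℝ := Hy y / tanh y
def mu (y : ℝ) : ℝ := sinh y ^ 2 / lc y
def kap (y : ℝ) : ℝ := y + mu y * LL y
def y0 : ℝ := log (3 / 2)
def xi : ℝ := 1 / 40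
def GG (X v : ℝ) : ℝ := 2 * Hy X + (1 - tanh X ^ 2) * (bb v - xi * tanh X ^ 2)
/-- edge cost -/
def cst (a b : ℝ) : ℝ := (tanh a - tanh b) * (a - b) / 4

/-! Pair coordinates: the two points are `z + y` and `z - y`. -/

def NN (y z : ℝ) : ℝ := cosh (2 * z) + cosh (2 * y)
def dd (y z : ℝ) : ℝ := sinh (2 * y) / NN y z
def uu (y z : ℝ) : ℝ := (sinh (2 * z) / NN y z) ^ 2
def QQ (y z : ℝ) : ℝ :=
  NN y z / 2 * log (2 * NN y z) - z * sinh (2 * z) - y * sinh (2 * y)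
def MM (y z : ℝ) : ℝ :=
  NN y z / 2 * log (2 * NN y z) + z * sinh (2 * z) + y * sinh (2 * y)
    - ((exp (2 * z) + cosh (2 * y)) * log (exp (2 * z) + cosh (2 * y))
      + (exp (-(2 * z)) + cosh (2 * y)) * log (exp (-(2 * z)) + cosh (2 * y))) / 2
def mm (y z : ℝ) : ℝ := MM y z / sinh (2 * y)
def qq (y z : ℝ) : ℝ := QQ y z / sinh (2 * y)
def io (y z : ℝ) : ℝ := NN y z / sinh (2 * y)
def th (y z : ℝ) : ℝ := 2 * cosh (2 * y) / sinh (2 * y) - sinh (2 * y) / NN y z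

def FG (y z l v v' : ℝ) : ℝ :=
  2 * mm y z + th y z * (bb v - bb v') + dd y z * bb v' - (lam v - lam v') * l
    + xi * dd y z * (1 - dd y z ^ 2 - 6 * uu y z)
def FP (y z l v a : ℝ) : ℝ :=
  2 * mm y z - (lam a - 2) * qq y z + th y z * bb v - (lam v - lam a) * l + io y z * psi a
    - xi * io y z * (uu y z * (1 - uu y z))
def Cost (y l X : ℝ) : Prop := X ≤ y ∨ ∃ Y, 0 < Y ∧ X ≤ kap Y - mu Y * l
def Good (y z l v : ℝ) : Prop :=
  Hy y0 * th y z ≤ l ∨ (∃ v', y0 ≤ v' ∧ v' ≤ v ∧ Cost y l (FG y z l v v')) ∨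
    (∃ a, 0 ≤ a ∧ a ≤ y0 ∧ Cost y l (FP y z l v a))

/-! The cube. -/

def avg {Ω : Type} [Fintype Ω] (F : Ω → ℝ) : ℝ := (∑ ω, F ω) / (Fintype.card Ω : ℝ)
def flp {n : ℕ} (x : Fin n → ℤˣ) (i : Fin n) : Fin n → ℤˣ := Function.update x i (-x i)
def ent {n : ℕ} (G : (Fin n → ℤˣ) → ℝ) : ℝ := avg (fun x => Hy (G x))
def dir {n : ℕ} (G : (Fin n → ℤˣ) → ℝ) : ℝ := ∑ i, avg (fun x => cst (G x) (G (flp x i)))
/-- real value of a sign -/
def sg (s : ℤˣ) : ℝ := ((s : ℤ) : ℝ)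
/-- noise operator applied to a sign-valued function -/
def TT {n : ℕ} (ρ : ℝ) (f : (Fin n → ℤˣ) → ℤˣ) (y : Fin n → ℤˣ) : ℝ :=
  ∑ x : Fin n → ℤˣ, (∏ i, (1 + ρ * sg (x i) * sg (y i)) / 2) * sg (f x)
/-- binary entropy (nats) of a sign with mean `u` -/
def Hb (u : ℝ) : ℝ := binEntropy ((1 + u) / 2)

end

end Vale.Agent.P322
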