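import Mathlib

/-! Fixed point interval arithmetic on natural numbers, scale `2^64`. -/

namespace Vale.Agent.P322

open Real

structure Iv where
  lo : ℕ
  hi : ℕ

namespace Iv

def Mem (a : Iv) (x : ℝ) : Prop := (a.lo : ℝ) ≤ x * 2 ^ 64 ∧ x * 2 ^ 64 ≤ (a.hi : ℝ)

def add (a b : Iv) : Iv := ⟨Nat.add a.lo b.lo, Nat.add a.hi b.hi⟩
def sub (a b : Iv) : Iv := ⟨Nat.sub a.lo b.hi, Nat.sub a.hi b.lo⟩
def mul (a b : Iv) : Iv :=
  ⟨Nat.shiftRight (Nat.mul a.lo b.lo) 64, Nat.succ (Nat.shiftRight (Nat.mul a.hi b.hi) 64)⟩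
def half (a : Iv) : Iv := ⟨Nat.shiftRight a.lo 1, Nat.succ (Nat.shiftRight a.hi 1)⟩
def nmul (n : ℕ) (a : Iv) : Iv := ⟨Nat.mul n a.lo, Nat.mul n a.hi⟩
/-- division by a number known to be at least `1/64` -/
def div (a b : Iv) : Iv :=
  ⟨Nat.div (Nat.shiftLeft a.lo 64) b.hi,
    Nat.succ (Nat.div (Nat.shiftLeft a.hi 64)
      (Nat.add 288230376151711744 (Nat.sub b.lo 288230376151711744)))⟩
/-- the dyadic number `k / 2^32` -/
def ex (k : ℕ) : Iv := ⟨Nat.shiftLeft k 32, Nat.shiftLeft k 32⟩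
def one : Iv := ⟨18446744073709551616, 18446744073709551616⟩
def two : Iv := ⟨36893488147419103232, 36893488147419103232⟩
def ln2 : Iv := ⟨12786308645202655659, 12786308645202655660⟩
def fortieth : Iv := ⟨461168601842738790, 461168601842738791⟩
def le (a b : Iv) : Bool := Nat.ble a.hi b.lo
def lt (a b : Iv) : Bool := Nat.ble (Nat.succ a.hi) b.lo

def hstep (c U h : ℕ) : ℕ := Nat.add c (Nat.shiftRight (Nat.mul U h) 64)
def horner (U : ℕ) : ℕ := (hstep 18446744073709551616 U (hstep 6148914691236517205 U (hstep 3689348814741910323 U (hstep 2635249153387078802 U (hstep 2049638230412172401 U (hstep 1676976733973595601 U (hstep 1418980313362273201 U (hstep 1229782938247303441 U (hstep 1085102592571150095 U (hstep 970881267037344821 U (hstep 878416384462359600 U (hstep 802032351030850070 U (hstep 737869762948382064 U (hstep 683212743470724133 U (hstep 636094623231363848 U (hstep 595056260442243600 U 558992244657865200))))))))))))))))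
def ser (s : ℕ) : ℕ := Nat.shiftRight (Nat.mul s (horner (Nat.shiftRight (Nat.mul s s) 64))) 63
def lnK (X k P : ℕ) : ℕ :=
  Nat.add (Nat.mul (Nat.sub k 64) 12786308645202655659)
    (ser (Nat.div (Nat.shiftLeft (Nat.sub X P) 64) (Nat.add X P)))
def lnLo (X : ℕ) : ℕ := lnK X (Nat.log2 X) (Nat.shiftLeft 1 (Nat.log2 X))
def lnX (X h : ℕ) : Iv :=
  ⟨lnLo X, Nat.add (Nat.add (lnLo X) (Nat.add (Nat.log2 X) 900)) (Nat.sub h X)⟩
/-- logarithm of a number known to be at least one -/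
def log (a : Iv) : Iv := lnX (Nat.add 18446744073709551616 (Nat.sub a.lo 18446744073709551616)) a.hi

theorem two64 : (2 : ℝ) ^ 64 = 18446744073709551616 := by norm_num

theorem shr_le (a k : ℕ) : ((Nat.shiftRight a k : ℕ) : ℝ) ≤ (a : ℝ) / 2 ^ k := by
  show ((a >>> k : ℕ) : ℝ) ≤ _
  rw [Nat.shiftRight_eq_div_pow]
  have := @Nat.cast_div_le ℝ _ _ _ a (2 ^ k)
  simpa using this

theorem div_lt (a b : ℕ) (hb : 0 < b) : (a : ℝ) / b < ((Nat.div a b : ℕ) : ℝ) + 1 := by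
  show (a : ℝ) / b < ((a / b : ℕ) : ℝ) + 1
  have h : a < b * (a / b + 1) := Nat.lt_mul_div_succ a hb
  have hb' : (0 : ℝ) < b := by exact_mod_cast hb
  rw [div_lt_iff₀ hb']
  have : (a : ℝ) < b * ((a / b : ℕ) + 1) := by exact_mod_cast h
  linarith

theorem lt_shr (a k : ℕ) : (a : ℝ) / 2 ^ k < ((Nat.shiftRight a k : ℕ) : ℝ) + 1 := by
  show _ < ((a >>> k : ℕ) : ℝ) + 1
  rw [Nat.shiftRight_eq_div_pow]
  have := div_lt a (2 ^ k) (by positivity)
  rw [Nat.cast_pow, Nat.cast_ofNat] at this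
  exact this

theorem div_le' (a b : ℕ) : ((Nat.div a b : ℕ) : ℝ) ≤ (a : ℝ) / b := by
  show ((a / b : ℕ) : ℝ) ≤ _
  exact Nat.cast_div_le

theorem shl_eq (a k : ℕ) : ((Nat.shiftLeft a k : ℕ) : ℝ) = (a : ℝ) * 2 ^ k := by
  show ((a <<< k : ℕ) : ℝ) = _
  rw [Nat.shiftLeft_eq]; push_cast; ring

theorem add_c (a b : ℕ) : ((Nat.add a b : ℕ) : ℝ) = (a : ℝ) + b := by
  show ((a + b : ℕ) : ℝ) = _
  push_cast; ring

theorem mul_c (a b : ℕ) : ((Nat.mul a b : ℕ) : ℝ) = (a : ℝ) * b := by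
  show ((a * b : ℕ) : ℝ) = _
  push_cast; ring

theorem succ_c (a : ℕ) : ((Nat.succ a : ℕ) : ℝ) = (a : ℝ) + 1 := by
  push_cast; ring

theorem sub_c (a b : ℕ) : ((Nat.sub a b : ℕ) : ℝ) = max ((a : ℝ) - b) 0 := by
  show ((a - b : ℕ) : ℝ) = _
  rcases le_total b a with h | h
  · rw [Nat.cast_sub h, max_eq_left]
    have : (b : ℝ) ≤ a := by exact_mod_cast h
    linarith
  · rw [Nat.sub_eq_zero_of_le h, max_eq_right]
    · simp
    have : (a : ℝ) ≤ b := by exact_mod_cast h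
    linarith

theorem Mem.nonneg {a : Iv} {x : ℝ} (h : a.Mem x) : 0 ≤ x := by
  have h1 : (0 : ℝ) ≤ x * 2 ^ 64 := le_trans (Nat.cast_nonneg _) h.1
  by_contra hc
  have : x * 2 ^ 64 < 0 := mul_neg_of_neg_of_pos (not_le.mp hc) (by positivity)
  linarith

theorem Mem.congr {a : Iv} {x y : ℝ} (h : a.Mem x) (e : x = y) : a.Mem y := e ▸ h

theorem mem_add {a b : Iv} {x y : ℝ} (ha : a.Mem x) (hb : b.Mem y) : (add a b).Mem (x + y) := by
  unfold Mem add at *
  simp only [add_c]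
  constructor <;> nlinarith [ha.1, ha.2, hb.1, hb.2]

theorem mem_sub_max {a b : Iv} {x y : ℝ} (ha : a.Mem x) (hb : b.Mem y) :
    (sub a b).Mem (max (x - y) 0) := by
  unfold Mem sub at *
  simp only [sub_c]
  have e : max (x - y) 0 * 2 ^ 64 = max (x * 2 ^ 64 - y * 2 ^ 64) 0 := by
    rw [max_mul_of_nonneg _ _ (by positivity)]; congr 1 <;> ring
  rw [e]
  constructor
  · exact max_le_max (by linarith [ha.1, hb.2]) le_rfl
  · exact max_le_max (by linarith [ha.2, hb.1]) le_rfl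

theorem mem_sub {a b : Iv} {x y : ℝ} (ha : a.Mem x) (hb : b.Mem y) (h : y ≤ x) :
    (sub a b).Mem (x - y) := by
  have := mem_sub_max ha hb
  rwa [max_eq_left (by linarith)] at this

theorem mem_mul {a b : Iv} {x y : ℝ} (ha : a.Mem x) (hb : b.Mem y) : (mul a b).Mem (x * y) := by
  have hx := ha.nonneg
  have hy := hb.nonneg
  unfold Mem mul at *
  simp only [succ_c]
  have p : (0 : ℝ) < 2 ^ 64 := by positivity
  constructor
  · refine le_trans (shr_le _ _) ?_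
    rw [mul_c, div_le_iff₀ p]
    calc (a.lo : ℝ) * b.lo ≤ (x * 2 ^ 64) * (y * 2 ^ 64) :=
          mul_le_mul ha.1 hb.1 (Nat.cast_nonneg _) (by positivity)
      _ = _ := by ring
  · refine le_trans ?_ (lt_shr _ _).le
    rw [mul_c, le_div_iff₀ p]
    calc x * y * 2 ^ 64 * 2 ^ 64 = (x * 2 ^ 64) * (y * 2 ^ 64) := by ring
      _ ≤ _ := mul_le_mul ha.2 hb.2 (by positivity) (Nat.cast_nonneg _)

theorem mem_half {a : Iv} {x : ℝ} (ha : a.Mem x) : (half a).Mem (x / 2) := by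
  unfold Mem half at *
  simp only [succ_c]
  have h1 := shr_le a.lo 1
  have h2 := lt_shr a.hi 1
  constructor <;> nlinarith [ha.1, ha.2]

theorem mem_nmul (n : ℕ) {a : Iv} {x : ℝ} (ha : a.Mem x) : (nmul n a).Mem (n * x) := by
  unfold Mem nmul at *
  simp only [mul_c]
  have hn : (0 : ℝ) ≤ n := Nat.cast_nonneg _
  constructor
  · nlinarith [mul_le_mul_of_nonneg_left ha.1 hn]
  · nlinarith [mul_le_mul_of_nonneg_left ha.2 hn]

theorem mem_div {a b : Iv} {x y : ℝ} (ha : a.Mem x) (hb : b.Mem y) (hy : 1 / 64 ≤ y) :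
    (div a b).Mem (x / y) := by
  have hx := ha.nonneg
  have hy0 : 0 < y := by linarith
  have p : (0 : ℝ) < 2 ^ 64 := by positivity
  unfold Mem div at *
  simp only [succ_c]
  constructor
  · refine le_trans (div_le' _ _) ?_
    have hh : (0 : ℝ) < b.hi := lt_of_lt_of_le (by positivity) hb.2
    rw [shl_eq, div_le_iff₀ hh]
    have : x / y * 2 ^ 64 * (y * 2 ^ 64) = x * 2 ^ 64 * 2 ^ 64 := by field_simp
    calc (a.lo : ℝ) * 2 ^ 64 ≤ x * 2 ^ 64 * 2 ^ 64 := mul_le_mul_of_nonneg_right ha.1 p.le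
      _ = x / y * 2 ^ 64 * (y * 2 ^ 64) := this.symm
      _ ≤ _ := mul_le_mul_of_nonneg_left hb.2 (by positivity)
  · have hpos : 0 < Nat.add 288230376151711744 (Nat.sub b.lo 288230376151711744) :=
      Nat.add_pos_left (by norm_num) _
    refine le_trans ?_ (div_lt _ _ hpos).le
    have hposR : (0 : ℝ) < (Nat.add 288230376151711744 (Nat.sub b.lo 288230376151711744) : ℕ) := by
      exact_mod_cast hpos
    have hle : ((Nat.add 288230376151711744 (Nat.sub b.lo 288230376151711744) : ℕ) : ℝ)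
        ≤ y * 2 ^ 64 := by
      rw [add_c, sub_c]
      have h1 : (288230376151711744 : ℝ) ≤ y * 2 ^ 64 := by rw [two64]; linarith
      rcases le_total ((b.lo : ℝ) - (288230376151711744 : ℕ)) 0 with h | h
      · rw [max_eq_right h]; push_cast; linarith
      · rw [max_eq_left h]; linarith [hb.1]
    rw [shl_eq, le_div_iff₀ hposR]
    have : x / y * 2 ^ 64 * (y * 2 ^ 64) = x * 2 ^ 64 * 2 ^ 64 := by field_simp
    calc _ ≤ x / y * 2 ^ 64 * (y * 2 ^ 64) := mul_le_mul_of_nonneg_left hle (by positivity)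
      _ = x * 2 ^ 64 * 2 ^ 64 := this
      _ ≤ _ := mul_le_mul_of_nonneg_right ha.2 p.le

theorem mem_ex (k : ℕ) : (ex k).Mem ((k : ℝ) / 2 ^ 32) := by
  unfold Mem ex
  simp only [shl_eq]
  have : (k : ℝ) / 2 ^ 32 * 2 ^ 64 = k * 2 ^ 32 := by
    rw [show (2 : ℝ) ^ 64 = 2 ^ 32 * 2 ^ 32 by norm_num]; field_simp
  rw [this]; exact ⟨le_rfl, le_rfl⟩

theorem mem_one : one.Mem 1 := by unfold Mem one; constructor <;> norm_num
theorem mem_two : two.Mem 2 := by unfold Mem two; constructor <;> norm_num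
theorem mem_fortieth : fortieth.Mem (1 / 40) := by unfold Mem fortieth; constructor <;> norm_num

theorem mem_ln2 : ln2.Mem (Real.log 2) := by
  have h1 := Real.sum_range_le_log_div (x := 1 / 3) (by norm_num) (by norm_num) 23
  have h2 := Real.log_div_le_sum_range_add (x := 1 / 3) (by norm_num) (by norm_num) 23
  have e : ((1 : ℝ) + 1 / 3) / (1 - 1 / 3) = 2 := by norm_num
  rw [e] at h1 h2
  simp only [Finset.sum_range_succ, Finset.sum_range_zero] at h1 h2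
  norm_num at h1 h2
  unfold Mem ln2
  constructor
  · norm_num; linarith
  · norm_num; linarith

theorem le_of_le {a b : Iv} {x y : ℝ} (ha : a.Mem x) (hb : b.Mem y) (h : le a b = true) :
    x ≤ y := by
  have h1 : a.hi ≤ b.lo := Nat.le_of_ble_eq_true h
  have h2 : (a.hi : ℝ) ≤ b.lo := by exact_mod_cast h1
  have p : (0 : ℝ) < 2 ^ 64 := by positivity
  exact le_of_mul_le_mul_right (ha.2.trans (h2.trans hb.1)) p

theorem lt_of_lt {a b : Iv} {x y : ℝ} (ha : a.Mem x) (hb : b.Mem y) (h : lt a b = true) :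
    x < y := by
  have h1 : a.hi + 1 ≤ b.lo := Nat.le_of_ble_eq_true h
  have h2 : (a.hi : ℝ) + 1 ≤ b.lo := by exact_mod_cast h1
  have p : (0 : ℝ) < 2 ^ 64 := by positivity
  exact lt_of_mul_lt_mul_right (by linarith [ha.2, hb.1]) p.le

def HB (h : ℕ) (H : ℝ) : Prop :=
  (h : ℝ) ≤ H * 2 ^ 64 ∧ H * 2 ^ 64 ≤ h + 6 ∧ 0 ≤ H ∧ H ≤ 9 / 8

theorem hstep_ok {c U h : ℕ} {m u H : ℝ} (hu0 : 0 ≤ u) (hu1 : u ≤ 1 / 9)
    (hU1 : (U : ℝ) ≤ u * 2 ^ 64) (hU2 : u * 2 ^ 64 ≤ U + 2)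
    (hc1 : (c : ℝ) ≤ m * 2 ^ 64) (hc2 : m * 2 ^ 64 ≤ c + 1) (hm0 : 0 ≤ m) (hm1 : m ≤ 1)
    (hh : HB h H) : HB (hstep c U h) (m + u * H) := by
  obtain ⟨a1, a2, a3, a4⟩ := hh
  have p : (0 : ℝ) < 2 ^ 64 := by positivity
  have b1 := shr_le (Nat.mul U h) 64
  have b2 := lt_shr (Nat.mul U h) 64
  rw [mul_c] at b1 b2
  have hU0 : (0 : ℝ) ≤ U := Nat.cast_nonneg _
  have hh0 : (0 : ℝ) ≤ h := Nat.cast_nonneg _
  have c1 : (U : ℝ) * h / 2 ^ 64 ≤ u * H * 2 ^ 64 := by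
    rw [div_le_iff₀ p]
    calc (U : ℝ) * h ≤ (u * 2 ^ 64) * (H * 2 ^ 64) := mul_le_mul hU1 a1 hh0 (by positivity)
      _ = _ := by ring
  have c2 : u * H * 2 ^ 64 ≤ (U : ℝ) * h / 2 ^ 64 + 4 := by
    have d1 : u * 2 ^ 64 * (H * 2 ^ 64) ≤ ((U : ℝ) + 2) * (h + 6) :=
      mul_le_mul hU2 a2 (by positivity) (by positivity)
    have d2 : (U : ℝ) ≤ 1 / 9 * 2 ^ 64 := hU1.trans (mul_le_mul_of_nonneg_right hu1 p.le)
    have d3 : (h : ℝ) ≤ 9 / 8 * 2 ^ 64 := a1.trans (mul_le_mul_of_nonneg_right a4 p.le)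
    have d4 : u * H * 2 ^ 64 * 2 ^ 64 ≤ (U : ℝ) * h + 4 * 2 ^ 64 := by
      rw [two64] at *; nlinarith
    have : (U : ℝ) * h / 2 ^ 64 + 4 = ((U : ℝ) * h + 4 * 2 ^ 64) / 2 ^ 64 := by field_simp
    rw [this, le_div_iff₀ p]; exact d4
  unfold hstep HB
  rw [add_c]
  refine ⟨by nlinarith, by nlinarith, by positivity, by nlinarith⟩

noncomputable def hornerR (u : ℝ) : ℝ := (1/1 + u * (1/3 + u * (1/5 + u * (1/7 + u * (1/9 + u * (1/11 + u * (1/13 + u * (1/15 + u * (1/17 + u * (1/19 + u * (1/21 + u * (1/23 + u * (1/25 + u * (1/27 + u * (1/29 + u * (1/31 + u * (1/33)))))))))))))))))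

theorem horner_ok {U : ℕ} {u : ℝ} (hu0 : 0 ≤ u) (hu1 : u ≤ 1 / 9)
    (hU1 : (U : ℝ) ≤ u * 2 ^ 64) (hU2 : u * 2 ^ 64 ≤ U + 2) : HB (horner U) (hornerR u) := by
  have h16 : HB 558992244657865200 (1/33 : ℝ) := by
    refine ⟨?_, ?_, ?_, ?_⟩ <;> norm_num
  have h15 := hstep_ok (c := 595056260442243600) (m := 1/31) hu0 hu1 hU1 hU2 (by norm_num) (by norm_num) (by norm_num) (by norm_num) h16
  have h14 := hstep_ok (c := 636094623231363848) (m := 1/29) hu0 hu1 hU1 hU2 (by norm_num) (by norm_num) (by norm_num) (by norm_num) h15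
  have h13 := hstep_ok (c := 683212743470724133) (m := 1/27) hu0 hu1 hU1 hU2 (by norm_num) (by norm_num) (by norm_num) (by norm_num) h14
  have h12 := hstep_ok (c := 737869762948382064) (m := 1/25) hu0 hu1 hU1 hU2 (by norm_num) (by norm_num) (by norm_num) (by norm_num) h13
  have h11 := hstep_ok (c := 802032351030850070) (m := 1/23) hu0 hu1 hU1 hU2 (by norm_num) (by norm_num) (by norm_num) (by norm_num) h12
  have h10 := hstep_ok (c := 878416384462359600) (m := 1/21) hu0 hu1 hU1 hU2 (by norm_num) (by norm_num) (by norm_num) (by norm_num) h11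
  have h9 := hstep_ok (c := 970881267037344821) (m := 1/19) hu0 hu1 hU1 hU2 (by norm_num) (by norm_num) (by norm_num) (by norm_num) h10
  have h8 := hstep_ok (c := 1085102592571150095) (m := 1/17) hu0 hu1 hU1 hU2 (by norm_num) (by norm_num) (by norm_num) (by norm_num) h9
  have h7 := hstep_ok (c := 1229782938247303441) (m := 1/15) hu0 hu1 hU1 hU2 (by norm_num) (by norm_num) (by norm_num) (by norm_num) h8
  have h6 := hstep_ok (c := 1418980313362273201) (m := 1/13) hu0 hu1 hU1 hU2 (by norm_num) (by norm_num) (by norm_num) (by norm_num) h7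
  have h5 := hstep_ok (c := 1676976733973595601) (m := 1/11) hu0 hu1 hU1 hU2 (by norm_num) (by norm_num) (by norm_num) (by norm_num) h6
  have h4 := hstep_ok (c := 2049638230412172401) (m := 1/9) hu0 hu1 hU1 hU2 (by norm_num) (by norm_num) (by norm_num) (by norm_num) h5
  have h3 := hstep_ok (c := 2635249153387078802) (m := 1/7) hu0 hu1 hU1 hU2 (by norm_num) (by norm_num) (by norm_num) (by norm_num) h4
  have h2 := hstep_ok (c := 3689348814741910323) (m := 1/5) hu0 hu1 hU1 hU2 (by norm_num) (by norm_num) (by norm_num) (by norm_num) h3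
  have h1 := hstep_ok (c := 6148914691236517205) (m := 1/3) hu0 hu1 hU1 hU2 (by norm_num) (by norm_num) (by norm_num) (by norm_num) h2
  have h0 := hstep_ok (c := 18446744073709551616) (m := 1/1) hu0 hu1 hU1 hU2 (by norm_num) (by norm_num) (by norm_num) (by norm_num) h1
  exact h0

theorem hornerR_eq (s : ℝ) :
    ∑ i ∈ Finset.range 17, s ^ (2 * i + 1) / (2 * i + 1) = s * hornerR (s ^ 2) := by
  simp only [Finset.sum_range_succ, Finset.sum_range_zero, hornerR]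
  push_cast
  ring

theorem ser_ok {S : ℕ} {s : ℝ} (h0 : 0 ≤ s) (h1 : s ≤ 1 / 3) (hS1 : (S : ℝ) ≤ s * 2 ^ 64)
    (hS2 : s * 2 ^ 64 ≤ S + 1) :
    (ser S : ℝ) ≤ Real.log ((1 + s) / (1 - s)) * 2 ^ 64 ∧
      Real.log ((1 + s) / (1 - s)) * 2 ^ 64 ≤ ser S + 900 := by
  have p : (0 : ℝ) < 2 ^ 64 := by positivity
  have hS0 : (0 : ℝ) ≤ S := Nat.cast_nonneg _
  have hS3 : (S : ℝ) ≤ 1 / 3 * 2 ^ 64 := hS1.trans (mul_le_mul_of_nonneg_right h1 p.le)
  have b1 := shr_le (Nat.mul S S) 64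
  have b2 := lt_shr (Nat.mul S S) 64
  rw [mul_c] at b1 b2
  have u1 : ((Nat.shiftRight (Nat.mul S S) 64 : ℕ) : ℝ) ≤ s ^ 2 * 2 ^ 64 := by
    refine b1.trans ?_
    rw [div_le_iff₀ p]
    calc (S : ℝ) * S ≤ (s * 2 ^ 64) * (s * 2 ^ 64) := mul_le_mul hS1 hS1 hS0 (by positivity)
      _ = _ := by ring
  have u2 : s ^ 2 * 2 ^ 64 ≤ ((Nat.shiftRight (Nat.mul S S) 64 : ℕ) : ℝ) + 2 := by
    have d1 : s * 2 ^ 64 * (s * 2 ^ 64) ≤ ((S : ℝ) + 1) * (S + 1) :=
      mul_le_mul hS2 hS2 (by positivity) (by positivity)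
    have d2 : s ^ 2 * 2 ^ 64 ≤ (S : ℝ) * S / 2 ^ 64 + 1 := by
      have : (S : ℝ) * S / 2 ^ 64 + 1 = ((S : ℝ) * S + 2 ^ 64) / 2 ^ 64 := by field_simp
      rw [this, le_div_iff₀ p]
      rw [two64] at *; nlinarith
    linarith
  obtain ⟨a1, a2, a3, a4⟩ := horner_ok (u := s ^ 2) (by positivity) (by nlinarith) u1 u2
  set h := horner (Nat.shiftRight (Nat.mul S S) 64) with hh
  have hh0 : (0 : ℝ) ≤ h := Nat.cast_nonneg _
  have l1 := Real.sum_range_le_log_div h0 (by linarith) 17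
  have l2 := Real.log_div_le_sum_range_add h0 (by linarith) 17
  rw [hornerR_eq] at l1 l2
  set H := hornerR (s ^ 2) with hH
  have c1 := shr_le (Nat.mul S h) 63
  have c2 := lt_shr (Nat.mul S h) 63
  rw [mul_c] at c1 c2
  have p' : (0 : ℝ) < 2 ^ 63 := by positivity
  have e1 : (S : ℝ) * h / 2 ^ 63 ≤ 2 * (s * H) * 2 ^ 64 := by
    rw [div_le_iff₀ p']
    calc (S : ℝ) * h ≤ (s * 2 ^ 64) * (H * 2 ^ 64) := mul_le_mul hS1 a1 hh0 (by positivity)
      _ = _ := by ring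
  have e2 : 2 * (s * H) * 2 ^ 64 ≤ (S : ℝ) * h / 2 ^ 63 + 8 := by
    have d1 : s * 2 ^ 64 * (H * 2 ^ 64) ≤ ((S : ℝ) + 1) * (h + 6) :=
      mul_le_mul hS2 a2 (by positivity) (by positivity)
    have d3 : (h : ℝ) ≤ 9 / 8 * 2 ^ 64 := a1.trans (mul_le_mul_of_nonneg_right a4 p.le)
    have : (S : ℝ) * h / 2 ^ 63 + 8 = ((S : ℝ) * h + 8 * 2 ^ 63) / 2 ^ 63 := by field_simp
    rw [this, le_div_iff₀ p']
    have t63 : (2 : ℝ) ^ 63 = 9223372036854775808 := by norm_num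
    rw [two64, t63] at *; nlinarith
  have t1 : s ^ (2 * 17 + 1) / (1 - s ^ 2) ≤ (1 / 3) ^ 35 / (8 / 9) := by
    apply div_le_div₀ (by positivity) (pow_le_pow_left₀ h0 h1 _) (by norm_num) (by nlinarith)
  have t2 : ((1 : ℝ) / 3) ^ 35 / (8 / 9) * 2 ^ 64 ≤ 440 := by norm_num
  have t3 : s ^ (2 * 17 + 1) / (1 - s ^ 2) * 2 ^ 64 ≤ 440 :=
    (mul_le_mul_of_nonneg_right t1 p.le).trans t2
  unfold ser
  rw [← hh]
  constructor
  · nlinarith
  · nlinarith

theorem lnLo_ok {X : ℕ} (hX : 18446744073709551616 ≤ X) :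
    (lnLo X : ℝ) ≤ Real.log ((X : ℝ) / 2 ^ 64) * 2 ^ 64 ∧
      Real.log ((X : ℝ) / 2 ^ 64) * 2 ^ 64 ≤ lnLo X + (Nat.log2 X + 900) := by
  have hX0 : X ≠ 0 := by omega
  have k1 : 2 ^ Nat.log2 X ≤ X := Nat.log2_self_le hX0
  have k2 : X < 2 ^ (Nat.log2 X + 1) := Nat.lt_log2_self
  have k3 : 64 ≤ Nat.log2 X := (Nat.le_log2 hX0).mpr (by norm_num; omega)
  set k := Nat.log2 X with hk
  have hP : Nat.shiftLeft 1 k = 2 ^ k := by
    show 1 <<< k = _
    rw [Nat.shiftLeft_eq, one_mul]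
  have k1R : (2 : ℝ) ^ k ≤ X := by exact_mod_cast k1
  have k2R : (X : ℝ) ≤ 2 * 2 ^ k := by
    have : (X : ℝ) < 2 ^ (k + 1) := by exact_mod_cast k2
    rw [pow_succ] at this; linarith
  have pk : (0 : ℝ) < 2 ^ k := by positivity
  have p : (0 : ℝ) < 2 ^ 64 := by positivity
  have hden : (0 : ℝ) < X + 2 ^ k := by linarith
  set s : ℝ := ((X : ℝ) - 2 ^ k) / (X + 2 ^ k) with hs
  have s0 : 0 ≤ s := div_nonneg (by linarith) hden.le
  have s1 : s ≤ 1 / 3 := by rw [hs, div_le_iff₀ hden]; linarith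
  have hq : ((Nat.shiftLeft (Nat.sub X (2 ^ k)) 64 : ℕ) : ℝ) / (Nat.add X (2 ^ k) : ℕ)
      = s * 2 ^ 64 := by
    rw [shl_eq, add_c, sub_c, max_eq_left (by push_cast; linarith), hs]
    push_cast; ring
  have q1 := div_le' (Nat.shiftLeft (Nat.sub X (2 ^ k)) 64) (Nat.add X (2 ^ k))
  have q2 := div_lt (Nat.shiftLeft (Nat.sub X (2 ^ k)) 64) (Nat.add X (2 ^ k))
    (Nat.add_pos_left (Nat.pos_of_ne_zero hX0) _)
  rw [hq] at q1 q2
  obtain ⟨r1, r2⟩ := ser_ok s0 s1 q1 q2.le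
  have e1 : (1 + s) / (1 - s) = X / 2 ^ k := by
    have : (1 : ℝ) - s = 2 * 2 ^ k / (X + 2 ^ k) := by rw [hs]; field_simp; ring
    have h2 : (1 : ℝ) + s = 2 * X / (X + 2 ^ k) := by rw [hs]; field_simp; ring
    rw [this, h2]; field_simp
  have hXpos : (0 : ℝ) < X := by linarith
  have e2 : Real.log ((X : ℝ) / 2 ^ 64) = ((k : ℝ) - 64) * Real.log 2 + Real.log (X / 2 ^ k) := by
    rw [Real.log_div hXpos.ne' p.ne', Real.log_div hXpos.ne' pk.ne', Real.log_pow, Real.log_pow]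
    push_cast; ring
  have k3R : (64 : ℝ) ≤ k := by exact_mod_cast k3
  obtain ⟨l1, l2⟩ := mem_ln2
  unfold ln2 at l1 l2
  simp only at l1 l2
  push_cast at l1 l2
  unfold lnLo lnK
  rw [← hk, hP, add_c, mul_c, sub_c, max_eq_left (by push_cast; linarith), e2, ← e1]
  push_cast
  constructor
  · nlinarith [mul_le_mul_of_nonneg_left l1 (sub_nonneg.mpr k3R)]
  · nlinarith [mul_le_mul_of_nonneg_left l2 (sub_nonneg.mpr k3R)]

theorem mem_log {a : Iv} {x : ℝ} (ha : a.Mem x) (hx : 1 ≤ x) : (log a).Mem (Real.log x) := by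
  set X := Nat.add 18446744073709551616 (Nat.sub a.lo 18446744073709551616) with hX
  have hX1 : 18446744073709551616 ≤ X := Nat.le_add_right _ _
  have p : (0 : ℝ) < 2 ^ 64 := by positivity
  have hX1R : (2 : ℝ) ^ 64 ≤ X := by rw [two64]; exact_mod_cast hX1
  have hX2 : (X : ℝ) ≤ x * 2 ^ 64 := by
    rw [hX, add_c, sub_c]
    have h1 : (18446744073709551616 : ℝ) ≤ x * 2 ^ 64 := by rw [two64]; linarith
    rcases le_total ((a.lo : ℝ) - (18446744073709551616 : ℕ)) 0 with h | h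
    · rw [max_eq_right h]; push_cast; linarith
    · rw [max_eq_left h]; linarith [ha.1]
  obtain ⟨r1, r2⟩ := lnLo_ok hX1
  have hx0 : 0 < x := by linarith
  have m0 : (1 : ℝ) ≤ (X : ℝ) / 2 ^ 64 := by rw [le_div_iff₀ p]; linarith
  have m1 : (X : ℝ) / 2 ^ 64 ≤ x := by rw [div_le_iff₀ p]; exact hX2
  have m2 : Real.log ((X : ℝ) / 2 ^ 64) ≤ Real.log x := Real.log_le_log (by linarith) m1
  have m3 : Real.log x ≤ Real.log ((X : ℝ) / 2 ^ 64) + (x - (X : ℝ) / 2 ^ 64) := by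
    set m := (X : ℝ) / 2 ^ 64
    have hm : 0 < m := by linarith
    have h1 : Real.log (x / m) ≤ x / m - 1 := Real.log_le_sub_one_of_pos (by positivity)
    rw [Real.log_div hx0.ne' hm.ne'] at h1
    have h2 : x / m - 1 ≤ x - m := by
      have : x / m - 1 = (x - m) / m := by field_simp
      rw [this]; exact div_le_self (by linarith) m0
    linarith
  have m4 : (x - (X : ℝ) / 2 ^ 64) * 2 ^ 64 = x * 2 ^ 64 - X := by field_simp
  unfold Mem log lnX
  rw [← hX]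
  simp only [add_c, sub_c]
  constructor
  · exact r1.trans (mul_le_mul_of_nonneg_right m2 p.le)
  · have h1 := mul_le_mul_of_nonneg_right m3 p.le
    have h2 : x * 2 ^ 64 - X ≤ max ((a.hi : ℝ) - X) 0 := le_max_of_le_left (by linarith [ha.2])
    rw [add_mul, m4] at h1
    rw [Nat.cast_ofNat]
    linarith

end Iv

end Vale.Agent.P322
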