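import Vale.Agent.P322.Pair1

/-! Pair coordinates: monotonicity and convexity of `MM` and `QQ`. -/

namespace Vale.Agent.P322

open Real

/-- the argument of the logarithm in the derivative of `MM` -/
noncomputable def p2rho (y z : ℝ) : ℝ := cosh (2 * y) - sinh (2 * y) ^ 2 / (2 * NN y z)

theorem p2_exp_mul (z : ℝ) : exp (2 * z) * exp (-(2 * z)) = 1 := by
  rw [← exp_add]; simp
theorem p2_cosh (z : ℝ) : cosh (2 * z) = (exp (2 * z) + exp (-(2 * z))) / 2 := cosh_eq _
theorem p2_sinh (z : ℝ) : sinh (2 * z) = (exp (2 * z) - exp (-(2 * z))) / 2 := sinh_eq _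

theorem p2rho_eq (y z : ℝ) : p2rho y z =
    (exp (2 * z) + cosh (2 * y)) * (exp (-(2 * z)) + cosh (2 * y)) / (2 * NN y z) := by
  have hN := NN_pos y z
  have h1 := p2_exp_mul z
  have h2 := p2_cosh z
  have h3 := cosh_sq (2 * y)
  have key : (exp (2 * z) + cosh (2 * y)) * (exp (-(2 * z)) + cosh (2 * y)) =
      cosh (2 * y) * (2 * NN y z) - sinh (2 * y) ^ 2 := by
    rw [NN, h2]
    linear_combination h1 - h3
  rw [key, p2rho]
  field_simp
theorem p2_one_le_rho (y z : ℝ) : 1 ≤ p2rho y z := by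
  have hN := NN_pos y z
  have h3 := cosh_sq (2 * y)
  have h4 := one_le_cosh (2 * y)
  have h5 := one_le_cosh (2 * z)
  have key : sinh (2 * y) ^ 2 / (2 * NN y z) ≤ cosh (2 * y) - 1 := by
    rw [div_le_iff₀ (by positivity), NN]
    nlinarith [mul_nonneg (sub_nonneg.2 h4) (sub_nonneg.2 h5), sq_nonneg (cosh (2 * y) - 1)]
  rw [p2rho]
  linarith
theorem p2_rho_pos (y z : ℝ) : 0 < p2rho y z := by linarith [p2_one_le_rho y z]
theorem p2_rho_le (y z : ℝ) : p2rho y z ≤ cosh (2 * y) := by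
  have hN := NN_pos y z
  have : 0 ≤ sinh (2 * y) ^ 2 / (2 * NN y z) := by positivity
  rw [p2rho]
  linarith
theorem p2_log_rho (y z : ℝ) : log (p2rho y z) = log (exp (2 * z) + cosh (2 * y)) +
    log (exp (-(2 * z)) + cosh (2 * y)) - log (2 * NN y z) := by
  have hN := NN_pos y z
  have hD := cosh_pos (2 * y)
  have hE := exp_pos (2 * z)
  have hE' := exp_pos (-(2 * z))
  rw [p2rho_eq, log_div (by positivity) (by positivity), log_mul (by positivity) (by positivity)]
theorem p2_rho_mono (y : ℝ) {z1 z : ℝ} (h : cosh (2 * z1) ≤ cosh (2 * z)) :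
    p2rho y z1 ≤ p2rho y z := by
  have hN := NN_pos y z1
  have h2 : NN y z1 ≤ NN y z := by rw [NN, NN]; linarith
  have : sinh (2 * y) ^ 2 / (2 * NN y z) ≤ sinh (2 * y) ^ 2 / (2 * NN y z1) :=
    div_le_div_of_nonneg_left (sq_nonneg _) (by positivity) (by linarith)
  rw [p2rho, p2rho]
  linarith

theorem p2_two (y : ℝ) : HasDerivAt (fun x : ℝ => 2 * x) 2 y := by
  simpa using (hasDerivAt_id y).const_mul 2
theorem p2_dcosh (y : ℝ) : HasDerivAt (fun x : ℝ => cosh (2 * x)) (2 * sinh (2 * y)) y :=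
  (p2_two y).cosh.congr_deriv (mul_comm _ _)
theorem p2_dsinh (y : ℝ) : HasDerivAt (fun x : ℝ => sinh (2 * x)) (2 * cosh (2 * y)) y :=
  (p2_two y).sinh.congr_deriv (mul_comm _ _)
theorem p2_dmul (y : ℝ) :
    HasDerivAt (fun x : ℝ => x * sinh (2 * x)) (sinh (2 * y) + 2 * y * cosh (2 * y)) y := by
  refine ((hasDerivAt_id y).mul (p2_dsinh y)).congr_deriv ?_
  simp only [id]
  ring
theorem p2_dxlog {c : ℝ} (hc : 0 ≤ c) (y : ℝ) :
    HasDerivAt (fun x : ℝ => (c + cosh (2 * x)) * log (c + cosh (2 * x)))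
      (2 * sinh (2 * y) * log (c + cosh (2 * y)) + 2 * sinh (2 * y)) y := by
  have hD := cosh_pos (2 * y)
  have h1 := (p2_dcosh y).const_add c
  refine (h1.mul (h1.log (by positivity))).congr_deriv ?_
  field_simp
theorem p2_dNlog {c : ℝ} (hc : 0 ≤ c) (y : ℝ) :
    HasDerivAt (fun x : ℝ => (c + cosh (2 * x)) / 2 * log (2 * (c + cosh (2 * x))))
      (sinh (2 * y) * log (2 * (c + cosh (2 * y))) + sinh (2 * y)) y := by
  have hD := cosh_pos (2 * y)
  have h1 := (p2_dcosh y).const_add c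
  refine ((h1.div_const 2).mul ((h1.const_mul 2).log (by positivity))).congr_deriv ?_
  field_simp

theorem hasDerivAt_MM (y z : ℝ) :
    HasDerivAt (fun y => MM y z)
      (2 * y * cosh (2 * y)
        - sinh (2 * y) * log (cosh (2 * y) - sinh (2 * y) ^ 2 / (2 * NN y z))) y := by
  have h1 := p2_dNlog (cosh_pos (2 * z)).le y
  have h2 := p2_dxlog (exp_pos (2 * z)).le y
  have h3 := p2_dxlog (exp_pos (-(2 * z))).le y
  have h4 := ((h1.add_const (z * sinh (2 * z))).add (p2_dmul y)).sub ((h2.add h3).div_const 2)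
  refine h4.congr_deriv ?_
  have h5 := p2_log_rho y z
  rw [p2rho] at h5
  rw [h5, NN]
  ring
theorem p2_dMM (y z : ℝ) : HasDerivAt (fun y => MM y z)
    (2 * y * cosh (2 * y) - sinh (2 * y) * log (p2rho y z)) y := hasDerivAt_MM y z
theorem hasDerivAt_QQ_y (y z : ℝ) :
    HasDerivAt (fun y => QQ y z) (sinh (2 * y) * log (2 * NN y z) - 2 * y * cosh (2 * y)) y := by
  have h1 := p2_dNlog (cosh_pos (2 * z)).le y
  have h4 := (h1.sub_const (z * sinh (2 * z))).sub (p2_dmul y)
  refine h4.congr_deriv ?_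
  rw [NN]
  ring
theorem p2_QQ_comm (y z : ℝ) : QQ y z = QQ z y := by
  rw [QQ, QQ, NN_comm y z]; ring
theorem hasDerivAt_QQ_z (y z : ℝ) :
    HasDerivAt (fun z => QQ y z) (sinh (2 * z) * log (2 * NN y z) - 2 * z * cosh (2 * z)) z := by
  have h := hasDerivAt_QQ_y z y
  rw [NN_comm z y] at h
  simpa only [p2_QQ_comm y] using h
theorem MM_zero_left (z : ℝ) : MM 0 z = 0 := by
  have h1 := lc_eq z
  have h2 := lc_eq' z
  have h3 := two_lc_eq z
  have e1 : log (exp (2 * z) + 1) = lc z + z := by rw [add_comm, h2]; ring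
  have e2 : log (exp (-(2 * z)) + 1) = lc z - z := by rw [add_comm, h1]; ring
  have e3 : log (2 * (cosh (2 * z) + 1)) = 2 * lc z := by rw [add_comm, h3]
  simp only [MM, NN, mul_zero, cosh_zero, sinh_zero]
  rw [e1, e2, e3, p2_cosh, p2_sinh]
  ring
theorem MM_nonneg {y : ℝ} (hy : 0 ≤ y) (z : ℝ) : 0 ≤ MM y z := by
  rw [← MM_zero_left z]
  refine a1_mono (f := fun y => MM y z) hy (fun x _ _ => p2_dMM x z) fun x h1 _ => ?_
  have hS := p1_sinh_nonneg h1.le
  have h2 : log (p2rho x z) ≤ 2 * x := by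
    rw [log_le_iff_le_exp (p2_rho_pos x z)]
    refine (p2_rho_le x z).trans ?_
    rw [← cosh_add_sinh]
    linarith
  have h3 := mul_le_mul_of_nonneg_left h2 hS
  have h4 := mul_le_mul_of_nonneg_left (sinh_lt_cosh (x := 2 * x)).le
    (show (0 : ℝ) ≤ 2 * x by linarith)
  linarith
theorem QQ_nonneg (y z : ℝ) : 0 ≤ QQ y z := by
  have h1 := Hy_add_Hy y z
  have h2 := Hy_pos (z + y)
  have h3 := Hy_pos (z - y)
  have h4 : 0 < QQ y z / NN y z := by linarith
  exact ((div_pos_iff_of_pos_right (NN_pos y z)).1 h4).le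
theorem p2_diff {ya y z1 z : ℝ} (hy : 0 ≤ ya) (h : ya ≤ y) (hc : cosh (2 * z1) ≤ cosh (2 * z)) :
    MM ya z1 - MM ya z ≤ MM y z1 - MM y z := by
  refine a1_mono (f := fun y => MM y z1 - MM y z) h
    (fun x _ _ => (p2_dMM x z1).sub (p2_dMM x z)) fun x h1 _ => ?_
  have hS := p1_sinh_nonneg (y := x) (by linarith)
  have h2 := log_le_log (p2_rho_pos x z1) (p2_rho_mono x hc)
  have h3 := mul_le_mul_of_nonneg_left h2 hS
  linarith
theorem MM_anti {y z1 z : ℝ} (hy : 0 ≤ y) (h0 : 0 ≤ z1) (h : z1 ≤ z) : MM y z ≤ MM y z1 := by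
  have h1 := p2_diff le_rfl hy (p1_cosh_le h0 h)
  rw [MM_zero_left, MM_zero_left] at h1
  linarith
theorem MM_chord {y z z1 z2 τ : ℝ} (hy : 0 ≤ y) (h0 : 0 ≤ τ) (h1 : τ ≤ 1)
    (hC : cosh (2 * z) = (1 - τ) * cosh (2 * z1) + τ * cosh (2 * z2)) :
    MM y z ≤ (1 - τ) * MM y z1 + τ * MM y z2 := by
  have key := a1_mono (f := fun y => (1 - τ) * MM y z1 + τ * MM y z2 - MM y z) hy
    (fun x _ _ => (((p2_dMM x z1).const_mul (1 - τ)).add ((p2_dMM x z2).const_mul τ)).sub
      (p2_dMM x z)) fun x hx _ => by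
      have hS := p1_sinh_nonneg hx.le
      have h2 := p1_inv_chord (NN_pos x z) (NN_pos x z1) (NN_pos x z2) h0 h1 (p1_NN_chord hC)
      have h3 := mul_le_mul_of_nonneg_left h2
        (show 0 ≤ sinh (2 * x) ^ 2 / 2 by positivity)
      have h4 : (1 - τ) * p2rho x z1 + τ * p2rho x z2 ≤ p2rho x z := by
        have e : ∀ w, p2rho x w = cosh (2 * x) - sinh (2 * x) ^ 2 / 2 * (1 / NN x w) := by
          intro w
          rw [p2rho]
          have := NN_pos x w
          field_simp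
        rw [e, e, e]
        have e2 : sinh (2 * x) ^ 2 / 2 * ((1 - τ) / NN x z1 + τ / NN x z2) =
            (1 - τ) * (sinh (2 * x) ^ 2 / 2 * (1 / NN x z1)) +
              τ * (sinh (2 * x) ^ 2 / 2 * (1 / NN x z2)) := by ring
        rw [e2] at h3
        linarith
      have h5 := strictConcaveOn_log_Ioi.concaveOn.2 (p2_rho_pos x z1) (p2_rho_pos x z2)
        (sub_nonneg.2 h1) h0 (by ring)
      simp only [smul_eq_mul] at h5
      have hpos : 0 < (1 - τ) * p2rho x z1 + τ * p2rho x z2 := by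
        have a1 := mul_le_mul_of_nonneg_left (p2_one_le_rho x z1) (sub_nonneg.2 h1)
        have a2 := mul_le_mul_of_nonneg_left (p2_one_le_rho x z2) h0
        linarith
      have h6 := h5.trans (log_le_log hpos h4)
      have h7 := mul_le_mul_of_nonneg_left h6 hS
      linarith
  simp only [MM_zero_left] at key
  linarith
theorem MM_diff_mono {ya y z : ℝ} (hy : 0 ≤ ya) (h : ya ≤ y) :
    MM ya 0 - MM ya z ≤ MM y 0 - MM y z :=
  p2_diff hy h (by simpa using one_le_cosh (2 * z))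
theorem p2_K (y z : ℝ) : 0 ≤ (2 * y * cosh (2 * y) - sinh (2 * y) * log (p2rho y z)) * sinh (2 * y)
    - MM y z * (2 * cosh (2 * y)) := by
  have hN := NN_pos y z
  have hD := cosh_pos (2 * y)
  have hE := exp_pos (2 * z)
  have hE' := exp_pos (-(2 * z))
  have h1 := p2_exp_mul z
  have h2 := p2_cosh z
  have h3 := cosh_sq (2 * y)
  have hS := sq_nonneg (sinh (2 * y))
  have l0 := log_nonneg (p2_one_le_rho y z)
  have l1 : log (2 * NN y z) + 2 * z ≤ 2 * log (exp (2 * z) + cosh (2 * y)) := by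
    have a : 2 * NN y z * exp (2 * z) ≤ (exp (2 * z) + cosh (2 * y)) ^ 2 := by
      rw [NN, h2]; nlinarith
    have b := log_le_log (by positivity) a
    rw [log_mul (by positivity) hE.ne', log_exp, log_pow] at b
    exact_mod_cast b
  have l2 : log (2 * NN y z) + -(2 * z) ≤ 2 * log (exp (-(2 * z)) + cosh (2 * y)) := by
    have a : 2 * NN y z * exp (-(2 * z)) ≤ (exp (-(2 * z)) + cosh (2 * y)) ^ 2 := by
      rw [NN, h2]; nlinarith
    have b := log_le_log (by positivity) a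
    rw [log_mul (by positivity) hE'.ne', log_exp, log_pow] at b
    exact_mod_cast b
  have m1 := mul_nonneg (mul_pos hD hE).le (sub_nonneg.2 l1)
  have m2 := mul_nonneg (mul_pos hD hE').le (sub_nonneg.2 l2)
  rw [p2_log_rho] at l0 ⊢
  rw [MM]
  generalize log (exp (2 * z) + cosh (2 * y)) = a at *
  generalize log (exp (-(2 * z)) + cosh (2 * y)) = b at *
  generalize log (2 * NN y z) = L at *
  have key : (2 * y * cosh (2 * y) - sinh (2 * y) * (a + b - L)) * sinh (2 * y) -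
      (NN y z / 2 * L + z * sinh (2 * z) + y * sinh (2 * y) -
        ((exp (2 * z) + cosh (2 * y)) * a + (exp (-(2 * z)) + cosh (2 * y)) * b) / 2) *
        (2 * cosh (2 * y)) = (a + b - L) +
      (cosh (2 * y) * exp (2 * z) * (2 * a - (L + 2 * z)) +
        cosh (2 * y) * exp (-(2 * z)) * (2 * b - (L + -(2 * z)))) / 2 := by
    rw [NN, h2, p2_sinh z]
    linear_combination (a + b - L) * h3
  rw [key]
  linarith
theorem mm_mono {y yb : ℝ} (hy : 0 < y) (h : y ≤ yb) (z : ℝ) : mm y z ≤ mm yb z := by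
  refine a1_mono (f := fun y => mm y z) h
    (fun x hx _ => (p2_dMM x z).div (p2_dsinh x) (p1_sinh_pos (by linarith)).ne')
    fun x _ _ => div_nonneg (p2_K x z) (sq_nonneg _)
theorem p2_log_ge (y z : ℝ) : 2 * z ≤ log (2 * NN y z) := by
  have hN := NN_pos y z
  rw [le_log_iff_exp_le (by positivity), NN, p2_cosh z]
  linarith [exp_pos (-(2 * z)), cosh_pos (2 * y)]
theorem qq_anti {y yb z : ℝ} (hy : 0 < y) (h : y ≤ yb) (hz : 0 ≤ z) : qq yb z ≤ qq y z := by
  refine a1_anti (f := fun y => qq y z) h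
    (fun x hx _ => (hasDerivAt_QQ_y x z).div (p2_dsinh x) (p1_sinh_pos (by linarith)).ne')
    fun x _ _ => div_nonpos_of_nonpos_of_nonneg ?_ (sq_nonneg _)
  have h1 := p2_log_ge x z
  have h3 := cosh_sq (2 * x)
  have hD := cosh_pos (2 * x)
  have hC := cosh_pos (2 * z)
  have h4 := (sinh_lt_cosh (x := 2 * z)).le
  have key : (sinh (2 * x) * log (2 * NN x z) - 2 * x * cosh (2 * x)) * sinh (2 * x) -
      QQ x z * (2 * cosh (2 * x)) = -log (2 * NN x z)
        - cosh (2 * x) * cosh (2 * z) * (log (2 * NN x z) - 2 * z)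
        - cosh (2 * x) * (2 * z) * (cosh (2 * z) - sinh (2 * z)) := by
    rw [QQ]
    generalize log (2 * NN x z) = L
    rw [NN]
    linear_combination (-L) * h3
  rw [key]
  have m1 := mul_nonneg (mul_pos hD hC).le (sub_nonneg.2 h1)
  have m2 := mul_nonneg (mul_nonneg hD.le (show (0 : ℝ) ≤ 2 * z by linarith)) (sub_nonneg.2 h4)
  linarith
theorem p2_lc_ge {z : ℝ} (hz : 0 ≤ z) : z * cosh (2 * z) ≤ sinh (2 * z) * lc z := by
  have hE := exp_pos (2 * z)
  have hr := exp_pos (-(2 * z))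
  have h1 := p2_exp_mul z
  have h2 := add_one_le_exp (2 * z)
  have hS := p1_sinh_nonneg hz
  have h3 : exp (-(2 * z)) / (1 + exp (-(2 * z))) ≤ log (1 + exp (-(2 * z))) := by
    have := one_sub_inv_le_log_of_pos (show 0 < 1 + exp (-(2 * z)) by positivity)
    refine le_trans (le_of_eq ?_) this
    field_simp
    ring
  have h4 := mul_le_mul_of_nonneg_left h3 hS
  have h5 : sinh (2 * z) * (exp (-(2 * z)) / (1 + exp (-(2 * z)))) = (1 - exp (-(2 * z))) / 2 := by
    rw [p2_sinh]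
    field_simp
    linear_combination h1
  have h6 := mul_le_mul_of_nonneg_right h2 hr.le
  rw [lc_eq, mul_add, p2_cosh]
  rw [h5] at h4
  have h7 : sinh (2 * z) * z = (exp (2 * z) - exp (-(2 * z))) / 2 * z := by rw [p2_sinh]
  rw [h7]
  linarith
theorem p2_lc_le (y z : ℝ) : 2 * lc z ≤ log (2 * NN y z) := by
  have := cosh_pos (2 * z)
  rw [two_lc_eq]
  refine log_le_log (by positivity) ?_
  rw [NN]
  linarith [one_le_cosh (2 * y)]
theorem QQ_mono {y z1 z : ℝ} (h0 : 0 ≤ z1) (h : z1 ≤ z) : QQ y z1 ≤ QQ y z := by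
  refine a1_mono (f := fun z => QQ y z) h (fun x _ _ => hasDerivAt_QQ_z y x) fun x h1 _ => ?_
  have hx : 0 ≤ x := by linarith
  have h2 := mul_le_mul_of_nonneg_left (p2_lc_le y x) (p1_sinh_nonneg hx)
  have h3 := p2_lc_ge hx
  linarith
theorem QQ_sub_ge {y z : ℝ} (hz : 0 ≤ z) :
    (cosh (2 * z) - 1) / 2 * log (NN y z / (cosh (2 * z) + 1)) ≤ QQ y z - QQ y 0 := by
  have key := a1_mono
    (f := fun s => QQ y s - cosh (2 * s) / 2 * log (NN y z / (cosh (2 * z) + 1))) hz
    (fun x _ _ => (hasDerivAt_QQ_z y x).sub (((p2_dcosh x).div_const 2).mul_const _))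
    fun x h1 h2 => by
      have hS := p1_sinh_nonneg h1.le
      have h3 := p2_lc_ge h1.le
      have hc := cosh_pos (2 * x)
      have hC := cosh_pos (2 * z)
      have hN := NN_pos y z
      have hNx := NN_pos y x
      have h4 := p1_cosh_le h1.le h2.le
      have h5 := one_le_cosh (2 * y)
      have h6 : log (NN y z / (cosh (2 * z) + 1)) ≤ log (2 * NN y x) - 2 * lc x := by
        rw [two_lc_eq, ← log_div (by positivity) (by positivity)]
        refine log_le_log (by positivity) ?_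
        rw [div_le_div_iff₀ (by positivity) (by positivity), NN, NN]
        nlinarith [mul_nonneg (sub_nonneg.2 h4) (sub_nonneg.2 h5)]
      have h7 := mul_le_mul_of_nonneg_left h6 hS
      linarith
  simp only [mul_zero, cosh_zero] at key
  linarith
theorem mm_le {y yb z1 z : ℝ} (hy : 0 < y) (h : y ≤ yb) (h0 : 0 ≤ z1) (hz : z1 ≤ z) :
    mm y z ≤ mm yb z1 := by
  refine (mm_mono hy h z).trans ?_
  exact div_le_div_of_nonneg_right (MM_anti (by linarith) h0 hz) (p1_sinh_nonneg (by linarith))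
theorem qq_ge {y yb z1 z : ℝ} (hy : 0 < y) (h : y ≤ yb) (h0 : 0 ≤ z1) (hz : z1 ≤ z) :
    qq yb z1 ≤ qq y z := by
  refine (qq_anti hy h h0).trans ?_
  exact div_le_div_of_nonneg_right (QQ_mono h0 hz) (p1_sinh_nonneg hy.le)
theorem two_mm_le_self {y z : ℝ} (hy : 0 < y) (hz : 0 ≤ z) : 2 * mm y z ≤ y := by
  have h1 := mm_le hy le_rfl le_rfl hz
  have ht := tanh_pos' hy
  have h2 : ph y / tanh y ≤ y / 2 := by
    rw [div_le_iff₀ ht]
    have := two_ph_le_pp y
    rw [pp] at this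
    linarith
  rw [mm_zero hy] at h1
  linarith
theorem mm_le_log_two {y z : ℝ} (hy : 0 < y) (hz : 0 ≤ z) : mm y z ≤ log 2 := by
  have h1 := mm_le hy le_rfl le_rfl hz
  have ht := tanh_pos' hy
  have h2 : ph y / tanh y ≤ log 2 := by
    rw [div_le_iff₀ ht]
    refine (ph_le_log_two_mul y).trans (mul_le_mul_of_nonneg_left ?_ (log_nonneg one_le_two))
    nlinarith [tanh_lt_one y]
  rw [mm_zero hy] at h1
  linarith

end Vale.Agent.P322
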