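import Vale.Agent.P322.Iv
import Vale.Agent.P322.Pair2

/-! Interval enclosures of the functions at the points `yv k = log (k / 2^32) / 2`. -/

namespace Vale.Agent.P322

open Real Iv

set_option linter.unusedSectionVars false

noncomputable def rv (k : ℕ) : ℝ := (k : ℝ) / 2 ^ 32
noncomputable def yv (k : ℕ) : ℝ := Real.log (rv k) / 2

def invI (k : ℕ) : Iv := Iv.div Iv.one (Iv.ex k)
def c2I (k : ℕ) : Iv := Iv.half (Iv.add (Iv.ex k) (invI k))
def s2I (k : ℕ) : Iv := Iv.half (Iv.sub (Iv.ex k) (invI k))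
def l2I (k : ℕ) : Iv := Iv.log (Iv.ex k)
def yI (k : ℕ) : Iv := Iv.half (l2I k)
def tI (k : ℕ) : Iv := Iv.div (Iv.sub (Iv.ex k) Iv.one) (Iv.add (Iv.ex k) Iv.one)
def lcI (k : ℕ) : Iv := Iv.sub (Iv.log (Iv.add Iv.one (Iv.ex k))) (yI k)
def ppI (k : ℕ) : Iv := Iv.mul (yI k) (tI k)
def HyI (k : ℕ) : Iv := Iv.sub (lcI k) (ppI k)
def lamI (k : ℕ) : Iv := Iv.add Iv.one (Iv.div (s2I k) (l2I k))
def lamI0 (k : ℕ) : Iv := cond (Nat.beq k 4294967296) Iv.two (lamI k)
def etaI (k : ℕ) : Iv := Iv.add (ppI k) (Iv.mul (lamI k) (HyI k))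
def bbI (k : ℕ) : Iv := Iv.sub (etaI k) (Iv.nmul 2 Iv.ln2)
def phI (k : ℕ) : Iv := Iv.sub Iv.ln2 (HyI k)
def psiI (k : ℕ) : Iv := Iv.sub (Iv.mul (lamI0 k) (phI k)) (ppI k)
def gapI (v w : ℕ) : Iv := Iv.sub (Iv.add (ppI w) (Iv.mul (lamI v) (HyI w))) (etaI v)
def LLI (k : ℕ) : Iv := Iv.div (HyI k) (tI k)
def muI (k : ℕ) : Iv := Iv.div (Iv.half (Iv.sub (c2I k) Iv.one)) (lcI k)
def kapI (k : ℕ) : Iv := Iv.add (yI k) (Iv.mul (muI k) (LLI k))
def NNI (y z : ℕ) : Iv := Iv.add (c2I z) (c2I y)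
def ddI (y z : ℕ) : Iv := Iv.div (s2I y) (NNI y z)
def sqI (a : Iv) : Iv := Iv.mul a a
def uuI (y z : ℕ) : Iv := sqI (Iv.div (s2I z) (NNI y z))
def nlI (y z : ℕ) : Iv := Iv.mul (Iv.half (NNI y z)) (Iv.log (Iv.nmul 2 (NNI y z)))
def ysI (k : ℕ) : Iv := Iv.mul (yI k) (s2I k)
def xlI (a : Iv) : Iv := Iv.mul a (Iv.log a)
def QQI (y z : ℕ) : Iv := Iv.sub (nlI y z) (Iv.add (ysI z) (ysI y))
def MMI (y z : ℕ) : Iv :=
  Iv.sub (Iv.add (Iv.add (nlI y z) (ysI z)) (ysI y))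
    (Iv.half (Iv.add (xlI (Iv.add (Iv.ex z) (c2I y))) (xlI (Iv.add (invI z) (c2I y)))))
def mmI (y z : ℕ) : Iv := Iv.div (MMI y z) (s2I y)
def qqI (y z : ℕ) : Iv := Iv.div (QQI y z) (s2I y)
def ioI (y z : ℕ) : Iv := Iv.div (NNI y z) (s2I y)
def thInfI (y : ℕ) : Iv := Iv.div (Iv.nmul 2 (c2I y)) (s2I y)
def thI (y z : ℕ) : Iv := Iv.sub (thInfI y) (ddI y z)
def t2I (y z1 z2 : ℕ) : Iv :=
  Iv.add (thI y z1) (Iv.mul (Iv.div (s2I y) (sqI (NNI y z1))) (Iv.sub (c2I z2) (c2I z1)))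

theorem one_le_rv {k : ℕ} (h : 4294967296 ≤ k) : 1 ≤ rv k := by
  unfold rv
  rw [le_div_iff₀ (by positivity)]
  have : (4294967296 : ℝ) ≤ k := by exact_mod_cast h
  norm_num; linarith

theorem ok_le_rv {k : ℕ} (h : 4563402752 ≤ k) : 17 / 16 ≤ rv k := by
  unfold rv
  rw [le_div_iff₀ (by positivity)]
  have : (4563402752 : ℝ) ≤ k := by exact_mod_cast h
  norm_num; linarith

theorem rv_mono {a b : ℕ} (h : a ≤ b) : rv a ≤ rv b := by
  unfold rv
  have : (a : ℝ) ≤ b := by exact_mod_cast h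
  gcongr

theorem yv_mono {a b : ℕ} (ha : 4294967296 ≤ a) (h : a ≤ b) : yv a ≤ yv b := by
  unfold yv
  have := Real.log_le_log (by linarith [one_le_rv ha]) (rv_mono h)
  linarith

theorem yv_K0 : yv 9663676416 = y0 := by
  unfold yv rv y0
  have : ((9663676416 : ℕ) : ℝ) / 2 ^ 32 = (3 / 2) ^ 2 := by norm_num
  rw [this, Real.log_pow]; push_cast; ring

theorem yv_one : yv 4294967296 = 0 := by
  unfold yv rv
  have : ((4294967296 : ℕ) : ℝ) / 2 ^ 32 = 1 := by norm_num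
  rw [this, Real.log_one]; ring

section one
variable {k : ℕ} (h : 1 ≤ rv k)
include h

theorem yv_nonneg : 0 ≤ yv k := by
  unfold yv; have := Real.log_nonneg h; linarith

theorem two_yv : 2 * yv k = Real.log (rv k) := by unfold yv; ring

theorem exp_two_yv : exp (2 * yv k) = rv k := by
  rw [two_yv h, Real.exp_log (by linarith)]

theorem exp_neg_two_yv : exp (-(2 * yv k)) = 1 / rv k := by
  rw [Real.exp_neg, exp_two_yv h, one_div]

theorem mem_exI : (Iv.ex k).Mem (exp (2 * yv k)) := (mem_ex k).congr (exp_two_yv h).symm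

theorem mem_invI : (invI k).Mem (exp (-(2 * yv k))) :=
  (mem_div mem_one (mem_ex k) (by change _ ≤ rv k; linarith)).congr (exp_neg_two_yv h).symm

theorem mem_c2I : (c2I k).Mem (cosh (2 * yv k)) :=
  (mem_half (mem_add (mem_exI h) (mem_invI h))).congr (Real.cosh_eq _).symm

theorem mem_s2I : (s2I k).Mem (sinh (2 * yv k)) :=
  (mem_half (mem_sub (mem_exI h) (mem_invI h)
    (Real.exp_le_exp.mpr (by linarith [yv_nonneg h])))).congr (Real.sinh_eq _).symm

theorem mem_l2I : (l2I k).Mem (2 * yv k) :=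
  (mem_log (mem_ex k) h).congr (two_yv h).symm

theorem mem_yI : (yI k).Mem (yv k) := mem_half (mem_log (mem_ex k) h)

theorem tanh_yv : tanh (yv k) = (rv k - 1) / (rv k + 1) := by
  rw [tanh_eq_exp, exp_neg_two_yv h]
  have : 0 < rv k := by linarith
  field_simp

theorem mem_tI : (tI k).Mem (tanh (yv k)) :=
  (mem_div (mem_sub (mem_ex k) mem_one h) (mem_add (mem_ex k) mem_one)
    (by change _ ≤ rv k + 1; linarith)).congr (tanh_yv h).symm

theorem mem_lcI : (lcI k).Mem (lc (yv k)) := by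
  have e := lc_eq' (yv k)
  have h1 := log_two_le_lc (yv k)
  have h2 : 0 < Real.log 2 := Real.log_pos (by norm_num)
  exact (mem_sub (mem_log (mem_add mem_one (mem_exI h)) (by linarith [Real.exp_pos (2 * yv k)]))
    (mem_yI h) (by linarith)).congr e.symm

theorem mem_ppI : (ppI k).Mem (pp (yv k)) := mem_mul (mem_yI h) (mem_tI h)

theorem mem_HyI : (HyI k).Mem (Hy (yv k)) :=
  mem_sub (mem_lcI h) (mem_ppI h) (by have := Hy_pos (yv k); unfold Hy at this; linarith)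

theorem mem_phI : (phI k).Mem (ph (yv k)) := mem_sub mem_ln2 (mem_HyI h) (Hy_le_log_two _)

theorem mem_muI : (muI k).Mem (mu (yv k)) := by
  have h1 := log_two_le_lc (yv k)
  have h2 := Real.log_two_gt_d9
  refine (mem_div (mem_half (mem_sub (mem_c2I h) mem_one (Real.one_le_cosh _))) (mem_lcI h)
    (by linarith)).congr ?_
  unfold mu
  rw [Real.cosh_two_mul, Real.cosh_sq]; ring

theorem mem_ysI : (ysI k).Mem (yv k * sinh (2 * yv k)) := mem_mul (mem_yI h) (mem_s2I h)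

end one

section ok
variable {k : ℕ} (h : 17 / 16 ≤ rv k)
include h

theorem ok_one : 1 ≤ rv k := by linarith

theorem two_yv_ge : 1 / 64 ≤ 2 * yv k := by
  rw [two_yv (ok_one h)]
  have h1 := Real.one_sub_inv_le_log_of_pos (x := rv k) (by linarith)
  have h2 : (rv k)⁻¹ ≤ (17 / 16 : ℝ)⁻¹ := inv_anti₀ (by norm_num) h
  norm_num at h2
  linarith

theorem yv_pos : 0 < yv k := by linarith [two_yv_ge h]

theorem sinh_yv_ge : 1 / 64 ≤ sinh (2 * yv k) :=
  (two_yv_ge h).trans (Real.self_le_sinh_iff.mpr (by linarith [two_yv_ge h]))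

theorem tanh_yv_ge : 1 / 64 ≤ tanh (yv k) := by
  rw [tanh_yv (ok_one h), le_div_iff₀ (by linarith)]; linarith

theorem mem_lamI : (lamI k).Mem (lam (yv k)) := by
  refine (mem_add mem_one (mem_div (mem_s2I (ok_one h)) (mem_l2I (ok_one h))
    (two_yv_ge h))).congr ?_
  unfold lam
  rw [if_neg (yv_pos h).ne']

theorem mem_etaI : (etaI k).Mem (eta (yv k)) :=
  mem_add (mem_ppI (ok_one h)) (mem_mul (mem_lamI h) (mem_HyI (ok_one h)))

theorem mem_bbI : (bbI k).Mem (bb (yv k)) := by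
  have := bb_nonneg (yv_pos h).le
  unfold bb at this ⊢
  exact (mem_sub (mem_etaI h) (mem_nmul 2 mem_ln2) (by push_cast; linarith)).congr
    (by push_cast; ring)

theorem mem_gapI {w : ℕ} (hw : 1 ≤ rv w) : (gapI k w).Mem (gap (yv k) (yv w)) := by
  have := gap_nonneg (yv_pos h).le (yv w)
  unfold gap at this ⊢
  exact mem_sub (mem_add (mem_ppI hw) (mem_mul (mem_lamI h) (mem_HyI hw))) (mem_etaI h)
    (by linarith)

theorem mem_LLI : (LLI k).Mem (LL (yv k)) :=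
  mem_div (mem_HyI (ok_one h)) (mem_tI (ok_one h)) (tanh_yv_ge h)

theorem mem_kapI : (kapI k).Mem (kap (yv k)) :=
  mem_add (mem_yI (ok_one h)) (mem_mul (mem_muI (ok_one h)) (mem_LLI h))

theorem mem_thInfI : (thInfI k).Mem (2 * cosh (2 * yv k) / sinh (2 * yv k)) :=
  (mem_div (mem_nmul 2 (mem_c2I (ok_one h))) (mem_s2I (ok_one h)) (sinh_yv_ge h)).congr
    (by push_cast; ring)

end ok

theorem mem_lamI0 {k : ℕ} (h : k = 4294967296 ∨ 17 / 16 ≤ rv k) : (lamI0 k).Mem (lam (yv k)) := by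
  unfold lamI0
  by_cases hk : k = 4294967296
  · subst hk
    rw [yv_one, lam_zero]
    exact mem_two
  · have : Nat.beq k 4294967296 = false := by
      cases hb : Nat.beq k 4294967296
      · rfl
      · exact absurd (Nat.eq_of_beq_eq_true hb) hk
    rw [this]
    exact mem_lamI (h.resolve_left hk)

theorem one_le_of_or {k : ℕ} (h : k = 4294967296 ∨ 17 / 16 ≤ rv k) : 1 ≤ rv k := by
  rcases h with h | h
  · exact one_le_rv h.ge
  · exact ok_one h

theorem mem_psiI {k : ℕ} (h : k = 4294967296 ∨ 17 / 16 ≤ rv k) : (psiI k).Mem (psi (yv k)) := by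
  have h1 := one_le_of_or h
  have := psi_nonneg (yv_nonneg h1)
  unfold psi at this ⊢
  exact mem_sub (mem_mul (mem_lamI0 h) (mem_phI h1)) (mem_ppI h1) (by linarith)

theorem mem_sqI {a : Iv} {x : ℝ} (h : a.Mem x) : (sqI a).Mem (x ^ 2) :=
  (mem_mul h h).congr (by ring)

theorem mem_xlI {a : Iv} {x : ℝ} (h : a.Mem x) (hx : 1 ≤ x) : (xlI a).Mem (x * Real.log x) :=
  mem_mul h (mem_log h hx)

section pair
variable {y z : ℕ} (hy : 17 / 16 ≤ rv y) (hz : 1 ≤ rv z)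
include hy hz

theorem mem_NNI : (NNI y z).Mem (NN (yv y) (yv z)) := mem_add (mem_c2I hz) (mem_c2I (ok_one hy))

theorem mem_ddI : (ddI y z).Mem (dd (yv y) (yv z)) :=
  mem_div (mem_s2I (ok_one hy)) (mem_NNI hy hz) (by linarith [two_le_NN (yv y) (yv z)])

theorem mem_uuI : (uuI y z).Mem (uu (yv y) (yv z)) :=
  mem_sqI (mem_div (mem_s2I hz) (mem_NNI hy hz) (by linarith [two_le_NN (yv y) (yv z)]))

theorem mem_nlI : (nlI y z).Mem (NN (yv y) (yv z) / 2 * Real.log (2 * NN (yv y) (yv z))) :=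
  mem_mul (mem_half (mem_NNI hy hz))
    (mem_log ((mem_nmul 2 (mem_NNI hy hz)).congr (by push_cast; ring))
      (by linarith [two_le_NN (yv y) (yv z)]))

theorem mem_QQI : (QQI y z).Mem (QQ (yv y) (yv z)) := by
  have := QQ_nonneg (yv y) (yv z)
  unfold QQ at this ⊢
  exact (mem_sub (mem_nlI hy hz) (mem_add (mem_ysI hz) (mem_ysI (ok_one hy)))
    (by linarith)).congr (by ring)

theorem mem_MMI : (MMI y z).Mem (MM (yv y) (yv z)) := by
  have := MM_nonneg (yv_pos hy).le (yv z)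
  have h1 := Real.one_le_cosh (2 * yv y)
  have h2 := Real.exp_pos (2 * yv z)
  have h3 := Real.exp_pos (-(2 * yv z))
  unfold MM at this ⊢
  exact mem_sub (mem_add (mem_add (mem_nlI hy hz) (mem_ysI hz)) (mem_ysI (ok_one hy)))
    (mem_half (mem_add
      (mem_xlI (mem_add (mem_exI hz) (mem_c2I (ok_one hy))) (by linarith))
      (mem_xlI (mem_add (mem_invI hz) (mem_c2I (ok_one hy))) (by linarith)))) (by linarith)

theorem mem_mmI : (mmI y z).Mem (mm (yv y) (yv z)) :=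
  mem_div (mem_MMI hy hz) (mem_s2I (ok_one hy)) (sinh_yv_ge hy)

theorem mem_qqI : (qqI y z).Mem (qq (yv y) (yv z)) :=
  mem_div (mem_QQI hy hz) (mem_s2I (ok_one hy)) (sinh_yv_ge hy)

theorem mem_ioI : (ioI y z).Mem (io (yv y) (yv z)) :=
  mem_div (mem_NNI hy hz) (mem_s2I (ok_one hy)) (sinh_yv_ge hy)

theorem mem_thI : (thI y z).Mem (th (yv y) (yv z)) := by
  have := th_pos (yv_pos hy) (yv z)
  unfold th at this ⊢
  exact mem_sub (mem_thInfI hy) (mem_ddI hy hz) (by linarith)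

theorem mem_t2I {z2 : ℕ} (h2 : rv z ≤ rv z2) : (t2I y z z2).Mem
    (th (yv y) (yv z) + sinh (2 * yv y) / NN (yv y) (yv z) ^ 2
      * (cosh (2 * yv z2) - cosh (2 * yv z))) := by
  have hz2 : 1 ≤ rv z2 := hz.trans h2
  have h3 : yv z ≤ yv z2 := by
    unfold yv
    have := Real.log_le_log (by linarith) h2
    linarith
  have h4 : cosh (2 * yv z) ≤ cosh (2 * yv z2) := by
    rw [Real.cosh_le_cosh, abs_of_nonneg (by linarith [yv_nonneg hz]),
      abs_of_nonneg (by linarith [yv_nonneg hz2])]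
    linarith
  exact mem_add (mem_thI hy hz) (mem_mul
    (mem_div (mem_s2I (ok_one hy)) (mem_sqI (mem_NNI hy hz))
      (by nlinarith [two_le_NN (yv y) (yv z)]))
    (mem_sub (mem_c2I hz2) (mem_c2I hz) h4))

end pair

end Vale.Agent.P322
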