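import Vale.Agent.P322.A2
import Vale.Agent.P322.Const

/-! Integration of the differential inequalities. -/

namespace Vale.Agent.P322

open Real

lemma ode_mono {f f' : ℝ → ℝ} {a b : ℝ} (hab : a ≤ b)
    (hf : ∀ x ∈ Set.Icc a b, HasDerivAt f (f' x) x) (h0 : ∀ x ∈ Set.Icc a b, 0 ≤ f' x) :
    f a ≤ f b := by
  have h : MonotoneOn f (Set.Icc a b) :=
    monotoneOn_of_deriv_nonneg (convex_Icc a b)
      (fun x hx => (hf x hx).continuousAt.continuousWithinAt)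
      (fun x hx => (hf x (interior_subset hx)).differentiableAt.differentiableWithinAt)
      (fun x hx => by rw [(hf x (interior_subset hx)).deriv]; exact h0 x (interior_subset hx))
  exact h ⟨le_rfl, hab⟩ ⟨hab, le_rfl⟩ hab

lemma ode_sinh_le {y : ℝ} (h0 : 0 ≤ y) (h1 : y ≤ 3 / 4) : sinh (2 * y) ≤ 2 * y * (1 + y ^ 2) := by
  have a1 := Real.exp_bound (x := y) (by rw [abs_of_nonneg h0]; linarith) (n := 4) (by norm_num)
  have a2 := Real.exp_bound (x := -y) (by rw [abs_neg, abs_of_nonneg h0]; linarith) (n := 4)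
    (by norm_num)
  simp only [Finset.sum_range_succ, Finset.sum_range_zero, Nat.factorial, abs_neg,
    abs_of_nonneg h0] at a1 a2
  norm_num at a1 a2
  have b1 := abs_le.1 a1
  have b2 := abs_le.1 a2
  have hy2 : y ^ 2 ≤ 9 / 16 := by nlinarith
  have hy3 : 0 ≤ y ^ 3 := by positivity
  have hy4 : y ^ 4 ≤ 3 / 4 * y ^ 3 := by nlinarith
  have hy4' : y ^ 4 ≤ 9 / 16 * y ^ 2 := by nlinarith
  have hs : sinh y ≤ y * (1 + y ^ 2 / 4) := by rw [sinh_eq]; nlinarith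
  have hc : cosh y ≤ 1 + 3 / 5 * y ^ 2 := by rw [cosh_eq]; nlinarith
  have hs0 : 0 ≤ sinh y := sinh_nonneg_iff.2 h0
  rw [sinh_two_mul, mul_assoc, mul_assoc]
  refine mul_le_mul_of_nonneg_left ?_ (by norm_num)
  calc sinh y * cosh y ≤ y * (1 + y ^ 2 / 4) * (1 + 3 / 5 * y ^ 2) :=
        mul_le_mul hs hc (cosh_pos y).le (by positivity)
    _ = y * ((1 + y ^ 2 / 4) * (1 + 3 / 5 * y ^ 2)) := by ring
    _ ≤ y * (1 + y ^ 2) := mul_le_mul_of_nonneg_left (by nlinarith) h0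

theorem ode_num {y : ℝ} (hy : y0 ≤ y) :
    sinh (2 * y) * (9 / 10 + y) * (Hy y - 1 / 2) ≤ (2 * log 2 - 1 - xi) * y := by
  have hy0 := y0_bounds.1
  have hl1 := Real.log_two_gt_d9
  have hl2 := Real.log_two_lt_d9
  have hp : 0 < y := by linarith
  have hs0 : 0 ≤ sinh (2 * y) := sinh_nonneg_iff.2 (by linarith)
  have hR : 0.36129 * y ≤ (2 * log 2 - 1 - xi) * y :=
    mul_le_mul_of_nonneg_right (by unfold xi; linarith) hp.le
  refine le_trans ?_ hR
  rcases le_total (Hy y - 1 / 2) 0 with hH | hH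
  · have := mul_nonpos_of_nonneg_of_nonpos (mul_nonneg hs0 (by linarith : 0 ≤ 9 / 10 + y)) hH
    linarith
  have h34 : y ≤ 3 / 4 := by
    by_contra hc
    have h1 := Hy_anti (by norm_num : (0:ℝ) ≤ 3 / 4) (not_le.1 hc).le
    have h2 := ph_ge_poly (3 / 4)
    unfold ph at h2
    norm_num at h2
    linarith
  have h1 := ode_sinh_le hp.le h34
  have h2 : Hy y - 1 / 2 ≤ 0.19315 - y ^ 2 / 2 + y ^ 4 / 4 := by
    have := ph_ge_poly y
    unfold ph at this
    linarith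
  have h3 : (1 + y ^ 2) * (9 / 10 + y) * (0.19315 - y ^ 2 / 2 + y ^ 4 / 4) ≤ 0.18064 := by
    obtain ⟨s, rfl⟩ : ∃ s, y = 2 / 5 + s := ⟨y - 2 / 5, by ring⟩
    have s0 : 0 ≤ s := by linarith
    have s1 : s ≤ 7 / 20 := by linarith
    have s2 : s ^ 2 ≤ 7 / 20 * s := by nlinarith
    have s3 : s ^ 3 ≤ 7 / 20 * s ^ 2 := by nlinarith
    have s4 : s ^ 4 ≤ 7 / 20 * s ^ 3 := by nlinarith [pow_nonneg s0 3]
    have s5 : s ^ 5 ≤ 7 / 20 * s ^ 4 := by nlinarith [pow_nonneg s0 4]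
    have s6 : s ^ 6 ≤ 7 / 20 * s ^ 5 := by nlinarith [pow_nonneg s0 5]
    have s7 : s ^ 7 ≤ 7 / 20 * s ^ 6 := by nlinarith [pow_nonneg s0 6]
    nlinarith [pow_nonneg s0 2, pow_nonneg s0 3, pow_nonneg s0 4, pow_nonneg s0 5,
      pow_nonneg s0 6, pow_nonneg s0 7]
  calc sinh (2 * y) * (9 / 10 + y) * (Hy y - 1 / 2)
      ≤ 2 * y * (1 + y ^ 2) * (9 / 10 + y) * (0.19315 - y ^ 2 / 2 + y ^ 4 / 4) := by gcongr
    _ = 2 * y * ((1 + y ^ 2) * (9 / 10 + y) * (0.19315 - y ^ 2 / 2 + y ^ 4 / 4)) := by ring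
    _ ≤ 2 * y * 0.18064 := by gcongr
    _ ≤ _ := by linarith

lemma ode_w {y : ℝ} (hy : 0 < y) :
    HasDerivAt (fun y => (pp y)⁻¹) (-(lam y * ((1 - tanh y ^ 2) / tanh y) * (pp y)⁻¹)) y := by
  have ht := tanh_pos' hy
  have hp : pp y ≠ 0 := by unfold pp; positivity
  refine ((hasDerivAt_pp y).inv hp).congr_deriv ?_
  unfold pp
  field_simp

lemma ode_V {y : ℝ} (hy : 0 < y) :
    HasDerivAt (fun y => (2 * sinh y ^ 2 * (9 / 10 + y))⁻¹)
      (-((2 * cosh y * (9 / 10 + y) + sinh y) / (2 * sinh y ^ 3 * (9 / 10 + y) ^ 2))) y := by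
  have hs : 0 < sinh y := sinh_pos_iff.2 hy
  have h := ((((hasDerivAt_sinh y).pow 2).const_mul 2).mul
    ((hasDerivAt_id y).const_add (9 / 10))).inv
    (by simp only [Pi.mul_apply, Pi.pow_apply, id]; positivity)
  refine h.congr_deriv ?_
  simp only [Pi.mul_apply, Pi.pow_apply, id]
  field_simp
  push_cast
  ring

lemma ode_V_bound {y : ℝ} (hy : 2 / 5 ≤ y) :
    (2 * cosh y * (9 / 10 + y) + sinh y) / (2 * sinh y ^ 3 * (9 / 10 + y) ^ 2)
      ≤ (1 - tanh y ^ 2) / tanh y * (pp y)⁻¹ := by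
  have hy0 : 0 < y := by linarith
  have hs : 0 < sinh y := sinh_pos_iff.2 hy0
  have hc := cosh_pos y
  have e : (1 - tanh y ^ 2) / tanh y * (pp y)⁻¹ = 1 / (y * sinh y ^ 2) := by
    rw [one_sub_tanh_sq, pp, tanh_eq_sinh_div_cosh]; field_simp
  rw [e, div_le_div_iff₀ (by positivity) (by positivity)]
  have h1 : y * cosh y * (1 + y) ≤ (y * (1 + y) + 1) * sinh y := by
    have a1 : 1 + 2 * y + (2 * y) ^ 2 / 2 ≤ exp (2 * y) :=
      Real.quadratic_le_exp_of_nonneg (by linarith)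
    have a2 : exp y = exp (2 * y) * exp (-y) := by rw [← exp_add]; congr 1; ring
    have a3 := exp_pos (-y)
    rw [cosh_eq, sinh_eq, a2]
    nlinarith [mul_le_mul_of_nonneg_right a1 a3.le]
  have h2 : y * cosh y * (9 / 10 + y) + y * sinh y / 2 ≤ (9 / 10 + y) ^ 2 * sinh y := by
    refine le_of_mul_le_mul_right ?_ (by linarith : 0 < 1 + y)
    have a1 := mul_le_mul_of_nonneg_right h1 (by linarith : 0 ≤ 9 / 10 + y)
    have a2 : (y * (1 + y) + 1) * (9 / 10 + y) + y / 2 * (1 + y) ≤ (9 / 10 + y) ^ 2 * (1 + y) := by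
      nlinarith
    nlinarith [mul_le_mul_of_nonneg_right a2 hs.le]
  nlinarith [mul_le_mul_of_nonneg_right h2 (sq_nonneg (sinh y))]

lemma ode_phase1 (X : ℝ) (e D : ℝ → ℝ)
    (he : ∀ y, 0 < y → HasDerivAt e (-(D y * (1 - tanh y ^ 2) / tanh y)) y)
    (h0 : ∀ y, 0 < y → 0 ≤ e y)
    (h3 : ∀ y, y0 ≤ y → GG X y - lam y * e y ≤ D y) :
    ∀ y, y0 ≤ y → Hy X - e y ≤ ph y := by
  intro y hy
  have hy0 := y0_bounds.1
  have hl1 := Real.log_two_gt_d9
  have hl2 := Real.log_two_lt_d9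
  have hyp : 0 < y := by linarith
  set c : ℝ := 2 * log 2 - 1 - xi with hc
  have hc0 : 0 ≤ c := by rw [hc]; unfold xi; linarith
  have hc1 : c ≤ 1 := by rw [hc]; unfold xi; linarith
  have hx1 := tanh_sq_lt_one' X
  have hx0 := sq_nonneg (tanh X)
  set Θ : ℝ → ℝ := fun s => (pp s)⁻¹ * (Hy s - e s - ph X + tanh X ^ 2 * (1 / 2 - Hy s))
    + tanh X ^ 2 * c * (2 * sinh s ^ 2 * (9 / 10 + s))⁻¹ with hΘ
  have hmono : ∀ Y, y ≤ Y → Θ y ≤ Θ Y := fun Y hY => by
    refine ode_mono hY (fun s hs => (((ode_w (by linarith [hs.1])).mul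
      ((((hasDerivAt_Hy s).sub (he s (by linarith [hs.1]))).sub_const (ph X)).add
        (((hasDerivAt_Hy s).const_sub (1 / 2)).const_mul (tanh X ^ 2)))).add
      ((ode_V (by linarith [hs.1])).const_mul (tanh X ^ 2 * c)))) fun s hs => ?_
    have hsp : 0 < s := by linarith [hs.1]
    have ht := tanh_pos' hsp
    have hp : 0 < pp s := by unfold pp; positivity
    have hk : 0 ≤ (1 - tanh s ^ 2) / tanh s * (pp s)⁻¹ := by
      have := tanh_sq_lt_one' s
      exact mul_nonneg (div_nonneg (by linarith) ht.le) (by positivity)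
    have b1 := mul_le_mul_of_nonneg_left (ode_V_bound (y := s) (by linarith [hs.1]))
      (mul_nonneg hx0 hc0)
    have b2 : tanh X ^ 2 * c ≤ D s - pp s + tanh X ^ 2 * pp s
        - lam s * (Hy s - e s - ph X + tanh X ^ 2 * (1 / 2 - Hy s)) := by
      have a1 := h3 s (by linarith [hs.1])
      have a2 := mul_le_mul_of_nonneg_right (two_le_lam s) (sub_nonneg.2 (ph_ge_tanh_sq X))
      have a3 : 0 ≤ xi * (tanh X ^ 2 * tanh X ^ 2) := by unfold xi; positivity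
      unfold GG bb eta at a1
      unfold ph at a2 ⊢
      rw [hc]
      nlinarith
    have b3 := mul_le_mul_of_nonneg_right b2 hk
    have b4 : s * (1 - tanh s ^ 2) = pp s * ((1 - tanh s ^ 2) / tanh s) := by
      unfold pp; field_simp
    simp only [Pi.sub_apply, Pi.add_apply]
    rw [b4, mul_div_assoc (D s)]
    generalize (1 - tanh s ^ 2) / tanh s = k at *
    nlinarith
  have hsy : 0 < sinh y := sinh_pos_iff.2 hyp
  have hty := tanh_pos' hyp
  have hbd : ∀ Y, y ≤ Y → Θ Y ≤ (2 / tanh y + 1 / sinh y ^ 2) / Y := fun Y hY => by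
    have hYp : 0 < Y := by linarith
    have a1 : (pp Y)⁻¹ ≤ (Y * tanh y)⁻¹ := by
      unfold pp
      exact inv_anti₀ (by positivity) (mul_le_mul_of_nonneg_left (tanh_mono' hY) hYp.le)
    have a2 : Hy Y - e Y - ph X + tanh X ^ 2 * (1 / 2 - Hy Y) ≤ 2 := by
      have := Hy_le_log_two Y
      have := h0 Y hYp
      have := ph_nonneg X
      have := Hy_pos Y
      nlinarith
    have a3 : (2 * sinh Y ^ 2 * (9 / 10 + Y))⁻¹ ≤ (sinh y ^ 2 * Y)⁻¹ := by
      refine inv_anti₀ (by positivity) ?_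
      have := pow_le_pow_left₀ hsy.le (sinh_le_sinh.2 hY) 2
      nlinarith [sq_nonneg (sinh y)]
    have a4 : tanh X ^ 2 * c ≤ 1 := by nlinarith
    have a5 : 0 ≤ (pp Y)⁻¹ := inv_nonneg.2 (pp_nonneg Y)
    have a6 : 0 ≤ (2 * sinh Y ^ 2 * (9 / 10 + Y))⁻¹ := by positivity
    have a7 : (2 / tanh y + 1 / sinh y ^ 2) / Y = (Y * tanh y)⁻¹ * 2 + (sinh y ^ 2 * Y)⁻¹ := by
      field_simp
    rw [a7]
    simp only [hΘ]
    nlinarith [mul_le_mul_of_nonneg_left a2 a5, mul_le_mul_of_nonneg_right a4 a6]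
  have hΘ0 : Θ y ≤ 0 := by
    have ht : Filter.Tendsto (fun Y : ℝ => (2 / tanh y + 1 / sinh y ^ 2) / Y) Filter.atTop
        (nhds 0) := Filter.tendsto_id.const_div_atTop _
    exact ge_of_tendsto ht ((Filter.eventually_ge_atTop y).mono fun Y hY =>
      (hmono Y hY).trans (hbd Y hY))
  have hp : 0 < pp y := by unfold pp; positivity
  have hn : (pp y)⁻¹ * (Hy y - 1 / 2) ≤ c * (2 * sinh y ^ 2 * (9 / 10 + y))⁻¹ := by
    have a1 := ode_num hy
    have hch := cosh_pos y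
    rw [sinh_two_mul, ← hc] at a1
    rw [← div_eq_inv_mul, ← div_eq_mul_inv, div_le_div_iff₀ hp (by positivity), pp,
      tanh_eq_sinh_div_cosh, ← mul_div_assoc, ← mul_div_assoc, le_div_iff₀ hch]
    nlinarith [mul_le_mul_of_nonneg_right a1 hsy.le]
  have hfin : (pp y)⁻¹ * (Hy y - e y - ph X) ≤ 0 := by
    simp only [hΘ] at hΘ0
    nlinarith [mul_le_mul_of_nonneg_left hn hx0]
  have := nonpos_of_mul_nonpos_right hfin (inv_pos.2 hp)
  unfold ph at this ⊢
  linarith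

theorem ode_main (X : ℝ) (e D : ℝ → ℝ)
    (he : ∀ y, 0 < y → HasDerivAt e (-(D y * (1 - tanh y ^ 2) / tanh y)) y)
    (h0 : ∀ y, 0 < y → 0 ≤ e y)
    (h1 : ∀ y, 0 < y → y ≤ y0 → tg y (Hy X - e y) ≤ D y)
    (h3 : ∀ y, y0 ≤ y → GG X y - lam y * e y ≤ D y) :
    ∀ y, 0 < y → Hy X - e y ≤ ph y := by
  intro y hyp
  have hph := ode_phase1 X e D he h0 h3
  rcases le_total y0 y with hy | hy
  · exact hph y hy
  have hmono : (pp y)⁻¹ * (Hy X - e y - ph y) ≤ (pp y0)⁻¹ * (Hy X - e y0 - ph y0) := by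
    refine ode_mono (f := fun s => (pp s)⁻¹ * (Hy X - e s - ph s)) hy
      (fun s hs => (ode_w (by linarith [hs.1])).mul
        (((he s (by linarith [hs.1])).const_sub (Hy X)).sub (hasDerivAt_ph s))) fun s hs => ?_
    have hsp : 0 < s := by linarith [hs.1]
    have ht := tanh_pos' hsp
    have hp : 0 < pp s := by unfold pp; positivity
    have hk : 0 ≤ (1 - tanh s ^ 2) / tanh s * (pp s)⁻¹ := by
      have := tanh_sq_lt_one' s
      exact mul_nonneg (div_nonneg (by linarith) ht.le) (by positivity)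
    have a1 := h1 s hsp hs.2
    unfold tg at a1
    have b3 := mul_le_mul_of_nonneg_right a1 hk
    have b4 : s * (1 - tanh s ^ 2) = pp s * ((1 - tanh s ^ 2) / tanh s) := by
      unfold pp; field_simp
    rw [b4, mul_div_assoc (D s)]
    generalize (1 - tanh s ^ 2) / tanh s = k at *
    nlinarith
  have h2 : (pp y0)⁻¹ * (Hy X - e y0 - ph y0) ≤ 0 :=
    mul_nonpos_of_nonneg_of_nonpos (inv_nonneg.2 (pp_nonneg _)) (by linarith [hph y0 le_rfl])
  have hp : 0 < pp y := by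
    have := tanh_pos' hyp
    unfold pp; positivity
  have := nonpos_of_mul_nonpos_right (hmono.trans h2) (inv_pos.2 hp)
  linarith

end Vale.Agent.P322
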