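import Vale.Agent.P322.Cube
import Vale.Agent.P322.Ode
import Vale.Agent.P322.Semi
import Vale.Agent.P322.Bridge

namespace Vale.Agent.P322

open Real

theorem ck_core (n : ℕ) (f : (Fin n → ℤˣ) → ℤˣ) (hf : ∃ x x', f x ≠ f x') (ρ : ℝ)
    (h0 : 0 < ρ) (h1 : ρ < 1) :
    Hb (avg (fun x => sg (f x))) - avg (fun y => Hb (TT ρ f y)) ≤ log 2 - Hb ρ := by
  have habs : ∀ s : ℝ, |tanh s| < 1 := fun s => by
    have := tanh_sq_lt_one' s
    rw [abs_lt]; constructor <;> nlinarith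
  have hta : ∀ (s : ℝ) (y : Fin n → ℤˣ), tanh (artanh (TT (tanh s) f y)) = TT (tanh s) f y :=
    fun s y => by
      have := abs_lt.mp (abs_TT_lt_one (habs s) f hf y)
      exact tanh_artanh ⟨this.1, this.2⟩
  obtain ⟨X, hX⟩ := exists_tanh_eq_avg (fun y : Fin n → ℤˣ => artanh (TT (tanh 0) f y))
  have hX' : tanh X = avg (fun x => sg (f x)) := by
    rw [hX, ← avg_TT (tanh 0) f]; congr 1; funext y; exact hta 0 y
  have hXs : ∀ s : ℝ, tanh X = avg (fun y => tanh (artanh (TT (tanh s) f y))) := fun s => by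
    rw [hX', ← avg_TT (tanh s) f]; congr 1; funext y; exact (hta s y).symm
  have key := ode_main X (fun s => ent (fun y => artanh (TT (tanh s) f y)))
    (fun s => dir (fun y => artanh (TT (tanh s) f y)))
    (fun s hs => hasDerivAt_ent f hf hs)
    (fun s _ => (avg_Hy_pos _).le)
    (fun s hs hs' => (s13 n _ X (hXs s)).1 s hs.le hs')
    (fun s hs => (s13 n _ X (hXs s)).2 s hs)
  have hρ : tanh (artanh ρ) = ρ := tanh_artanh ⟨by linarith, h1⟩
  have hpos : 0 < artanh ρ := by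
    by_contra hc
    have := tanh_mono' (not_lt.mp hc)
    rw [hρ, tanh_zero] at this
    linarith
  have k := key (artanh ρ) hpos
  have e1 : ent (fun y => artanh (TT (tanh (artanh ρ)) f y)) = avg (fun y => Hb (TT ρ f y)) := by
    unfold ent
    congr 1; funext y
    rw [← Hb_tanh, hta, hρ]
  simp only [e1] at k
  rw [← hX', Hb_tanh]
  have e2 : Hb ρ = Hy (artanh ρ) := by rw [← Hb_tanh, hρ]
  rw [e2]
  unfold ph at k
  exact k

theorem ck_main (n : ℕ) (f : (Fin n → ℤˣ) → ℤˣ) (ε : ℝ) (h0 : 0 ≤ ε) (h1 : ε ≤ 1 / 2) :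
    mutualInfo (joint n ε f) ≤ 1 - h2 ε :=
  main_of_core ck_core n f ε h0 h1

end Vale.Agent.P322
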