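import Vale.Agent.P322.A2

/-! Pair coordinates: identities and elementary monotonicity. -/

namespace Vale.Agent.P322

open Real

theorem two_le_NN (y z : ℝ) : 2 ≤ NN y z := by
  unfold NN
  linarith [one_le_cosh (2 * z), one_le_cosh (2 * y)]
theorem NN_pos (y z : ℝ) : 0 < NN y z := by linarith [two_le_NN y z]
theorem NN_comm (y z : ℝ) : NN y z = NN z y := add_comm _ _
theorem p1_cosh_mul (y z : ℝ) : cosh (z + y) * cosh (z - y) = NN y z / 2 := by
  rw [cosh_add, cosh_sub, NN, cosh_two_mul, cosh_two_mul]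
  have h1 := cosh_sq z
  have h2 := cosh_sq y
  linear_combination (cosh y ^ 2 - 1 / 2) * h1 + (sinh z ^ 2 + 1 / 2) * h2
theorem p1_tanh_sub (a b : ℝ) : tanh a - tanh b = sinh (a - b) / (cosh a * cosh b) := by
  have := cosh_pos a
  have := cosh_pos b
  rw [tanh_eq_sinh_div_cosh, tanh_eq_sinh_div_cosh, sinh_sub]
  field_simp
theorem p1_tanh_add (a b : ℝ) : tanh a + tanh b = sinh (a + b) / (cosh a * cosh b) := by
  have := cosh_pos a
  have := cosh_pos b
  rw [tanh_eq_sinh_div_cosh, tanh_eq_sinh_div_cosh, sinh_add]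
  field_simp
theorem tanh_sub_tanh (y z : ℝ) : tanh (z + y) - tanh (z - y) = 2 * dd y z := by
  have := NN_pos y z
  rw [p1_tanh_sub, p1_cosh_mul, show z + y - (z - y) = 2 * y by ring, dd]
  field_simp
theorem tanh_add_tanh (y z : ℝ) :
    tanh (z + y) + tanh (z - y) = 2 * (sinh (2 * z) / NN y z) := by
  have := NN_pos y z
  rw [p1_tanh_add, p1_cosh_mul, show z + y + (z - y) = 2 * z by ring]
  field_simp
theorem p1_lc_add (y z : ℝ) : lc (z + y) + lc (z - y) = log (2 * NN y z) := by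
  have h1 := cosh_pos (z + y)
  have h2 := cosh_pos (z - y)
  rw [lc, lc, ← log_mul (by positivity) (by positivity)]
  congr 1
  linear_combination 4 * p1_cosh_mul y z
theorem Hy_add_Hy (y z : ℝ) : Hy (z + y) + Hy (z - y) = 2 * (QQ y z / NN y z) := by
  have hN := NN_pos y z
  have h1 := tanh_sub_tanh y z
  have h2 := tanh_add_tanh y z
  have h3 := p1_lc_add y z
  have e : 2 * (QQ y z / NN y z) = log (2 * NN y z) - z * (2 * (sinh (2 * z) / NN y z))
      - y * (2 * dd y z) := by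
    rw [QQ, dd]
    field_simp
  rw [e, ← h1, ← h2, ← h3, Hy, Hy]
  ring
theorem p1_one_add_tanh (X : ℝ) : 1 + tanh X = exp X / cosh X := by
  have := cosh_pos X
  rw [tanh_eq_sinh_div_cosh, ← cosh_add_sinh]
  field_simp
theorem p1_one_sub_tanh (X : ℝ) : 1 - tanh X = exp (-X) / cosh X := by
  have := cosh_pos X
  rw [tanh_eq_sinh_div_cosh, ← cosh_sub_sinh]
  field_simp
theorem p1_Hy_log (X : ℝ) : Hy X = log 2 -
    ((1 + tanh X) * log (1 + tanh X) + (1 - tanh X) * log (1 - tanh X)) / 2 := by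
  have hc := cosh_pos X
  have h1 : log (1 + tanh X) = X - log (cosh X) := by
    rw [p1_one_add_tanh, log_div (exp_pos _).ne' hc.ne', log_exp]
  have h2 : log (1 - tanh X) = -X - log (cosh X) := by
    rw [p1_one_sub_tanh, log_div (exp_pos _).ne' hc.ne', log_exp]
  rw [h1, h2, Hy, lc, log_mul two_ne_zero hc.ne']
  ring
theorem Hy_mid {y z X : ℝ} (h : tanh X = sinh (2 * z) / NN y z) :
    Hy X = (MM y z + QQ y z) / NN y z := by
  have hN := NN_pos y z
  have hD := cosh_pos (2 * y)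
  have hE := exp_pos (2 * z)
  have hE' := exp_pos (-(2 * z))
  have e1 : exp (2 * z) + cosh (2 * y) = NN y z + sinh (2 * z) := by
    rw [← cosh_add_sinh, NN]; ring
  have e2 : exp (-(2 * z)) + cosh (2 * y) = NN y z - sinh (2 * z) := by
    rw [← cosh_sub_sinh, NN]; ring
  have h1 : 1 + tanh X = (exp (2 * z) + cosh (2 * y)) / NN y z := by
    rw [h, e1]; field_simp
  have h2 : 1 - tanh X = (exp (-(2 * z)) + cosh (2 * y)) / NN y z := by
    rw [h, e2]; field_simp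
  rw [p1_Hy_log, h1, h2, log_div (by positivity) hN.ne', log_div (by positivity) hN.ne', MM, QQ,
    log_mul two_ne_zero hN.ne']
  generalize log (exp (2 * z) + cosh (2 * y)) = A
  generalize log (exp (-(2 * z)) + cosh (2 * y)) = B
  rw [e1, e2]
  field_simp
  ring
theorem cosh_mul_cosh (y z : ℝ) : cosh (z + y) * cosh (z - y) = NN y z / 2 := p1_cosh_mul y z
theorem p1_sinh_pos {y : ℝ} (hy : 0 < y) : 0 < sinh (2 * y) := sinh_pos_iff.2 (by linarith)
theorem p1_sinh_nonneg {y : ℝ} (hy : 0 ≤ y) : 0 ≤ sinh (2 * y) := sinh_nonneg_iff.2 (by linarith)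
theorem th_eq {y : ℝ} (hy : 0 < y) (z : ℝ) : th y z = io y z * (1 - uu y z) := by
  have hN := NN_pos y z
  have hS := p1_sinh_pos hy
  have h1 := cosh_sq (2 * z)
  have h2 := cosh_sq (2 * y)
  have key : 2 * cosh (2 * y) * NN y z - sinh (2 * y) ^ 2 = NN y z ^ 2 - sinh (2 * z) ^ 2 := by
    rw [NN]
    linear_combination h2 - h1
  rw [th, io, uu]
  field_simp
  linear_combination key
theorem io_mul_dd {y : ℝ} (hy : 0 < y) (z : ℝ) : io y z * dd y z = 1 := by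
  have hN := NN_pos y z
  have hS := p1_sinh_pos hy
  rw [io, dd]
  field_simp
theorem p1_NN_zero (y : ℝ) : NN y 0 = 1 + cosh (2 * y) := by simp [NN]
theorem p1_mul_tanh (y : ℝ) : (1 + cosh (2 * y)) * tanh y = sinh (2 * y) := by
  have := cosh_pos y
  rw [tanh_eq_sinh_div_cosh, cosh_two_mul, sinh_two_mul, sinh_sq]
  field_simp
  ring
theorem MM_zero (y : ℝ) : MM y 0 = (1 + cosh (2 * y)) * ph y := by
  have hD := cosh_pos (2 * y)
  have h1 := two_lc_eq y
  have h2 := p1_mul_tanh y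
  rw [log_mul two_ne_zero (by positivity)] at h1
  simp only [MM, p1_NN_zero, mul_zero, neg_zero, exp_zero, sinh_zero, ph, Hy]
  rw [log_mul two_ne_zero (by positivity)]
  linear_combination (1 + cosh (2 * y)) / 2 * h1 - y * h2
theorem QQ_zero (y : ℝ) : QQ y 0 = (1 + cosh (2 * y)) * Hy y := by
  have h1 := two_lc_eq y
  have h2 := p1_mul_tanh y
  simp only [QQ, p1_NN_zero, mul_zero, sinh_zero, Hy]
  linear_combination -(1 + cosh (2 * y)) / 2 * h1 + y * h2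
theorem dd_zero (y : ℝ) : dd y 0 = tanh y := by
  have hD := cosh_pos (2 * y)
  rw [dd, p1_NN_zero, ← p1_mul_tanh]
  field_simp
theorem qq_zero {y : ℝ} (hy : 0 < y) : qq y 0 = LL y := by
  have hD := cosh_pos (2 * y)
  have ht := tanh_pos' hy
  rw [qq, QQ_zero, LL, ← p1_mul_tanh]
  field_simp
theorem mm_zero {y : ℝ} (hy : 0 < y) : mm y 0 = ph y / tanh y := by
  have hD := cosh_pos (2 * y)
  have ht := tanh_pos' hy
  rw [mm, MM_zero, ← p1_mul_tanh]
  field_simp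
theorem th_zero {y : ℝ} (hy : 0 < y) : th y 0 = 1 / tanh y := by
  have hD := cosh_pos (2 * y)
  have ht := tanh_pos' hy
  rw [th_eq hy, io, uu, p1_NN_zero, ← p1_mul_tanh]
  simp only [mul_zero, sinh_zero, zero_div]
  field_simp
  ring
theorem p1_abs_lt (y z : ℝ) : -1 < sinh (2 * z) / NN y z ∧ sinh (2 * z) / NN y z < 1 := by
  have hN := NN_pos y z
  have hD := cosh_pos (2 * y)
  have h1 := sinh_lt_cosh (x := 2 * z)
  have h2 := sinh_lt_cosh (x := -(2 * z))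
  rw [sinh_neg, cosh_neg] at h2
  rw [lt_div_iff₀ hN, div_lt_one hN, NN]
  constructor <;> linarith
theorem two_mm_add {y : ℝ} (hy : 0 < y) (z : ℝ) :
    2 * mm y z + 2 * qq y z ≤ 2 * io y z * log 2 := by
  have hN := NN_pos y z
  have hS := p1_sinh_pos hy
  have h1 := Hy_mid (y := y) (z := z) (tanh_artanh (p1_abs_lt y z))
  have h2 := Hy_le_log_two (artanh (sinh (2 * z) / NN y z))
  rw [h1, div_le_iff₀ hN] at h2
  have e : 2 * mm y z + 2 * qq y z = 2 * (MM y z + QQ y z) / sinh (2 * y) := by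
    rw [mm, qq]; ring
  have e2 : 2 * io y z * log 2 = 2 * (log 2 * NN y z) / sinh (2 * y) := by
    rw [io]; ring
  rw [e, e2]
  exact div_le_div_of_nonneg_right (by linarith) hS.le
theorem dd_pos {y : ℝ} (hy : 0 < y) (z : ℝ) : 0 < dd y z := div_pos (p1_sinh_pos hy) (NN_pos y z)
theorem p1_dd_nonneg {y : ℝ} (hy : 0 ≤ y) (z : ℝ) : 0 ≤ dd y z :=
  div_nonneg (p1_sinh_nonneg hy) (NN_pos y z).le
theorem io_pos {y : ℝ} (hy : 0 < y) (z : ℝ) : 0 < io y z := div_pos (NN_pos y z) (p1_sinh_pos hy)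
theorem uu_nonneg (y z : ℝ) : 0 ≤ uu y z := sq_nonneg _
theorem uu_lt_one (y z : ℝ) : uu y z < 1 := by
  obtain ⟨h1, h2⟩ := p1_abs_lt y z
  rw [uu]
  nlinarith
theorem th_pos {y : ℝ} (hy : 0 < y) (z : ℝ) : 0 < th y z := by
  rw [th_eq hy]
  exact mul_pos (io_pos hy z) (by linarith [uu_lt_one y z])
theorem dd_le_tanh {y : ℝ} (hy : 0 ≤ y) (z : ℝ) : dd y z ≤ tanh y := by
  rw [← dd_zero, dd, dd]
  refine div_le_div_of_nonneg_left (p1_sinh_nonneg hy) (NN_pos y 0) ?_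
  rw [p1_NN_zero, NN]
  linarith [one_le_cosh (2 * z)]
theorem th_le_io {y : ℝ} (hy : 0 < y) (z : ℝ) : th y z ≤ io y z := by
  rw [th_eq hy]
  exact mul_le_of_le_one_right (io_pos hy z).le (by linarith [uu_nonneg y z])
theorem p1_cosh_le {a b : ℝ} (ha : 0 ≤ a) (h : a ≤ b) : cosh (2 * a) ≤ cosh (2 * b) := by
  rw [cosh_le_cosh, abs_of_nonneg (by linarith), abs_of_nonneg (by linarith)]
  linarith
theorem p1_cross {a b : ℝ} (h : a ≤ b) :
    sinh (2 * a) * cosh (2 * b) ≤ sinh (2 * b) * cosh (2 * a) := by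
  have h1 : 0 ≤ sinh (2 * b - 2 * a) := sinh_nonneg_iff.2 (by linarith)
  rw [sinh_sub] at h1
  linarith
/-- `dd` increases in `y` and decreases in `z` -/
theorem dd_le {y yb z z1 : ℝ} (hy : 0 ≤ y) (h : y ≤ yb) (hz1 : 0 ≤ z1) (hz : z1 ≤ z) :
    dd y z ≤ dd yb z1 := by
  have h1 : dd y z ≤ dd y z1 := by
    refine div_le_div_of_nonneg_left (p1_sinh_nonneg hy) (NN_pos y z1) ?_
    rw [NN, NN]
    linarith [p1_cosh_le hz1 hz]
  refine h1.trans ?_
  rw [dd, dd, div_le_div_iff₀ (NN_pos _ _) (NN_pos _ _), NN, NN]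
  have h2 := p1_cross h
  have h3 : sinh (2 * y) ≤ sinh (2 * yb) := sinh_le_sinh.2 (by linarith)
  have h4 := mul_le_mul_of_nonneg_right h3 (cosh_pos (2 * z1)).le
  linarith
/-- `uu` decreases in `y` and increases in `z` -/
theorem uu_le {ya y z z2 : ℝ} (hy : 0 ≤ ya) (h : ya ≤ y) (hz0 : 0 ≤ z) (hz : z ≤ z2) :
    uu y z ≤ uu ya z2 := by
  have h1 := dd_le hz0 hz hy h
  have h2 := p1_dd_nonneg hz0 y
  rw [uu, uu, NN_comm y z, NN_comm ya z2]
  exact pow_le_pow_left₀ h2 h1 2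
/-- `io` decreases in `y` and increases in `z` -/
theorem io_le {ya y z z2 : ℝ} (hy : 0 < ya) (h : ya ≤ y) (hz0 : 0 ≤ z) (hz : z ≤ z2) :
    io y z ≤ io ya z2 := by
  have h1 := dd_le hy.le h hz0 hz
  have e : ∀ y z : ℝ, io y z = (dd y z)⁻¹ := fun y z => by rw [io, dd, inv_div]
  rw [e, e]
  exact inv_anti₀ (dd_pos hy z2) h1
theorem p1_coth_le {ya y : ℝ} (hy : 0 < ya) (h : ya ≤ y) :
    2 * cosh (2 * y) / sinh (2 * y) ≤ 2 * cosh (2 * ya) / sinh (2 * ya) := by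
  rw [div_le_div_iff₀ (p1_sinh_pos (by linarith)) (p1_sinh_pos hy)]
  linarith [p1_cross h]
/-- `th` decreases in `y` and increases in `z` -/
theorem th_le {ya y z z2 : ℝ} (hy : 0 < ya) (h : ya ≤ y) (hz0 : 0 ≤ z) (hz : z ≤ z2) :
    th y z ≤ th ya z2 := by
  have h1 := dd_le hy.le h hz0 hz
  have h2 := p1_coth_le hy h
  rw [dd, dd] at h1
  rw [th, th]
  linarith
theorem th_le_inf {ya y : ℝ} (hy : 0 < ya) (h : ya ≤ y) (z : ℝ) :
    th y z ≤ 2 * cosh (2 * ya) / sinh (2 * ya) := by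
  have h1 := p1_dd_nonneg (y := y) (by linarith) z
  have h2 := p1_coth_le hy h
  rw [dd] at h1
  rw [th]
  linarith
/-- tangent bound for `th`, which is concave in `cosh (2 * z)` -/
theorem th_le_tan {ya y z1 z : ℝ} (hy : 0 < ya) (h : ya ≤ y) (hz0 : 0 ≤ z1) (hz : z1 ≤ z) :
    th y z ≤ th ya z1 + sinh (2 * ya) / NN ya z1 ^ 2 * (cosh (2 * z) - cosh (2 * z1)) := by
  refine (th_le hy h (hz0.trans hz) le_rfl).trans ?_
  have hN := NN_pos ya z
  have hN1 := NN_pos ya z1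
  have hS := p1_sinh_pos hy
  have e : cosh (2 * z) - cosh (2 * z1) = NN ya z - NN ya z1 := by rw [NN, NN]; ring
  have key : sinh (2 * ya) / NN ya z1 ^ 2 * (NN ya z - NN ya z1) -
      (sinh (2 * ya) / NN ya z1 - sinh (2 * ya) / NN ya z) =
      sinh (2 * ya) * (NN ya z - NN ya z1) ^ 2 / (NN ya z1 ^ 2 * NN ya z) := by
    field_simp
  have h2 : 0 ≤ sinh (2 * ya) * (NN ya z - NN ya z1) ^ 2 / (NN ya z1 ^ 2 * NN ya z) := by
    positivity
  rw [th, th, e]
  linarith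
theorem p1_NN_chord {y z z1 z2 τ : ℝ}
    (hC : cosh (2 * z) = (1 - τ) * cosh (2 * z1) + τ * cosh (2 * z2)) :
    NN y z = (1 - τ) * NN y z1 + τ * NN y z2 := by
  rw [NN, NN, NN, hC]; ring
theorem p1_inv_chord {N N1 N2 τ : ℝ} (hN : 0 < N) (hN1 : 0 < N1) (hN2 : 0 < N2) (h0 : 0 ≤ τ)
    (h1 : τ ≤ 1) (e : N = (1 - τ) * N1 + τ * N2) : 1 / N ≤ (1 - τ) / N1 + τ / N2 := by
  have key : (1 - τ) / N1 + τ / N2 - 1 / N = τ * (1 - τ) * (N1 - N2) ^ 2 / (N1 * N2 * N) := by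
    field_simp
    rw [e]
    ring
  have h3 : 0 ≤ 1 - τ := by linarith
  have h2 : 0 ≤ τ * (1 - τ) * (N1 - N2) ^ 2 / (N1 * N2 * N) := by positivity
  linarith
/-- chord bound for `dd`, which is convex in `cosh (2 * z)` -/
theorem dd_chord {y z z1 z2 τ : ℝ} (hy : 0 ≤ y) (h0 : 0 ≤ τ) (h1 : τ ≤ 1)
    (hC : cosh (2 * z) = (1 - τ) * cosh (2 * z1) + τ * cosh (2 * z2)) :
    dd y z ≤ (1 - τ) * dd y z1 + τ * dd y z2 := by
  have h2 := p1_inv_chord (NN_pos y z) (NN_pos y z1) (NN_pos y z2) h0 h1 (p1_NN_chord hC)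
  have h3 := mul_le_mul_of_nonneg_left h2 (p1_sinh_nonneg hy)
  rw [dd, dd, dd]
  calc sinh (2 * y) / NN y z = sinh (2 * y) * (1 / NN y z) := by ring
    _ ≤ _ := h3
    _ = _ := by ring
theorem io_chord {y z z1 z2 τ : ℝ}
    (hC : cosh (2 * z) = (1 - τ) * cosh (2 * z1) + τ * cosh (2 * z2)) :
    io y z = (1 - τ) * io y z1 + τ * io y z2 := by
  rw [io, io, io, p1_NN_chord hC]; ring
theorem exists_tau {z z1 z2 : ℝ} (h0 : 0 ≤ z1) (h1 : z1 ≤ z) (h2 : z ≤ z2) :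
    ∃ τ, 0 ≤ τ ∧ τ ≤ 1 ∧ cosh (2 * z) = (1 - τ) * cosh (2 * z1) + τ * cosh (2 * z2) := by
  have a1 := p1_cosh_le h0 h1
  have a2 := p1_cosh_le (h0.trans h1) h2
  rcases (a1.trans a2).eq_or_lt with h | h
  · exact ⟨0, le_rfl, zero_le_one, by linarith⟩
  · have hp : 0 < cosh (2 * z2) - cosh (2 * z1) := by linarith
    refine ⟨(cosh (2 * z) - cosh (2 * z1)) / (cosh (2 * z2) - cosh (2 * z1)),
      div_nonneg (by linarith) hp.le, (div_le_one hp).2 (by linarith), ?_⟩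
    field_simp
    ring

end Vale.Agent.P322
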