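import Vale.Agent.P322.Pair2

/-! Generic ways to establish `Good`. -/

namespace Vale.Agent.P322

open Real

theorem Cost.mono {y l X X' : ℝ} (h : Cost y l X) (h' : X' ≤ X) : Cost y l X' := by
  rcases h with h | ⟨Y, hY, h⟩
  · exact Or.inl (h'.trans h)
  · exact Or.inr ⟨Y, hY, h'.trans h⟩

theorem cost_of_LL {y l X : ℝ} (hX : 0 < X) (h : l ≤ LL X) : Cost y l X := by
  refine Or.inr ⟨X, hX, ?_⟩
  have := mul_le_mul_of_nonneg_left h (mu_nonneg X)
  unfold kap
  linarith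

theorem gap_bound {v' v w t l : ℝ} (h0 : 0 ≤ v') (h : v' ≤ v) (ht : 0 ≤ t)
    (hw : Hy w * t ≤ l) : t * (bb v - bb v') - (lam v - lam v') * l ≤ t * gap v' w := by
  have h1 := mul_nonneg ht (gap_nonneg (h0.trans h) w)
  have h2 := mul_nonneg (sub_nonneg.2 (lam_mono h0 h)) (sub_nonneg.2 hw)
  unfold gap bb at *
  nlinarith

theorem route_gap_self (w : ℝ) : gap w w = 0 := by unfold gap eta; ring

theorem routeG {y z l v' : ℝ} (hy : 0 < y) (hv' : y0 ≤ v')
    (h : ∀ v, v' ≤ v → Cost y l (FG y z l v v')) {v : ℝ} (hv : y0 ≤ v) : Good y z l v := by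
  rcases le_total v' v with h1 | h1
  · exact Or.inr (Or.inl ⟨v', hv', h1, h v h1⟩)
  · refine Or.inr (Or.inl ⟨v, hv, le_rfl, (h v' le_rfl).mono ?_⟩)
    have := mul_le_mul_of_nonneg_left (bb_mono (y0_pos.le.trans hv) h1) (dd_pos hy z).le
    unfold FG
    linarith

theorem routeS {y z l w X : ℝ} (hy : 0 < y) (hw : y0 ≤ w) (hs : Hy w * th y z ≤ l)
    (hX : 2 * mm y z + dd y z * bb w + xi * dd y z * (1 - dd y z ^ 2 - 6 * uu y z) ≤ X)
    (hc : Cost y l X) {v : ℝ} (hv : y0 ≤ v) : Good y z l v := by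
  refine routeG hy hw (fun v hv => hc.mono ?_) hv
  have := gap_bound (y0_pos.le.trans hw) hv (th_pos hy z).le hs
  rw [route_gap_self] at this
  unfold FG
  linarith

theorem route_cost_LL {y X : ℝ} (hy : 0 < y) (h : Cost y (LL y) X) : X ≤ y := by
  rcases h with h | ⟨Y, hY, h⟩
  · exact h
  · exact h.trans (kap_sub_le hY hy)

/-- transfer to large `l` -/
theorem good_of_ge {y z l v : ℝ} (hy : 0 < y) (hv : y0 ≤ v) (hl : LL y ≤ l)
    (h : Good y z (LL y) v) : Good y z l v := by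
  rcases h with h | ⟨v', h1, h2, h⟩ | ⟨a, h1, h2, h⟩
  · exact Or.inl (h.trans hl)
  · refine Or.inr (Or.inl ⟨v', h1, h2, Or.inl (le_trans ?_ (route_cost_LL hy h))⟩)
    have := mul_le_mul_of_nonneg_left hl (sub_nonneg.2 (lam_mono (y0_pos.le.trans h1) h2))
    unfold FG
    linarith
  · refine Or.inr (Or.inr ⟨a, h1, h2, Or.inl (le_trans ?_ (route_cost_LL hy h))⟩)
    have := mul_le_mul_of_nonneg_left hl (sub_nonneg.2 (lam_mono h1 (h2.trans hv)))
    unfold FP
    linarith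

end Vale.Agent.P322
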