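import Vale.Agent.P322.A2
import Vale.Agent.P322.Const

/-! One-variable inequalities for the low-correlation bound, the base cases and the skip rule. -/

namespace Vale.Agent.P322

open Real

theorem s1_sinh_lin {x : ℝ} (h0 : 0 ≤ x) (h1 : x ≤ 2 * y0) : sinh x ≤ 1.1133 * x := by
  rcases h0.eq_or_lt with rfl | h0
  · simp
  have a1 := lam_mono (a := x / 2) (by linarith) (by linarith : x / 2 ≤ y0)
  rw [lam_eq (by linarith : x / 2 ≠ 0), show 2 * (x / 2) = x by ring] at a1
  have a2 : sinh x / x ≤ 1.1133 := by linarith [lam_y0_bounds.2]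
  rwa [div_le_iff₀ h0] at a2

theorem s1_cosh {x : ℝ} (h0 : 0 ≤ x) (h1 : x ≤ 2 * y0) : cosh x ≤ 1 + 0.55665 * x ^ 2 := by
  have := a1_mono (f := fun x => 0.55665 * x ^ 2 - cosh x) (f' := fun x => 1.1133 * x - sinh x) h0
    (fun x _ _ => ((((hasDerivAt_id x).pow 2).const_mul _).sub (hasDerivAt_cosh x)).congr_deriv
      (by simp only [Nat.add_one_sub_one, pow_one, id]; push_cast; ring))
    fun x a b => sub_nonneg.2 (s1_sinh_lin a.le (by linarith))
  simp only [cosh_zero] at this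
  linarith

theorem s1_sinh {x : ℝ} (h0 : 0 ≤ x) (h1 : x ≤ 2 * y0) : sinh x ≤ x + 0.18555 * x ^ 3 := by
  have := a1_mono (f := fun x => x + 0.18555 * x ^ 3 - sinh x)
    (f' := fun x => 1 + 0.55665 * x ^ 2 - cosh x) h0
    (fun x _ _ => (((hasDerivAt_id x).add (((hasDerivAt_id x).pow 3).const_mul _)).sub
      (hasDerivAt_sinh x)).congr_deriv
      (by simp only [Nat.add_one_sub_one, id]; push_cast; ring))
    fun x a b => sub_nonneg.2 (s1_cosh a.le (by linarith))
  simp only [sinh_zero] at this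
  linarith

theorem s1_num {x : ℝ} (h0 : 0 ≤ x) (h1 : x ≤ 2 * y0) : x * cosh x - sinh x ≤ 0.358 * x ^ 3 := by
  have := a1_mono (f := fun x => x ^ 3 / 3 + 0.03711 * x ^ 5 - (x * cosh x - sinh x))
    (f' := fun x => x * (x + 0.18555 * x ^ 3 - sinh x)) h0
    (fun x _ _ => (((((hasDerivAt_id x).pow 3).div_const 3).add
      (((hasDerivAt_id x).pow 5).const_mul _)).sub
      (((hasDerivAt_id x).mul (hasDerivAt_cosh x)).sub (hasDerivAt_sinh x))).congr_deriv
      (by simp only [Nat.add_one_sub_one, id]; push_cast; ring))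
    fun x a b => mul_nonneg a.le (sub_nonneg.2 (s1_sinh a.le (by linarith)))
  simp only [sinh_zero] at this
  have a1 : x ^ 2 ≤ 0.81094 ^ 2 := pow_le_pow_left₀ h0 (by linarith [y0_bounds.2]) 2
  have a2 := mul_le_mul_of_nonneg_right a1 (pow_nonneg h0 3)
  have a3 := pow_nonneg h0 3
  linarith

theorem smooth_mono {s s' : ℝ} (h0 : 0 ≤ s) (h : s ≤ s') (h1 : s' ≤ y0) :
    lam s' - lam s ≤ 17 / 10 * (ph s' - ph s) := by
  rcases h0.eq_or_lt with rfl | h0
  · rcases h.eq_or_lt with rfl | h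
    · simp
    have a1 := s1_sinh (x := 2 * s') (by linarith) (by linarith)
    have a2 : sinh (2 * s') / (2 * s') ≤ 1 + 0.7422 * s' ^ 2 := by
      rw [div_le_iff₀ (by linarith)]
      linarith
    have a3 := ph_ge_poly s'
    have a4 : s' ^ 2 ≤ 0.41 ^ 2 := pow_le_pow_left₀ h.le (by linarith [y0_bounds.2]) 2
    have a5 := mul_le_mul_of_nonneg_right a4 (sq_nonneg s')
    rw [lam_eq h.ne', lam_zero, ph_zero]
    linarith [sq_nonneg s']
  have := a1_mono (f := fun x => 17 / 10 * ph x - lam x) h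
    (fun x a _ => ((hasDerivAt_ph x).const_mul _).sub (hasDerivAt_lam (by linarith)))
    fun x a b => by
      have hx : 0 < x := by linarith
      have a1 := s1_num (x := 2 * x) (by linarith) (by linarith)
      have a2 : cosh (2 * x) ≤ 97 / 72 := by
        rw [← cosh_two_y0, cosh_le_cosh, abs_of_pos (by linarith), abs_of_pos (by linarith)]
        linarith
      have a3 : 72 / 84.5 ≤ 1 - tanh x ^ 2 := by
        rw [one_sub_tanh_sq, div_le_div_iff₀ (by norm_num) (pow_pos (cosh_pos x) 2)]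
        rw [cosh_two_mul, sinh_sq] at a2
        linarith
      have a4 := mul_le_mul_of_nonneg_left a3 hx.le
      have a5 : (2 * x * cosh (2 * x) - sinh (2 * x)) * 2 / (2 * x) ^ 2 ≤ 1.432 * x := by
        rw [div_le_iff₀ (by positivity)]
        linarith
      linarith
  linarith

theorem s1_Q {s s' : ℝ} (h0 : 0 ≤ s) (h1 : s ≤ y0) (h2 : 0 ≤ s') (h3 : s' ≤ y0) :
    pp s' ≤ pp s + lam s * (ph s' - ph s) + 17 / 20 * (ph s' - ph s) ^ 2 := by
  have hd : ∀ x, HasDerivAt (fun x => lam s * (ph x - ph s) + 17 / 20 * (ph x - ph s) ^ 2 - pp x)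
      ((17 / 10 * (ph x - ph s) - (lam x - lam s)) * (x * (1 - tanh x ^ 2))) x := fun x =>
    (((((hasDerivAt_ph x).sub_const _).const_mul _).add
      ((((hasDerivAt_ph x).sub_const _).pow 2).const_mul _)).sub (hasDerivAt_pp x)).congr_deriv
      (by simp only [Nat.add_one_sub_one, pow_one]; push_cast; ring)
  rcases le_total s s' with h | h
  · have := a1_mono h (fun x _ _ => hd x) fun x a b => mul_nonneg
      (sub_nonneg.2 (smooth_mono h0 a.le (by linarith)))
      (mul_nonneg (by linarith) (a2_sech_pos x).le)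
    simp only [sub_self] at this
    linarith
  · have := a1_anti h (fun x _ _ => hd x) fun x a b => mul_nonpos_of_nonpos_of_nonneg
      (by linarith [smooth_mono (s := x) (by linarith) b.le h1])
      (mul_nonneg (by linarith) (a2_sech_pos x).le)
    simp only [sub_self] at this
    linarith

theorem s1_le {v s X : ℝ} (h0 : 0 ≤ v) (h : v ≤ s) (hX : ph s ≤ X) : tg v X ≤ tg s X := by
  have a1 := tg_ph_le h0 s
  have a2 := mul_le_mul_of_nonneg_right (lam_mono h0 h) (sub_nonneg.2 hX)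
  simp only [tg] at *
  linarith

theorem s1_star {v s X : ℝ} (h0 : 0 ≤ s) (h1 : s ≤ y0) (h2 : 0 ≤ v) (h3 : v ≤ y0)
    (hX : ph s ≤ X) : tg v X ≤ tg s X + 17 / 20 * (X - ph s) ^ 2 := by
  rcases le_total v s with h | h
  · linarith [s1_le h2 h hX, sq_nonneg (X - ph s)]
  rcases le_total (ph v) X with h' | h'
  · have a1 := s1_Q h0 h1 h2 h3
    have a2 := mul_le_mul_of_nonneg_right (smooth_mono h0 h h3) (sub_nonneg.2 h')
    simp only [tg]
    linarith [sq_nonneg (X - ph v)]
  · obtain ⟨u, a1, a2, rfl⟩ := exists_ph_eq h0 h hX h'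
    have a3 := s1_Q h0 h1 (h0.trans a1) (a2.trans h3)
    have a4 := tg_ph_le h2 u
    simp only [tg] at *
    linarith

theorem s1_Z {s : ℝ} (h0 : 0 ≤ s) (h1 : s ≤ y0) : lam s * ph s ≤ pp s + 17 / 20 * ph s ^ 2 := by
  have := s1_Q h0 h1 le_rfl y0_pos.le
  rw [pp_zero, ph_zero] at this
  linarith

theorem s1_tanh_two (y : ℝ) : tanh y / 2 * tanh (2 * y) = tanh y ^ 2 / (1 + tanh y ^ 2) := by
  have := cosh_pos y
  rw [tanh_eq_sinh_div_cosh, tanh_eq_sinh_div_cosh, sinh_two_mul, cosh_two_mul]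
  field_simp

theorem s1_tanh_38 : (0.3575 : ℝ) ≤ tanh (3 / 8) := by
  have h := sum_le_exp_of_nonneg (x := 3 / 4) (by norm_num) 5
  simp only [Finset.sum_range_succ, Finset.sum_range_zero, Nat.factorial] at h
  norm_num at h
  have e : exp (-(2 * (3 / 8))) * exp (3 / 4) = 1 := by rw [← exp_add]; norm_num
  have hr := exp_pos (-(2 * (3 / 8)))
  have := mul_le_mul_of_nonneg_left h hr.le
  rw [tanh_eq_exp, le_div_iff₀ (by linarith)]
  linarith

theorem s1_ph_le {y : ℝ} (h0 : 0 ≤ y) (h1 : y ≤ 3 / 8) :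
    17 / 10 * ph y ≤ tanh y ^ 2 / (1 + tanh y ^ 2) := by
  have hs : ∀ x, 0 ≤ x → x ≤ 3 / 8 → tanh x ^ 2 ≤ (3 / 8) ^ 2 := fun x a b =>
    pow_le_pow_left₀ (tanh_nonneg' a) ((tanh_le_self' a).trans b) 2
  have a1 : ∀ x, 0 ≤ x → x ≤ 3 / 8 → 0 ≤ tanh x + 2 / 5 * tanh x ^ 3 - x := by
    intro x a b
    have := a1_mono (f := fun x => tanh x + 2 / 5 * tanh x ^ 3 - x)
      (f' := fun x => tanh x ^ 2 * (1 / 5 - 6 / 5 * tanh x ^ 2)) a
      (fun x _ _ => (((hasDerivAt_tanh' x).add (((hasDerivAt_tanh' x).pow 3).const_mul _)).sub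
        (hasDerivAt_id x)).congr_deriv (by simp only [Nat.add_one_sub_one]; push_cast; ring))
      fun u c e => mul_nonneg (sq_nonneg _) (by linarith [hs u c.le (by linarith)])
    simp only [tanh_zero] at this
    linarith
  have a2 := a1_mono (f := fun x => tanh x ^ 2 / 2 + tanh x ^ 4 / 10 - ph x)
    (f' := fun x => (tanh x + 2 / 5 * tanh x ^ 3 - x) * (1 - tanh x ^ 2)) h0
    (fun x _ _ => (((((hasDerivAt_tanh' x).pow 2).div_const 2).add
      (((hasDerivAt_tanh' x).pow 4).div_const 10)).sub (hasDerivAt_ph x)).congr_deriv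
      (by simp only [Nat.add_one_sub_one]; push_cast; ring))
    fun u c e => mul_nonneg (a1 u c.le (by linarith)) (a2_sech_pos u).le
  simp only [tanh_zero, ph_zero] at a2
  have a3 := hs y h0 h1
  set u := tanh y ^ 2 with hu
  have hu0 : 0 ≤ u := sq_nonneg _
  have a4 : tanh y ^ 4 = u ^ 2 := by rw [hu]; ring
  have a5 : ph y ≤ u * (1 / 2 + 9 / 640) := by
    have := mul_le_mul_of_nonneg_left a3 hu0
    linarith
  rw [le_div_iff₀ (by linarith)]
  have a6 := mul_le_mul a5 (by linarith : 1 + u ≤ 1 + 9 / 64) (by linarith) (by positivity)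
  linarith

theorem s1_le_of_ph {a b : ℝ} (hb : 0 ≤ b) (h : ph a ≤ ph b) : a ≤ b := by
  by_contra hc
  exact absurd (ph_strictMono hb (not_le.1 hc)) (not_lt.2 h)

theorem s1core {I y θ v' : ℝ} (hI : 0 ≤ I) (hy : 0 ≤ y) (h0 : 0 ≤ θ) (h1 : θ ≤ 1)
    (hv0 : 0 ≤ v') (hv1 : v' ≤ y0) :
    ∃ a, 0 ≤ a ∧ a ≤ y0 ∧
      tg v' (I + θ * ph y) ≤ tg a I + θ * (pp y + tanh y / 2 * tanh (2 * y) * I) := by
  obtain ⟨a, ha0, ha1, ha2, ha3⟩ : ∃ a, 0 ≤ a ∧ a ≤ y0 ∧ ph a ≤ I ∧ (a = y0 ∨ ph a = I) := by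
    rcases le_total (ph y0) I with h | h
    · exact ⟨y0, y0_pos.le, le_rfl, h, Or.inl rfl⟩
    · obtain ⟨a, b1, b2, b3⟩ := exists_ph_eq le_rfl y0_pos.le (ph_zero.trans_le hI) h
      exact ⟨a, b1, b2, b3.le, Or.inr b3⟩
  have hA : ∀ v, 0 ≤ v → v ≤ y0 → tg v I ≤ tg a I := by
    intro v b1 b2
    rcases ha3 with rfl | h
    · exact s1_le b1 b2 ha2
    · have := s1_star ha0 ha1 b1 b2 ha2
      rw [h] at this
      linarith
  have hK := ph_nonneg y
  have key : tg v' (I + ph y) ≤ tg a I + (pp y + tanh y / 2 * tanh (2 * y) * I) := by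
    rw [s1_tanh_two]
    rcases le_total (3 / 8) y with h | h
    · have b1 := tg_ph_le hv0 y
      have b2 := hA 0 le_rfl y0_pos.le
      have b3 : (0.3575 : ℝ) ^ 2 ≤ tanh y ^ 2 :=
        pow_le_pow_left₀ (by norm_num) (s1_tanh_38.trans (tanh_mono' h)) 2
      have b4 : lam v' - 2 ≤ tanh y ^ 2 / (1 + tanh y ^ 2) := by
        refine le_trans (b := 0.1133) (by linarith [lam_mono hv0 hv1, lam_y0_bounds.2]) ?_
        rw [le_div_iff₀ (by positivity)]
        linarith
      have b5 := mul_le_mul_of_nonneg_right b4 hI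
      simp only [tg, pp_zero, lam_zero, ph_zero] at *
      linarith
    · have b1 := mul_le_mul_of_nonneg_right (s1_ph_le hy h) hI
      have hy1 : y ≤ y0 := by linarith [y0_bounds.1]
      rcases le_or_gt (ph y) I with h' | h'
      · have c1 : tg v' (I + ph y) ≤ tg a (I + ph y) + 17 / 20 * ph y ^ 2 := by
          rcases ha3 with rfl | h3
          · linarith [s1_le hv0 hv1 (by linarith : ph y0 ≤ I + ph y), sq_nonneg (ph y)]
          · have := s1_star ha0 ha1 hv0 hv1 (by linarith : ph a ≤ I + ph y)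
            rw [h3] at this
            linarith
        have c2 : y ≤ a := by
          rcases ha3 with rfl | h3
          · exact hy1
          · exact s1_le_of_ph ha0 (h3 ▸ h')
        have c3 : lam a - lam y ≤ 17 / 10 * (I - ph y) := by
          linarith [smooth_mono hy c2 ha1]
        have c4 := mul_le_mul_of_nonneg_right c3 hK
        have c5 := s1_Z hy hy1
        simp only [tg] at *
        linarith
      · have h3 : ph a = I := by
          rcases ha3 with rfl | h3
          · linarith [ph_mono hy hy1]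
          · exact h3
        have c1 := s1_star hy hy1 hv0 hv1 (by linarith : ph y ≤ I + ph y)
        have c2 : a ≤ y := s1_le_of_ph hy (by linarith)
        have c4 := mul_le_mul_of_nonneg_right (smooth_mono ha0 c2 hy1) hI
        have c5 := s1_Z ha0 ha1
        simp only [tg, h3] at *
        linarith
  refine ⟨a, ha0, ha1, ?_⟩
  have d1 := mul_le_mul_of_nonneg_left key h0
  have d2 := mul_le_mul_of_nonneg_left (hA v' hv0 hv1) (sub_nonneg.2 h1)
  simp only [tg] at *
  linarith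
theorem base1 {a : ℝ} (ha : 0 ≤ a) : tg a 0 ≤ 0 := by
  have := tg_ph_le ha 0
  rwa [ph_zero, pp_zero] at this
theorem base3 {v : ℝ} (hv : 0 ≤ v) (X : ℝ) : GG X v - lam v * Hy X ≤ 0 := by
  have a1 := mul_le_mul_of_nonneg_left (Hy_ge X) (sub_nonneg.2 (two_le_lam v))
  have a2 := mul_nonneg (a2_sech_pos X).le (psi_nonneg hv)
  have a3 := mul_nonneg (a2_sech_pos X).le (sq_nonneg (tanh X))
  rw [GG, bb_eq, xi]
  linarith
theorem skip_rule {X v e : ℝ} (hv : y0 ≤ v) (he : Hy y0 * (1 - tanh X ^ 2) ≤ e) :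
    ∃ a, 0 ≤ a ∧ a ≤ y0 ∧ GG X v - lam v * e ≤ tg a (Hy X - e) := by
  have hθ := a2_sech_pos X
  have a1 := mul_le_mul_of_nonneg_left (eta_sub_le (s := e / (1 - tanh X ^ 2)) y0_pos.le hv
    ((le_div_iff₀ hθ).2 he)) hθ.le
  have e1 : ∀ c L : ℝ, (1 - tanh X ^ 2) * (c - L * (e / (1 - tanh X ^ 2))) =
      (1 - tanh X ^ 2) * c - L * e := fun c L => by field_simp
  rw [e1, e1] at a1
  have a2 : GG X v - lam v * e ≤ 2 * Hy X + (1 - tanh X ^ 2) * bb y0 - lam y0 * e
      - xi * (tanh X ^ 2 * (1 - tanh X ^ 2)) := by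
    simp only [GG, bb]
    linarith
  have hL := two_le_lam y0
  have hx := sq_nonneg (tanh X)
  rcases le_total (tanh X ^ 2) (1 / 2) with h | h
  · refine ⟨y0, y0_pos.le, le_rfl, a2.trans ?_⟩
    have b1 := mul_le_mul_of_nonneg_left (ph_le_log_two_mul X) (sub_nonneg.2 hL)
    have b2 : (lam y0 - 2) * log 2 ≤ 0.1133 * 0.7 :=
      mul_le_mul (by linarith [lam_y0_bounds.2]) (by linarith [log_two_lt_d9])
        (log_nonneg one_le_two) (by norm_num)
    have b3 := mul_le_mul_of_nonneg_right b2 hx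
    have b4 := mul_le_mul_of_nonneg_right bb_y0_bounds.1.le hx
    have b5 := mul_le_mul_of_nonneg_left h hx
    have b6 := bb_eq y0
    simp only [tg, xi, psi, ph] at *
    linarith
  · refine ⟨0, le_rfl, y0_pos.le, a2.trans ?_⟩
    have b1 := mul_le_mul_of_nonneg_left he (sub_nonneg.2 hL)
    have b2 := mul_le_mul_of_nonneg_right pp_sub_y0.le hθ.le
    have b3 := mul_le_mul_of_nonneg_right h hθ.le
    simp only [tg, pp_zero, lam_zero, ph_zero]
    simp only [xi, bb, eta, ph] at *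
    linarith

end Vale.Agent.P322
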