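import Vale.Agent.P322.Route
import Vale.Agent.P322.Const

/-! The region of small `y`. -/

namespace Vale.Agent.P322

open Real

private lemma exp_taylor {x : ℝ} (h : |x| ≤ 1) :
    |exp x - (1 + x + x ^ 2 / 2 + x ^ 3 / 6 + x ^ 4 / 24 + x ^ 5 / 120 + x ^ 6 / 720)|
      ≤ |x| ^ 7 / 4410 := by
  have h1 := Real.exp_bound h (n := 7) (by norm_num)
  simp only [Finset.sum_range_succ, Finset.sum_range_zero, Nat.factorial] at h1
  norm_num at h1
  convert h1 using 2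
  ring

private lemma taylor_pair {x : ℝ} (h0 : 0 ≤ x) (h1 : x ≤ 1) :
    |sinh x - (x + x ^ 3 / 6 + x ^ 5 / 120)| ≤ x ^ 7 / 4410 ∧
      |cosh x - (1 + x ^ 2 / 2 + x ^ 4 / 24 + x ^ 6 / 720)| ≤ x ^ 7 / 4410 := by
  have a := exp_taylor (x := x) (by rw [abs_of_nonneg h0]; exact h1)
  have b := exp_taylor (x := -x) (by rw [abs_neg, abs_of_nonneg h0]; exact h1)
  rw [abs_neg] at b
  rw [abs_of_nonneg h0] at a b
  rw [abs_le] at a b
  rw [sinh_eq, cosh_eq, abs_le, abs_le]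
  obtain ⟨a1, a2⟩ := a
  obtain ⟨b1, b2⟩ := b
  refine ⟨⟨?_, ?_⟩, ?_, ?_⟩ <;> nlinarith

private lemma coth_le {y : ℝ} (hy : 0 < y) (hy' : y ≤ 2 / 25) :
    2 * cosh (2 * y) / sinh (2 * y) ≤ 1 / (0.99146 * y) := by
  obtain ⟨x, hx⟩ : ∃ x, x = 2 * y := ⟨_, rfl⟩
  have hx0 : 0 < x := by linarith
  have hx1 : x ≤ 0.16 := by linarith
  obtain ⟨a, b⟩ := taylor_pair hx0.le (by linarith)
  rw [abs_le] at a b
  have hs : 0 < sinh x := sinh_pos_iff.mpr hx0
  rw [← hx, div_le_div_iff₀ hs (by positivity)]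
  have hy2 : y = x / 2 := by linarith
  rw [hy2]
  have s2 : x ^ 2 ≤ 0.0256 := by nlinarith
  have s4 : x ^ 4 ≤ 0.00066 := by nlinarith
  have s6 : x ^ 6 ≤ 0.00002 := by nlinarith
  have s7 : x ^ 7 ≤ 0.00002 := by nlinarith
  have hc : cosh x ≤ 1 + x ^ 2 / 2 + 0.00003 := by linarith [b.2]
  have hs7 : x ^ 7 ≤ 0.00002 * x := by nlinarith
  have hs5 : 0 ≤ x ^ 5 := by positivity
  have hsh : x * (1 + x ^ 2 / 6 - 0.00001) ≤ sinh x := by nlinarith [a.1]
  have hk : 0.99146 * (1 + x ^ 2 / 2 + 0.00003) ≤ 1 + x ^ 2 / 6 - 0.00001 := by linarith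
  have h1 : x * (0.99146 * cosh x) ≤ x * (1 + x ^ 2 / 6 - 0.00001) :=
    mul_le_mul_of_nonneg_left (by linarith) hx0.le
  nlinarith

private lemma lam_le {w : ℝ} (h0 : 0 < w) (h1 : w ≤ 0.9) :
    lam w - 2 ≤ 2 / 3 * w ^ 2 + 0.16 * (w ^ 2) ^ 2 := by
  obtain ⟨a, b⟩ := taylor_pair h0.le (by linarith)
  rw [abs_le] at a b
  obtain ⟨u, hu⟩ : ∃ u, u = w ^ 2 := ⟨_, rfl⟩
  have hu0 : 0 < u := by rw [hu]; positivity
  have hu1 : u ≤ 0.81 := by rw [hu]; nlinarith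
  have e3 : w ^ 3 = w * u := by rw [hu]; ring
  have e5 : w ^ 5 = w * u ^ 2 := by rw [hu]; ring
  have e7 : w ^ 7 = w * u ^ 3 := by rw [hu]; ring
  have e4 : w ^ 4 = u ^ 2 := by rw [hu]; ring
  have e6 : w ^ 6 = u ^ 3 := by rw [hu]; ring
  have hu3 : 0 < u ^ 3 := by positivity
  have hs : sinh w ≤ w * (1 + u / 6 + u ^ 2 / 120 + u ^ 3 / 4410) := by
    have := a.2
    rw [e3, e5, e7] at this
    linarith
  have hc : cosh w ≤ 1 + u / 2 + u ^ 2 / 24 + u ^ 3 / 600 := by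
    have := b.2
    rw [e4, e6, e7, ← hu] at this
    nlinarith
  have hp : sinh w * cosh w ≤ w * (1 + u / 6 + u ^ 2 / 120 + u ^ 3 / 4410)
      * (1 + u / 2 + u ^ 2 / 24 + u ^ 3 / 600) :=
    mul_le_mul hs hc (cosh_pos w).le (by positivity)
  have hq : (1 + u / 6 + u ^ 2 / 120 + u ^ 3 / 4410) * (1 + u / 2 + u ^ 2 / 24 + u ^ 3 / 600)
      ≤ 1 + 2 / 3 * u + 0.16 * u ^ 2 := by
    have h3 : u ^ 3 ≤ u ^ 2 := by nlinarith
    have h4 : u ^ 4 ≤ u ^ 2 := by nlinarith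
    have h5 : u ^ 5 ≤ u ^ 2 := by nlinarith
    have h6 : u ^ 6 ≤ u ^ 2 := by nlinarith
    nlinarith
  unfold lam
  rw [if_neg h0.ne', sinh_two_mul, ← hu]
  have : 2 * sinh w * cosh w / (2 * w) ≤ 1 + 2 / 3 * u + 0.16 * u ^ 2 := by
    rw [div_le_iff₀ (by positivity)]
    have := mul_le_mul_of_nonneg_left hq h0.le
    nlinarith
  linarith

private lemma poly_ineq {u A H L : ℝ} (hu0 : 0.1643 ≤ u) (hu1 : u ≤ 0.81)
    (hL1 : 0.6931471803 < L) (hL2 : L < 0.6931471808) (hA0 : 1.09 ≤ A)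
    (hA : A ≤ 1.025 + (2 / 3 * u + 0.16 * u ^ 2) * L) (hH0 : 0 ≤ H)
    (hH : H ≤ L - u / 2 + u ^ 2 / 4) :
    A * H ≤ 0.99146 * (L - 0.0032 * A ^ 2) := by
  have hp : 0 ≤ 2 / 3 * u + 0.16 * u ^ 2 := by positivity
  have hA1 : A ≤ 1.025 + 0.46211 * u + 0.110904 * u ^ 2 := by nlinarith
  have hu2 : u ^ 2 ≤ 0.6561 := by nlinarith
  have hA2 : A ≤ 1.48 := by nlinarith
  have hAA : A ^ 2 ≤ 2.57 * A - 1.6132 := by nlinarith
  have hH1 : H + 0.008154 ≤ 0.701302 - u / 2 + u ^ 2 / 4 := by linarith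
  have h1 : A * (H + 0.008154) ≤ (1.025 + 0.46211 * u + 0.110904 * u ^ 2)
      * (0.701302 - u / 2 + u ^ 2 / 4) :=
    mul_le_mul hA1 hH1 (by linarith) (by positivity)
  have k1 : 0 ≤ (u - 0.1643) * (0.81 - u) := mul_nonneg (by linarith) (by linarith)
  have k2 : 0 ≤ u * ((u - 0.1643) * (0.81 - u)) := mul_nonneg (by linarith) k1
  have k3 : 0 ≤ u * (u * ((u - 0.1643) * (0.81 - u))) := mul_nonneg (by linarith) k2
  have h2 : (1.025 + 0.46211 * u + 0.110904 * u ^ 2) * (0.701302 - u / 2 + u ^ 2 / 4)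
      ≤ 0.69234 := by nlinarith
  nlinarith

private lemma eta_le' {w : ℝ} (h : 0 < w) :
    eta w ≤ w + 1 / 2 + exp (-(2 * w)) / 2 + 1 / (4 * w) := by
  set r := exp (-(2 * w)) with hr
  have hr0 : 0 < r := exp_pos _
  have hr1 : r ≤ 1 := by rw [hr]; exact exp_le_one_iff.mpr (by linarith)
  have hlog : log (1 + r) ≤ r := by
    have := log_le_sub_one_of_pos (x := 1 + r) (by linarith)
    linarith
  have hH : Hy w ≤ r + 2 * w * r / (1 + r) := by rw [Hy_eq, ← hr]; linarith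
  have hs : sinh (2 * w) = (1 / r - r) / 2 := by
    rw [sinh_eq, ← hr]
    have : exp (2 * w) = 1 / r := by rw [hr, exp_neg, one_div, inv_inv]
    rw [this]
  have hs0 : 0 ≤ sinh (2 * w) / (2 * w) := div_nonneg (sinh_nonneg_iff.mpr (by linarith)) (by linarith)
  have h1 : sinh (2 * w) / (2 * w) * Hy w ≤ sinh (2 * w) / (2 * w) * (r + 2 * w * r / (1 + r)) :=
    mul_le_mul_of_nonneg_left hH hs0
  have h2 : sinh (2 * w) / (2 * w) * (r + 2 * w * r / (1 + r))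
      = 1 / (4 * w) - r ^ 2 / (4 * w) + (1 - r) / 2 := by
    rw [hs]; field_simp; ring
  have h3 : 0 ≤ r ^ 2 / (4 * w) := by positivity
  have h4 : pp w + Hy w = w + log (1 + r) := by
    have := lc_eq w
    rw [← hr] at this
    unfold pp Hy; linarith
  unfold eta lam
  rw [if_neg h.ne']
  nlinarith

private lemma exp_18 : exp (-(1.8 : ℝ)) ≤ 0.1654 := by
  have h1 : exp (-(1.8 : ℝ)) = exp (-1) * exp (-1) * exp 0.2 := by
    rw [← exp_add, ← exp_add]; norm_num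
  have h2 := Real.exp_neg_one_lt_d9
  have h3 : exp (0.2 : ℝ) ≤ 1.2215 := by
    have a := exp_taylor (x := 0.2) (by norm_num)
    rw [abs_le] at a
    have := a.2
    norm_num at this ⊢
    linarith
  have h4 : exp (-1) * exp (-1) ≤ 0.13534 := by nlinarith [exp_pos (-1)]
  rw [h1]
  calc exp (-1) * exp (-1) * exp 0.2 ≤ 0.13534 * 1.2215 :=
        mul_le_mul h4 h3 (exp_pos _).le (by norm_num)
    _ ≤ 0.1654 := by norm_num

private lemma large_case {w x a : ℝ} (hw : 0.9 ≤ w) (ha : a = 1 + bb w + xi) (_ha0 : 0 < a)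
    (hx0 : 0 ≤ x) (hx : x ≤ 2 / 25 * a) : a * Hy w ≤ 0.99146 * Hy x := by
  obtain ⟨t, ht⟩ : ∃ t, t = w - 0.9 := ⟨_, rfl⟩
  have ht0 : 0 ≤ t := by linarith
  have hw0 : 0 < w := by linarith
  have l2a := log_two_gt_d9
  have e1 : exp (-(2 * w)) = exp (-(1.8 : ℝ)) * exp (-(2 * t)) := by
    rw [← exp_add]; congr 1; rw [ht]; ring
  have e2 : exp (-(2 * t)) ≤ 1 := exp_le_one_iff.mpr (by linarith)
  have e3 : exp (-(2 * w)) ≤ 0.1654 * exp (-(2 * t)) := by
    rw [e1]; exact mul_le_mul_of_nonneg_right exp_18 (exp_pos _).le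
  have ha1 : a ≤ 1.4 + t := by
    have h1 := eta_le' hw0
    have h2 : 1 / (4 * w) ≤ 0.2778 := by rw [div_le_iff₀ (by linarith)]; linarith
    rw [ha]; unfold bb xi; linarith
  have hH : Hy w ≤ 2 * (1.4 + t) * (0.1654 * exp (-(2 * t))) := by
    have h1 := Hy_le_exp hw0.le
    have h2 : 1 + 2 * w = 2 * (1.4 + t) := by rw [ht]; ring
    rw [h2] at h1
    exact h1.trans (mul_le_mul_of_nonneg_left e3 (by linarith))
  have hc : cosh x ≤ 1.0064 * exp (2 / 25 * t) := by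
    have h1 : cosh x ≤ cosh (0.112 + 2 / 25 * t) := by
      rw [cosh_le_cosh, abs_of_nonneg hx0, abs_of_nonneg (by positivity)]
      linarith
    have h2 : cosh (0.112 + 2 / 25 * t) ≤ cosh 0.112 * exp (2 / 25 * t) := by
      rw [cosh_add, ← cosh_add_sinh (2 / 25 * t)]
      have a1 : sinh (0.112 : ℝ) ≤ cosh 0.112 := (sinh_lt_cosh _).le
      have a2 : 0 ≤ sinh (2 / 25 * t) := sinh_nonneg_iff.mpr (by positivity)
      nlinarith
    have h3 : cosh (0.112 : ℝ) ≤ 1.0064 := by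
      have b := (taylor_pair (x := 0.112) (by norm_num) (by norm_num)).2
      rw [abs_le] at b
      have := b.2
      norm_num at this ⊢
      linarith
    exact h1.trans (h2.trans (mul_le_mul_of_nonneg_right h3 (exp_pos _).le))
  have hHx : log 2 / (1.0064 * exp (2 / 25 * t)) ^ 2 ≤ Hy x := by
    have h1 := Hy_ge x
    rw [one_sub_tanh_sq, mul_one_div] at h1
    refine le_trans ?_ h1
    apply div_le_div_of_nonneg_left (by linarith) (by have := cosh_pos x; positivity)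
    exact pow_le_pow_left₀ (cosh_pos x).le hc 2
  have hs : 1.4 + t ≤ 1.4 * exp (0.92 * t) := by
    have := add_one_le_exp (0.92 * t)
    nlinarith
  have hs2 : (1.4 + t) ^ 2 ≤ (1.4 * exp (0.92 * t)) ^ 2 := pow_le_pow_left₀ (by linarith) hs 2
  have e4 : exp (0.92 * t) ^ 2 * exp (-(2 * t)) * exp (2 / 25 * t) ^ 2 = 1 := by
    rw [← exp_nat_mul, ← exp_nat_mul, ← exp_add, ← exp_add]
    rw [exp_eq_one_iff]; push_cast; ring
  have h5 : a * Hy w ≤ (1.4 + t) * (2 * (1.4 + t) * (0.1654 * exp (-(2 * t)))) :=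
    mul_le_mul ha1 hH (Hy_pos w).le (by linarith)
  obtain ⟨E, hE⟩ : ∃ E, E = exp (2 / 25 * t) := ⟨_, rfl⟩
  obtain ⟨F, hF⟩ : ∃ F, F = exp (-(2 * t)) := ⟨_, rfl⟩
  obtain ⟨G, hG⟩ : ∃ G, G = exp (0.92 * t) := ⟨_, rfl⟩
  have hE0 : 0 < E := by rw [hE]; exact exp_pos _
  have hF0 : 0 < F := by rw [hF]; exact exp_pos _
  rw [← hE] at hHx e4
  rw [← hF] at h5 e4
  rw [← hG] at hs2 e4
  have h6 : (1.4 + t) * (2 * (1.4 + t) * (0.1654 * F)) ≤ 0.3308 * (1.4 * G) ^ 2 * F := by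
    have := mul_le_mul_of_nonneg_right hs2 hF0.le
    nlinarith
  have h7 : G ^ 2 * F = 1 / E ^ 2 := by rw [eq_div_iff (by positivity)]; exact e4
  have h8 : log 2 / (1.0064 * E) ^ 2 = log 2 / 1.0064 ^ 2 * (1 / E ^ 2) := by field_simp
  have h9 : 0.3308 * (1.4 * G) ^ 2 * F = 0.3308 * 1.96 * (G ^ 2 * F) := by ring
  rw [h9, h7] at h6
  rw [h8] at hHx
  have h10 : 0 < 1 / E ^ 2 := by positivity
  have h11 : 0.684 ≤ log 2 / 1.0064 ^ 2 := by rw [le_div_iff₀ (by norm_num)]; linarith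
  have h12 := mul_le_mul_of_nonneg_right h11 h10.le
  linarith

theorem small_num {y w : ℝ} (hy : 0 < y) (hy' : y ≤ 2 / 25) (hw : y0 ≤ w) :
    Hy w * (2 * cosh (2 * y) / sinh (2 * y)) ≤ LL (y * (1 + bb w + xi)) := by
  obtain ⟨a, ha⟩ : ∃ a, a = 1 + bb w + xi := ⟨_, rfl⟩
  have hy0 := y0_bounds.1
  have hw0 : 0 < w := by linarith
  have ha0 : 1.09 ≤ a := by
    have h1 := bb_mono y0_pos.le hw
    have h2 := bb_y0_bounds.1
    rw [ha]; unfold xi; linarith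
  rw [← ha]
  have hx0 : 0 < y * a := by positivity
  have hx : y * a ≤ 2 / 25 * a := mul_le_mul_of_nonneg_right hy' (by linarith)
  have key : a * Hy w ≤ 0.99146 * Hy (y * a) := by
    rcases le_total w 0.9 with h | h
    · have h1 := lam_le hw0 h
      have h2 := bb_eq w
      have h3 := psi_nonneg hw0.le
      have l2a := log_two_gt_d9
      have l2b := log_two_lt_d9
      have h4 : (lam w - 2) * log 2 ≤ (2 / 3 * w ^ 2 + 0.16 * (w ^ 2) ^ 2) * log 2 :=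
        mul_le_mul_of_nonneg_right h1 (by linarith)
      have h5 := ph_ge_poly w
      have h6 := ph_le_sq (y * a)
      unfold ph at h5 h6
      have h7 := poly_ineq (u := w ^ 2) (A := a) (H := Hy w) (L := log 2) (by nlinarith)
        (by nlinarith) l2a l2b ha0 (by rw [ha]; unfold xi; linarith) (Hy_pos w).le
        (by have : (w ^ 2) ^ 2 = w ^ 4 := by ring
            rw [this]; linarith)
      have h8 : (y * a) ^ 2 ≤ (2 / 25 * a) ^ 2 := pow_le_pow_left₀ hx0.le hx 2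
      nlinarith
    · exact large_case h ha (by linarith) hx0.le hx
  have h1 : Hy w * (2 * cosh (2 * y) / sinh (2 * y)) ≤ Hy w * (1 / (0.99146 * y)) :=
    mul_le_mul_of_nonneg_left (coth_le hy hy') (Hy_pos w).le
  have h2 : Hy (y * a) / (y * a) ≤ LL (y * a) := by
    unfold LL
    exact div_le_div_of_nonneg_left (Hy_pos _).le (tanh_pos' hx0) (tanh_le_self' hx0.le)
  have h3 : Hy w * (1 / (0.99146 * y)) ≤ Hy (y * a) / (y * a) := by
    rw [mul_one_div, div_le_div_iff₀ (by positivity) hx0]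
    have := mul_le_mul_of_nonneg_left key hy.le
    nlinarith
  linarith

theorem good_small {y z l v : ℝ} (hy : 0 < y) (hy' : y ≤ 2 / 25) (hz : 0 ≤ z) (hl : 0 < l)
    (hv : y0 ≤ v) : Good y z l v := by
  have hth := th_pos hy z
  by_cases h : Hy y0 * th y z ≤ l
  · exact Or.inl h
  push Not at h
  have hs : l / th y z ≤ Hy y0 := by rw [div_le_iff₀ hth]; exact h.le
  obtain ⟨w, hw, hH⟩ := exists_Hy_eq y0_pos.le (div_pos hl hth) hs
  have hl' : Hy w * th y z = l := by rw [hH]; field_simp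
  have hw0 : 0 ≤ w := y0_pos.le.trans hw
  have hb := bb_nonneg hw0
  have hxi : (0 : ℝ) < xi := by unfold xi; norm_num
  refine routeS (X := y * (1 + bb w + xi)) hy hw hl'.le ?_ ?_ hv
  · have h1 := two_mm_le_self hy hz
    have h2 : dd y z ≤ y := (dd_le_tanh hy.le z).trans (tanh_le_self' hy.le)
    have h3 := dd_pos hy z
    have h4 := uu_nonneg y z
    have h5 : dd y z * bb w ≤ y * bb w := mul_le_mul_of_nonneg_right h2 hb
    have h6 : dd y z * (1 - dd y z ^ 2 - 6 * uu y z) ≤ y := by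
      have : dd y z * (1 - dd y z ^ 2 - 6 * uu y z) ≤ dd y z * 1 :=
        mul_le_mul_of_nonneg_left (by nlinarith [sq_nonneg (dd y z)]) h3.le
      linarith
    have h7 := mul_le_mul_of_nonneg_left h6 hxi.le
    nlinarith
  · apply cost_of_LL (by positivity)
    rw [← hl']
    exact le_trans (mul_le_mul_of_nonneg_left (th_le_inf hy le_rfl z) (Hy_pos w).le)
      (small_num hy hy' hw)

end Vale.Agent.P322
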