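import Vale.Agent.P322.Core
import Vale.Agent.P322.S1core

/-! The two induction steps, as statements about real numbers. -/

namespace Vale.Agent.P322

open Real

theorem step_cst (y z : ℝ) : cst (z + y) (z - y) = y * dd y z := by
  unfold cst; rw [tanh_sub_tanh]; ring

theorem step_cst_comm (a b : ℝ) : cst a b = cst b a := by unfold cst; ring

theorem step_cst_neg (a b : ℝ) : cst (-a) (-b) = cst a b := by
  unfold cst; rw [tanh_neg, tanh_neg]; ring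

theorem step_GG_neg (X v : ℝ) : GG (-X) v = GG X v := by
  unfold GG; rw [Hy_neg, tanh_neg]; ring

theorem step1_core {y z X e0 e1 D0 D1 ζ : ℝ} (hy : 0 ≤ y) (hz : 0 ≤ z)
    (hX : tanh X = (tanh (z + y) + tanh (z - y)) / 2)
    (he0 : e0 ≤ Hy (z + y)) (he1 : e1 ≤ Hy (z - y))
    (ih0 : ∀ a, 0 ≤ a → a ≤ y0 → tg a (Hy (z + y) - e0) ≤ D0)
    (ih1 : ∀ a, 0 ≤ a → a ≤ y0 → tg a (Hy (z - y) - e1) ≤ D1)
    (hz2 : cst (z + y) (z - y) + (tanh (z + y) - tanh (z - y)) / 4 * tanh ((z + y) - (z - y))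
      * (((Hy (z + y) - e0) + (Hy (z - y) - e1)) / 2) ≤ ζ)
    {a : ℝ} (ha0 : 0 ≤ a) (ha1 : a ≤ y0) :
    tg a (Hy X - (e0 + e1) / 2) ≤ (D0 + D1) / 2 + ζ := by
  have hN := NN_pos y z
  have hX' : tanh X = sinh (2 * z) / NN y z := by rw [hX, tanh_add_tanh]; ring
  have h1 := Hy_mid hX'
  have h2 := Hy_add_Hy y z
  have hD := one_le_cosh (2 * y)
  have hC := one_le_cosh (2 * z)
  set I := ((Hy (z + y) - e0) + (Hy (z - y) - e1)) / 2 with hI
  have hI0 : 0 ≤ I := by rw [hI]; linarith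
  set θ := (1 + cosh (2 * y)) / NN y z with hθ
  have t0 : 0 ≤ θ := div_nonneg (by linarith) hN.le
  have t1 : θ ≤ 1 := by rw [hθ, div_le_one hN]; unfold NN; linarith
  obtain ⟨a', b0, b1, b2⟩ := s1core hI0 hy t0 t1 ha0 ha1
  have h3 : MM y z / NN y z ≤ θ * ph y := by
    have := MM_anti hy le_rfl hz
    rw [MM_zero] at this
    rw [hθ, div_mul_eq_mul_div]
    exact div_le_div_of_nonneg_right this hN.le
  have h4 : Hy X - (e0 + e1) / 2 ≤ I + θ * ph y := by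
    rw [h1, add_div]; linarith
  have h5 := mul_le_mul_of_nonneg_left h4 (show 0 ≤ lam a by linarith [two_le_lam a])
  have h6 : dd y z = θ * tanh y := by
    rw [hθ, div_mul_eq_mul_div, p1_mul_tanh]; rfl
  rw [step_cst, tanh_sub_tanh, h6, show z + y - (z - y) = 2 * y by ring] at hz2
  have i0 := ih0 a' b0 b1
  have i1 := ih1 a' b0 b1
  have e : tg a' I = (tg a' (Hy (z + y) - e0) + tg a' (Hy (z - y) - e1)) / 2 := by
    rw [hI]; unfold tg; ring
  have h7 : tg a (Hy X - (e0 + e1) / 2) ≤ tg a (I + θ * ph y) := by unfold tg; linarith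
  unfold pp at b2
  linarith

theorem step1_mid {A0 A1 X e0 e1 D0 D1 ζ : ℝ} (hA : A1 ≤ A0)
    (hX : tanh X = (tanh A0 + tanh A1) / 2)
    (he0 : e0 ≤ Hy A0) (he1 : e1 ≤ Hy A1)
    (ih0 : ∀ a, 0 ≤ a → a ≤ y0 → tg a (Hy A0 - e0) ≤ D0)
    (ih1 : ∀ a, 0 ≤ a → a ≤ y0 → tg a (Hy A1 - e1) ≤ D1)
    (hz2 : cst A0 A1 + (tanh A0 - tanh A1) / 4 * tanh (A0 - A1)
      * (((Hy A0 - e0) + (Hy A1 - e1)) / 2) ≤ ζ)
    {a : ℝ} (ha0 : 0 ≤ a) (ha1 : a ≤ y0) :
    tg a (Hy X - (e0 + e1) / 2) ≤ (D0 + D1) / 2 + ζ := by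
  obtain ⟨y, z, rfl, rfl⟩ : ∃ y z, A0 = z + y ∧ A1 = z - y :=
    ⟨(A0 - A1) / 2, (A0 + A1) / 2, by ring, by ring⟩
  have hy : 0 ≤ y := by linarith
  rcases le_total 0 z with hz | hz
  · exact step1_core hy hz hX he0 he1 ih0 ih1 hz2 ha0 ha1
  · have e1' : -z + y = -(z - y) := by ring
    have e2' : -z - y = -(z + y) := by ring
    have := step1_core (y := y) (z := -z) (X := -X) (e0 := e1) (e1 := e0) (D0 := D1) (D1 := D0)
      (ζ := ζ) hy (by linarith) (by rw [e1', e2', tanh_neg, tanh_neg, tanh_neg, hX]; ring)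
      (by rw [e1', Hy_neg]; exact he1) (by rw [e2', Hy_neg]; exact he0)
      (by rw [e1', Hy_neg]; exact ih1) (by rw [e2', Hy_neg]; exact ih0)
      (by
        rw [show -z + y - (-z - y) = z + y - (z - y) by ring, e1', e2', Hy_neg, Hy_neg, tanh_neg,
          tanh_neg, step_cst_neg, step_cst_comm]
        linarith) ha0 ha1
    rw [Hy_neg, add_comm e1 e0, add_comm D1 D0] at this
    exact this

theorem step3_core {y z X e0 e1 D0 D1 ζ : ℝ} (hy : 0 ≤ y) (hz : 0 ≤ z)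
    (hX : tanh X = (tanh (z + y) + tanh (z - y)) / 2)
    (he : 0 < e0 + e1)
    (ih0 : ∀ a, 0 ≤ a → a ≤ y0 → tg a (Hy (z + y) - e0) ≤ D0)
    (ih1 : ∀ a, 0 ≤ a → a ≤ y0 → tg a (Hy (z - y) - e1) ≤ D1)
    (jh0 : ∀ v, y0 ≤ v → GG (z + y) v - lam v * e0 ≤ D0)
    (jh1 : ∀ v, y0 ≤ v → GG (z - y) v - lam v * e1 ≤ D1)
    (hs1 : ∀ a, 0 ≤ a → a ≤ y0 → tg a (Hy X - (e0 + e1) / 2) ≤ (D0 + D1) / 2 + ζ)
    (hz0 : cst (z + y) (z - y) ≤ ζ)
    (hz1 : ∀ Y, 0 < Y →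
      kap Y * (|tanh (z + y) - tanh (z - y)| / 2) - mu Y * ((e0 + e1) / 2) ≤ ζ)
    {v : ℝ} (hv : y0 ≤ v) :
    GG X v - lam v * ((e0 + e1) / 2) ≤ (D0 + D1) / 2 + ζ := by
  rcases hy.eq_or_lt with rfl | hy
  · simp only [add_zero, sub_zero] at *
    have hXz : X = z := tanh_injective (by rw [hX]; ring)
    have := jh0 v hv
    have := jh1 v hv
    have : cst z z = 0 := by simp [cst]
    rw [hXz]
    linarith
  have hN := NN_pos y z
  have hS := p1_sinh_pos hy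
  have hd := dd_pos hy z
  have hX' : tanh X = sinh (2 * z) / NN y z := by rw [hX, tanh_add_tanh]; ring
  have h1 := Hy_mid hX'
  have h2 := Hy_add_Hy y z
  have hu : uu y z = tanh X ^ 2 := by rw [hX']; rfl
  have x0 : tanh (z + y) = tanh X + dd y z := by
    have := tanh_sub_tanh y z; linarith
  have x1 : tanh (z - y) = tanh X - dd y z := by
    have := tanh_sub_tanh y z; linarith
  have hio : dd y z * io y z = 1 := by rw [mul_comm]; exact io_mul_dd hy z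
  have hth : dd y z * th y z = 1 - tanh X ^ 2 := by
    rw [th_eq hy, ← mul_assoc, hio, hu, one_mul]
  have hm : dd y z * mm y z = MM y z / NN y z := by unfold dd mm; field_simp
  have hq : dd y z * qq y z = QQ y z / NN y z := by unfold dd qq; field_simp
  set l := (e0 + e1) / 2 / dd y z with hl
  have hl0 : 0 < l := div_pos (by linarith) hd
  have hdl : dd y z * l = (e0 + e1) / 2 := by rw [hl]; field_simp
  have hcost : ∀ F, Cost y l F → dd y z * F ≤ ζ := by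
    intro F hF
    rcases hF with hF | ⟨Y, hY, hF⟩
    · have := mul_le_mul_of_nonneg_left hF hd.le
      rw [step_cst] at hz0
      linarith
    · have g := hz1 Y hY
      rw [tanh_sub_tanh, abs_of_pos (by linarith), ← hdl] at g
      have := mul_le_mul_of_nonneg_left hF hd.le
      linarith
  rw [add_div] at h1
  rcases good_all hy hz hl0 hv with h | ⟨v', g1, g2, h⟩ | ⟨a, g1, g2, h⟩
  · have := mul_le_mul_of_nonneg_left h hd.le
    obtain ⟨a, a0, a1, a2⟩ := skip_rule (X := X) (e := (e0 + e1) / 2) hv (by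
      rw [← hth, ← hdl]; linarith)
    exact a2.trans (hs1 a a0 a1)
  · have k := hcost _ h
    have j0 := jh0 v' g1
    have j1 := jh1 v' g1
    have e : dd y z * FG y z l v v' = GG X v - lam v * ((e0 + e1) / 2)
        - ((GG (z + y) v' - lam v' * e0) + (GG (z - y) v' - lam v' * e1)) / 2 := by
      unfold FG GG
      rw [x0, x1, hu]
      linear_combination 2 * hm + (bb v - bb v') * hth - (lam v - lam v') * hdl - 2 * h1 + h2
    linarith
  · have k := hcost _ h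
    have j0 := ih0 a g1 g2
    have j1 := ih1 a g1 g2
    have e : dd y z * FP y z l v a = GG X v - lam v * ((e0 + e1) / 2)
        - (tg a (Hy (z + y) - e0) + tg a (Hy (z - y) - e1)) / 2 := by
      unfold FP GG tg psi
      rw [hu]
      linear_combination 2 * hm - (lam a - 2) * hq + bb v * hth - (lam v - lam a) * hdl
        + (lam a * ph a - pp a - xi * (tanh X ^ 2 * (1 - tanh X ^ 2))) * hio - 2 * h1
        + lam a / 2 * h2
    linarith

theorem step3_mid {A0 A1 X e0 e1 D0 D1 ζ : ℝ} (hA : A1 ≤ A0)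
    (hX : tanh X = (tanh A0 + tanh A1) / 2)
    (he : 0 < e0 + e1)
    (ih0 : ∀ a, 0 ≤ a → a ≤ y0 → tg a (Hy A0 - e0) ≤ D0)
    (ih1 : ∀ a, 0 ≤ a → a ≤ y0 → tg a (Hy A1 - e1) ≤ D1)
    (jh0 : ∀ v, y0 ≤ v → GG A0 v - lam v * e0 ≤ D0)
    (jh1 : ∀ v, y0 ≤ v → GG A1 v - lam v * e1 ≤ D1)
    (hs1 : ∀ a, 0 ≤ a → a ≤ y0 → tg a (Hy X - (e0 + e1) / 2) ≤ (D0 + D1) / 2 + ζ)
    (hz0 : cst A0 A1 ≤ ζ)
    (hz1 : ∀ Y, 0 < Y → kap Y * (|tanh A0 - tanh A1| / 2) - mu Y * ((e0 + e1) / 2) ≤ ζ)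
    {v : ℝ} (hv : y0 ≤ v) :
    GG X v - lam v * ((e0 + e1) / 2) ≤ (D0 + D1) / 2 + ζ := by
  obtain ⟨y, z, rfl, rfl⟩ : ∃ y z, A0 = z + y ∧ A1 = z - y :=
    ⟨(A0 - A1) / 2, (A0 + A1) / 2, by ring, by ring⟩
  have hy : 0 ≤ y := by linarith
  rcases le_total 0 z with hz | hz
  · exact step3_core hy hz hX he ih0 ih1 jh0 jh1 hs1 hz0 hz1 hv
  · have e1' : -z + y = -(z - y) := by ring
    have e2' : -z - y = -(z + y) := by ring
    have := step3_core (y := y) (z := -z) (X := -X) (e0 := e1) (e1 := e0) (D0 := D1) (D1 := D0)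
      (ζ := ζ) hy (by linarith) (by rw [e1', e2', tanh_neg, tanh_neg, tanh_neg, hX]; ring)
      (by linarith) (by rw [e1', Hy_neg]; exact ih1) (by rw [e2', Hy_neg]; exact ih0)
      (by rw [e1']; simp only [step_GG_neg]; exact jh1)
      (by rw [e2']; simp only [step_GG_neg]; exact jh0)
      (by rw [Hy_neg, add_comm e1 e0, add_comm D1 D0]; exact hs1)
      (by rw [e1', e2', step_cst_neg, step_cst_comm]; exact hz0)
      (by
        rw [e1', e2', tanh_neg, tanh_neg, add_comm e1 e0,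
          show -tanh (z - y) - -tanh (z + y) = tanh (z + y) - tanh (z - y) by ring]
        exact hz1) hv
    rw [step_GG_neg, add_comm e1 e0, add_comm D1 D0] at this
    exact this

theorem step1 {A0 A1 X e0 e1 D0 D1 ζ : ℝ} (hX : tanh X = (tanh A0 + tanh A1) / 2)
    (he0 : e0 ≤ Hy A0) (he1 : e1 ≤ Hy A1)
    (ih0 : ∀ a, 0 ≤ a → a ≤ y0 → tg a (Hy A0 - e0) ≤ D0)
    (ih1 : ∀ a, 0 ≤ a → a ≤ y0 → tg a (Hy A1 - e1) ≤ D1)
    (hz2 : cst A0 A1 + (tanh A0 - tanh A1) / 4 * tanh (A0 - A1)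
      * (((Hy A0 - e0) + (Hy A1 - e1)) / 2) ≤ ζ)
    {a : ℝ} (ha0 : 0 ≤ a) (ha1 : a ≤ y0) :
    tg a (Hy X - (e0 + e1) / 2) ≤ (D0 + D1) / 2 + ζ := by
  rcases le_total A1 A0 with h | h
  · exact step1_mid h hX he0 he1 ih0 ih1 hz2 ha0 ha1
  · have := step1_mid (X := X) (ζ := ζ) h (by rw [hX]; ring) he1 he0 ih1 ih0
      (by
        rw [step_cst_comm, show A1 - A0 = -(A0 - A1) by ring, tanh_neg]
        linarith) ha0 ha1
    rw [add_comm e1 e0, add_comm D1 D0] at this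
    exact this

theorem step3 {A0 A1 X e0 e1 D0 D1 ζ : ℝ} (hX : tanh X = (tanh A0 + tanh A1) / 2)
    (he : 0 < e0 + e1)
    (ih0 : ∀ a, 0 ≤ a → a ≤ y0 → tg a (Hy A0 - e0) ≤ D0)
    (ih1 : ∀ a, 0 ≤ a → a ≤ y0 → tg a (Hy A1 - e1) ≤ D1)
    (jh0 : ∀ v, y0 ≤ v → GG A0 v - lam v * e0 ≤ D0)
    (jh1 : ∀ v, y0 ≤ v → GG A1 v - lam v * e1 ≤ D1)
    (hs1 : ∀ a, 0 ≤ a → a ≤ y0 → tg a (Hy X - (e0 + e1) / 2) ≤ (D0 + D1) / 2 + ζ)
    (hz0 : cst A0 A1 ≤ ζ)
    (hz1 : ∀ Y, 0 < Y → kap Y * (|tanh A0 - tanh A1| / 2) - mu Y * ((e0 + e1) / 2) ≤ ζ)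
    {v : ℝ} (hv : y0 ≤ v) :
    GG X v - lam v * ((e0 + e1) / 2) ≤ (D0 + D1) / 2 + ζ := by
  rcases le_total A1 A0 with h | h
  · exact step3_mid h hX he ih0 ih1 jh0 jh1 hs1 hz0 hz1 hv
  · have := step3_mid (X := X) (ζ := ζ) h (by rw [hX]; ring) (by linarith) ih1 ih0 jh1 jh0
      (by rw [add_comm e1 e0, add_comm D1 D0]; exact hs1) (by rw [step_cst_comm]; exact hz0)
      (by rw [add_comm e1 e0, abs_sub_comm]; exact hz1) hv
    rw [add_comm e1 e0, add_comm D1 D0] at this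
    exact this

end Vale.Agent.P322
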